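import Vale.Agent.P143.Product

/-!
A jointly measurable Brownian motion, built by dyadic refinement from countably many Gaussians.
Only what is needed later is proved: the law of the dyadic increments and an `L¹` bound on the
distance to the dyadic step approximation.
-/

namespace Vale.Agent.P143

open MeasureTheory ProbabilityTheory Filter Topology
open scoped NNReal ENNReal

/-- raw randomness for one Brownian motion -/
abbrev Omega0 : Type := ℕ → ℕ → ℝ

/-- law of the raw randomness -/
noncomputable abbrev nu0 : Measure Omega0 :=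
  Measure.infinitePi fun _ : ℕ => Measure.infinitePi fun _ : ℕ => stdG

/-- normalised increments at dyadic level `J` -/
noncomputable def nincr : ℕ → Omega0 → ℕ → ℝ
  | 0, ω => ω 0
  | J + 1, ω => interleave
      (fun k => (nincr J ω k + ω (J + 1) k) / √2, fun k => (nincr J ω k - ω (J + 1) k) / √2)

lemma measurable_nincr : ∀ J, Measurable (nincr J) := by
  intro J
  induction J with
  | zero => exact measurable_pi_apply 0
  | succ J ih =>
    have h1 : Measurable fun ω => (fun k => (nincr J ω k + ω (J + 1) k) / √2,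
        fun k => (nincr J ω k - ω (J + 1) k) / √2) := by fun_prop
    exact measurable_interleave.comp h1

lemma law_nincr_rows : ∀ J, nu0.map (fun ω => (nincr J ω, fun k => ω (J + 1 + k))) =
    (Measure.infinitePi fun _ : ℕ => stdG).prod nu0 := by
  intro J
  induction J with
  | zero =>
    have := map_head_tail (Measure.infinitePi fun _ : ℕ => stdG)
    simpa [nincr, add_comm] using this
  | succ J ih =>
    let step : (ℕ → ℝ) × Omega0 → (ℕ → ℝ) × Omega0 := fun p =>
      (interleave (fun k => (p.1 k + p.2 0 k) / √2, fun k => (p.1 k - p.2 0 k) / √2),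
        fun k => p.2 (k + 1))
    let g : (ℕ → ℝ) × (ℕ → ℝ) → (ℕ → ℝ) := fun q =>
      interleave (fun k => (q.1 k + q.2 k) / √2, fun k => (q.1 k - q.2 k) / √2)
    have hg : Measurable g := measurable_interleave.comp (by fun_prop)
    have hstep : Measurable step := by
      refine Measurable.prodMk ?_ (by fun_prop)
      exact measurable_interleave.comp (by fun_prop)
    have hcomp : (fun ω : Omega0 => (nincr (J + 1) ω, fun k => ω (J + 1 + 1 + k))) =
        step ∘ fun ω => (nincr J ω, fun k => ω (J + 1 + k)) := by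
      funext ω
      simp only [step, Function.comp]
      refine Prod.ext rfl ?_
      funext k
      show ω (J + 1 + 1 + k) = ω (J + 1 + (k + 1))
      rw [show J + 1 + 1 + k = J + 1 + (k + 1) by omega]
    rw [hcomp, ← Measure.map_map hstep
      ((measurable_nincr J).prodMk (by fun_prop)), ih]
    -- split off the first row
    have hsplit : step = (fun p : (ℕ → ℝ) × ((ℕ → ℝ) × Omega0) => (g (p.1, p.2.1), p.2.2)) ∘
        Prod.map id (fun z : Omega0 => (z 0, fun k => z (k + 1))) := rfl
    rw [hsplit, ← Measure.map_map (by fun_prop) (by fun_prop),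
      ← Measure.map_prod_map _ _ measurable_id (by fun_prop), Measure.map_id,
      map_head_tail (Measure.infinitePi fun _ : ℕ => stdG)]
    have hg2 : ((Measure.infinitePi fun _ : ℕ => stdG).prod
        (Measure.infinitePi fun _ : ℕ => stdG)).map g = Measure.infinitePi fun _ : ℕ => stdG := by
      have e : g = interleave ∘ (fun z : ℕ → ℝ × ℝ => ((fun k => (z k).1), fun k => (z k).2)) ∘
          (fun z k => (((z k).1 + (z k).2) / √2, ((z k).1 - (z k).2) / √2)) ∘ zipPi := rfl
      rw [e, ← Measure.map_map measurable_interleave (by unfold zipPi; fun_prop),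
        ← Measure.map_map (by fun_prop) (by unfold zipPi; fun_prop),
        ← Measure.map_map (by fun_prop) measurable_zipPi, map_zipPi,
        show (Measure.infinitePi fun _ : ℕ => stdG.prod stdG).map
            (fun z k => (((z k).1 + (z k).2) / √2, ((z k).1 - (z k).2) / √2)) =
          Measure.infinitePi fun _ : ℕ =>
            (stdG.prod stdG).map fun q => ((q.1 + q.2) / √2, (q.1 - q.2) / √2) from
          Measure.infinitePi_map_pi (X := fun _ : ℕ => ℝ × ℝ) (fun _ : ℕ => stdG.prod stdG)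
            (f := fun (_ : ℕ) (q : ℝ × ℝ) => ((q.1 + q.2) / √2, (q.1 - q.2) / √2))
            (fun _ => by fun_prop)]
      simp only [map_haar_rotation]
      rw [map_unzipPi, map_interleave]
    rw [show (fun p : (ℕ → ℝ) × ((ℕ → ℝ) × Omega0) => (g (p.1, p.2.1), p.2.2)) =
        Prod.map g id ∘ MeasurableEquiv.prodAssoc.symm from rfl,
      ← Measure.map_map (by fun_prop) (by fun_prop),
      show ((Measure.infinitePi fun _ : ℕ => stdG).prod
        ((Measure.infinitePi fun _ : ℕ => stdG).prod nu0)).map MeasurableEquiv.prodAssoc.symm =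
        ((Measure.infinitePi fun _ : ℕ => stdG).prod (Measure.infinitePi fun _ : ℕ => stdG)).prod
          nu0 from ((measurePreserving_prodAssoc _ _ _).symm).map_eq,
      ← Measure.map_prod_map _ _ hg measurable_id, Measure.map_id, hg2]

lemma law_nincr (J : ℕ) : nu0.map (nincr J) = Measure.infinitePi fun _ : ℕ => stdG := by
  have h := congrArg (fun μ => Measure.map Prod.fst μ) (law_nincr_rows J)
  rw [Measure.map_map measurable_fst ((measurable_nincr J).prodMk (by fun_prop)),
    Measure.map_fst_prod, measure_univ, one_smul] at h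
  exact h

/-- dyadic increments of length `2⁻ᴶ` -/
noncomputable def incr (J : ℕ) (ω : Omega0) (k : ℕ) : ℝ := (√2)⁻¹ ^ J * nincr J ω k

lemma incr_pair (J : ℕ) (ω : Omega0) (k : ℕ) :
    incr (J + 1) ω (2 * k) + incr (J + 1) ω (2 * k + 1) = incr J ω k := by
  have h1 : (2 * k) % 2 = 0 := by omega
  have h2 : ¬ (2 * k + 1) % 2 = 0 := by omega
  have h3 : 2 * k / 2 = k := by omega
  have h4 : (2 * k + 1) / 2 = k := by omega
  simp only [incr, nincr, interleave, if_pos h1, if_neg h2, h3, h4, pow_succ]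
  have h5 : (√2 : ℝ) * √2 = 2 := Real.mul_self_sqrt zero_le_two
  field_simp
  ring_nf
  simp [Real.sq_sqrt]

/-- dyadic step approximation -/
noncomputable def bmJ (J : ℕ) (ω : Omega0) (t : ℝ) : ℝ :=
  ∑ k ∈ Finset.range ⌊t * 2 ^ J⌋₊, incr J ω k

lemma measurable_incr (J k : ℕ) : Measurable fun ω => incr J ω k :=
  ((measurable_pi_apply k).comp (measurable_nincr J)).const_mul _

lemma measurable_bmJ (J : ℕ) : Measurable fun p : ℝ × Omega0 => bmJ J p.2 p.1 := by
  have hN : Measurable fun p : ℝ × Omega0 => ⌊p.1 * 2 ^ J⌋₊ :=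
    Nat.measurable_floor.comp (by fun_prop)
  let F : ℕ → Omega0 → ℝ := fun n ω => ∑ k ∈ Finset.range n, incr J ω k
  have hF : Measurable fun q : ℕ × Omega0 => F q.1 q.2 :=
    measurable_from_prod_countable_right fun n =>
      show Measurable fun ω => ∑ k ∈ Finset.range n, incr J ω k from
      Finset.measurable_sum _ fun k _ => measurable_incr J k
  exact hF.comp (hN.prodMk measurable_snd)

/-- the Brownian motion -/
noncomputable def bm (ω : Omega0) (t : ℝ) : ℝ := limsup (fun J => bmJ J ω t) atTop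

lemma measurable_bm : Measurable fun p : ℝ × Omega0 => bm p.2 p.1 :=
  Measurable.limsup fun J => measurable_bmJ J

lemma sum_range_two_mul (J : ℕ) (ω : Omega0) (n : ℕ) :
    ∑ k ∈ Finset.range (2 * n), incr (J + 1) ω k = ∑ k ∈ Finset.range n, incr J ω k := by
  induction n with
  | zero => simp
  | succ n ih =>
    rw [Nat.mul_succ, Finset.sum_range_succ, Finset.sum_range_succ, Finset.sum_range_succ, ih,
      add_assoc, incr_pair]

/-- the step between consecutive levels is zero or one increment -/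
lemma bmJ_succ_sub (J : ℕ) {t : ℝ} (ht : 0 ≤ t) (ω : Omega0) :
    |bmJ (J + 1) ω t - bmJ J ω t| ≤ |incr (J + 1) ω (2 * ⌊t * 2 ^ J⌋₊)| := by
  set m := ⌊t * 2 ^ J⌋₊ with hm
  have h0 : 0 ≤ t * 2 ^ J := by positivity
  have hlo : (m : ℝ) ≤ t * 2 ^ J := Nat.floor_le h0
  have hhi : t * 2 ^ J < m + 1 := Nat.lt_floor_add_one _
  have h1 : 2 * m ≤ ⌊t * 2 ^ (J + 1)⌋₊ := Nat.le_floor (by push_cast; rw [pow_succ]; linarith)
  have h2 : ⌊t * 2 ^ (J + 1)⌋₊ < 2 * m + 2 :=
    (Nat.floor_lt (by positivity)).2 (by push_cast; rw [pow_succ]; linarith)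
  unfold bmJ
  rw [← hm, ← sum_range_two_mul J ω m]
  obtain h | h : ⌊t * 2 ^ (J + 1)⌋₊ = 2 * m ∨ ⌊t * 2 ^ (J + 1)⌋₊ = 2 * m + 1 := by omega
  · simp [h]
  · rw [h, Finset.sum_range_succ]; simp

lemma bm_dyadic (J k : ℕ) (ω : Omega0) :
    bm ω ((k : ℝ) / 2 ^ J) = ∑ i ∈ Finset.range k, incr J ω i := by
  have h : ∀ d, bmJ (J + d) ω ((k : ℝ) / 2 ^ J) = ∑ i ∈ Finset.range k, incr J ω i := by
    intro d
    have hfl : ⌊(k : ℝ) / 2 ^ J * 2 ^ (J + d)⌋₊ = k * 2 ^ d := by
      rw [pow_add, ← mul_assoc, div_mul_cancel₀ _ (by positivity)]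
      exact_mod_cast Nat.floor_natCast (k * 2 ^ d)
    unfold bmJ
    rw [hfl]
    clear hfl
    induction d with
    | zero => simp
    | succ d ih =>
      rw [show k * 2 ^ (d + 1) = 2 * (k * 2 ^ d) by rw [pow_succ]; ring,
        ← Nat.add_assoc, sum_range_two_mul, ih]
  have ht : Tendsto (fun J' => bmJ J' ω ((k : ℝ) / 2 ^ J)) atTop
      (𝓝 (∑ i ∈ Finset.range k, incr J ω i)) := by
    refine tendsto_const_nhds.congr' ?_
    filter_upwards [eventually_ge_atTop J] with J' hJ'
    obtain ⟨d, rfl⟩ := Nat.exists_eq_add_of_le hJ'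
    rw [h]
  exact ht.limsup_eq

/-- first absolute moment of the standard Gaussian -/
noncomputable def absG : ℝ≥0∞ := ∫⁻ x, ENNReal.ofReal |x| ∂stdG

lemma absG_ne_top : absG ≠ ⊤ := by
  have h : Integrable (fun x : ℝ => |x|) stdG :=
    ((memLp_id_gaussianReal 1).integrable le_rfl).abs
  exact (h.lintegral_lt_top).ne

lemma lintegral_incr (J k : ℕ) :
    ∫⁻ ω, ENNReal.ofReal |incr J ω k| ∂nu0 = ENNReal.ofReal ((√2)⁻¹ ^ J) * absG := by
  have h : nu0.map (fun ω => nincr J ω k) = stdG := by
    rw [show (fun ω => nincr J ω k) = (fun z : ℕ → ℝ => z k) ∘ nincr J from rfl,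
      ← Measure.map_map (by fun_prop) (measurable_nincr J), law_nincr, Measure.infinitePi_map_eval]
  simp only [incr, abs_mul, abs_of_nonneg (show (0 : ℝ) ≤ (√2)⁻¹ ^ J by positivity),
    ENNReal.ofReal_mul (show (0 : ℝ) ≤ (√2)⁻¹ ^ J by positivity)]
  rw [lintegral_const_mul' _ _ ENNReal.ofReal_ne_top]
  congr 1
  rw [absG, ← h]
  exact (lintegral_map (g := fun ω => nincr J ω k) (f := fun x : ℝ => ENNReal.ofReal |x|)
    (by fun_prop) ((measurable_pi_apply k).comp (measurable_nincr J))).symm

/-- `L¹` distance of the Brownian motion to its step approximation -/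
lemma lintegral_bm_sub (J : ℕ) {t : ℝ} (ht : 0 ≤ t) :
    ∫⁻ ω, ENNReal.ofReal |bm ω t - bmJ J ω t| ∂nu0 ≤
      (∑' i : ℕ, ENNReal.ofReal ((√2)⁻¹ ^ (J + i + 1))) * absG := by
  have hpt : ∀ ω, ENNReal.ofReal |bm ω t - bmJ J ω t| ≤
      ∑' i : ℕ, ENNReal.ofReal |incr (J + i + 1) ω (2 * ⌊t * 2 ^ (J + i)⌋₊)| := by
    intro ω
    set a : ℕ → ℝ := fun i => |incr (J + i + 1) ω (2 * ⌊t * 2 ^ (J + i)⌋₊)| with ha
    by_cases htop : (∑' i, ENNReal.ofReal (a i)) = ⊤
    · rw [htop]; exact le_top
    have hs : Summable a := by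
      have := ENNReal.summable_toReal htop
      simpa [ha] using this
    let u : ℕ → ℝ := fun d => bmJ (J + d) ω t
    have hu : ∀ d, dist (u d) (u (d + 1)) ≤ a d := fun d => by
      rw [dist_comm, Real.dist_eq]; exact bmJ_succ_sub (J + d) ht ω
    obtain ⟨l, hl⟩ := cauchySeq_tendsto_of_complete (cauchySeq_of_dist_le_of_summable a hu hs)
    have hl' : Tendsto (fun J' => bmJ J' ω t) atTop (𝓝 l) := by
      refine (tendsto_add_atTop_iff_nat J).1 ?_
      simpa [u, add_comm] using hl
    have hd := dist_le_tsum_of_dist_le_of_tendsto₀ a hu hs hl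
    rw [show bm ω t = l from hl'.limsup_eq, ← ENNReal.ofReal_tsum_of_nonneg (fun i => abs_nonneg _) hs]
    refine ENNReal.ofReal_le_ofReal ?_
    rw [abs_sub_comm, ← Real.dist_eq]
    simpa [u] using hd
  refine (lintegral_mono hpt).trans (le_of_eq ?_)
  rw [lintegral_tsum (f := fun (i : ℕ) (ω : Omega0) =>
      ENNReal.ofReal |incr (J + i + 1) ω (2 * ⌊t * 2 ^ (J + i)⌋₊)|)
      fun i => (ENNReal.measurable_ofReal.comp (measurable_incr _ _).abs).aemeasurable,
    ← ENNReal.tsum_mul_right]
  exact tsum_congr fun i => lintegral_incr _ _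

lemma tendsto_step_error :
    Tendsto (fun J : ℕ => ∑' i : ℕ, ENNReal.ofReal ((√2)⁻¹ ^ (J + i + 1))) atTop (𝓝 0) := by
  set r : ℝ := (√2)⁻¹ with hr
  have hr0 : 0 ≤ r := by positivity
  have hr1 : r < 1 := by
    rw [hr]; exact inv_lt_one_of_one_lt₀ (by simpa using Real.one_lt_sqrt_two)
  have hs : Summable fun i : ℕ => r ^ i := summable_geometric_of_lt_one hr0 hr1
  have h : ∀ J : ℕ, ∑' i : ℕ, ENNReal.ofReal (r ^ (J + i + 1)) =
      ENNReal.ofReal (r ^ (J + 1) * ∑' i, r ^ i) := by
    intro J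
    rw [← tsum_mul_left, ENNReal.ofReal_tsum_of_nonneg (fun i => by positivity) (hs.mul_left _)]
    exact tsum_congr fun i => by rw [← pow_add]; congr 2; omega
  simp only [h]
  have := ((tendsto_pow_atTop_nhds_zero_of_lt_one hr0 hr1).comp (tendsto_add_atTop_nat 1)).mul_const
    (∑' i, r ^ i)
  rw [zero_mul] at this
  simpa using ENNReal.tendsto_ofReal this

/-- Exponential bound on the Gaussian tail. -/
lemma gauss_tail {a : ℝ} (ha : 0 ≤ a) :
    stdG.real {x | a ≤ |x|} ≤ 2 * Real.exp (-(a * a) / 2) := by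
  have h1 : stdG.real {x | a ≤ x} ≤ Real.exp (-(a * a) / 2) := by
    refine (measure_ge_le_exp_mul_mgf (X := id) a ha (integrable_exp_mul_gaussianReal a)).trans
      (le_of_eq ?_)
    rw [mgf_id_gaussianReal, ← Real.exp_add]
    congr 1
    simp; ring
  have h2 : stdG.real {x | x ≤ -a} ≤ Real.exp (-(a * a) / 2) := by
    refine (measure_le_le_exp_mul_mgf (X := id) (-a) (by linarith : -a ≤ 0)
      (integrable_exp_mul_gaussianReal (-a))).trans (le_of_eq ?_)
    rw [mgf_id_gaussianReal, ← Real.exp_add]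
    congr 1
    simp; ring
  have h3 : {x : ℝ | a ≤ |x|} ⊆ {x | a ≤ x} ∪ {x | x ≤ -a} := fun x hx => by
    rcases le_abs.1 (show a ≤ |x| from hx) with h | h
    · exact Or.inl h
    · exact Or.inr (by show x ≤ -a; linarith)
  calc stdG.real {x | a ≤ |x|} ≤ stdG.real ({x | a ≤ x} ∪ {x | x ≤ -a}) := measureReal_mono h3
    _ ≤ stdG.real {x | a ≤ x} + stdG.real {x | x ≤ -a} := measureReal_union_le _ _
    _ ≤ _ := by linarith

lemma measurable_bm_comp {α : Type} [MeasurableSpace α] {f : α → ℝ} {g : α → Omega0}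
    (hf : Measurable f) (hg : Measurable g) : Measurable fun a => bm (g a) (f a) :=
  Measurable.comp (g := fun p : ℝ × Omega0 => bm p.2 p.1) (f := fun a => (f a, g a))
    measurable_bm (hf.prodMk hg)

attribute [irreducible] bm

end Vale.Agent.P143
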