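import Mathlib

/-!
The notions used in the statement of the hand-in for P143.
-/

namespace Vale.Agent.P143

open MeasureTheory Filter Topology

/-- `T` is the edge set of a spanning tree of the subgraph `H`: a cycle-free set of edges of `H`
which joins any two vertices of `H`. -/
def IsSpanningTree {V : Type} {G : SimpleGraph V} (H : G.Subgraph) (T : Finset (Sym2 V)) : Prop :=
  (T : Set (Sym2 V)) ⊆ H.edgeSet ∧ (SimpleGraph.fromEdgeSet (T : Set (Sym2 V))).IsAcyclic ∧
    ∀ u ∈ H.verts, ∀ v ∈ H.verts, (SimpleGraph.fromEdgeSet (T : Set (Sym2 V))).Reachable u v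

/-- Probability, for the uniform spanning tree of `H`, that the tree satisfies `P`:
the proportion of spanning trees satisfying `P`. -/
noncomputable def ustProb {V : Type} {G : SimpleGraph V} (H : G.Subgraph)
    (P : Finset (Sym2 V) → Prop) : ℝ :=
  ({T | IsSpanningTree H T ∧ P T}.ncard : ℝ) / ({T | IsSpanningTree H T}.ncard : ℝ)

/-- An exhaustion of `G` by finite connected subgraphs. -/
def IsExhaustion {V : Type} (G : SimpleGraph V) (H : ℕ → G.Subgraph) : Prop :=
  Monotone H ∧ (∀ n, (H n).verts.Finite ∧ (H n).Connected) ∧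
    (∀ v, ∃ n, v ∈ (H n).verts) ∧ ∀ e ∈ G.edgeSet, ∃ n, e ∈ (H n).edgeSet

/-- The law of i.i.d. labels, uniform on `[0,1]`, indexed by the vertices. -/
noncomputable def iidLabels (V : Type) : Measure (V → unitInterval) :=
  Measure.infinitePi fun _ : V => (volume : Measure unitInterval)

/-- `Φ` applied to i.i.d. labels has the law of the free uniform spanning forest of `G`: all
cylinder probabilities of the uniform spanning trees along every exhaustion converge to the
corresponding probabilities of `Φ`. -/
def HasFUSFLaw {V : Type} (G : SimpleGraph V) (Φ : (V → unitInterval) → Set (Sym2 V)) : Prop :=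
  ∀ H : ℕ → G.Subgraph, IsExhaustion G H →
    ∀ S A : Finset (Sym2 V), (S : Set (Sym2 V)) ⊆ G.edgeSet → A ⊆ S →
      Tendsto (fun n => ustProb (H n) fun T => ∀ e ∈ S, (e ∈ T ↔ e ∈ A)) atTop
        (𝓝 ((iidLabels V).real {U | ∀ e ∈ S, (e ∈ Φ U ↔ e ∈ A)}))

end Vale.Agent.P143
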