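import Mathlib

/-!
Effective conductances across an edge in a graph with edge weights `exp (h f)`, and the free
edge marginal `marg`.  The only analytic facts used later are: the marginal lies in `[0,1]`, it is
`2`-Lipschitz for the sup distance, it is measurable and equivariant, and it is continuous along
exhaustions.
-/

namespace Vale.Agent.P143

open Filter Topology
open scoped ENNReal

variable {V W : Type}

/-- squared difference of a potential across a pair -/
def sqd (φ : V → ℝ) : Sym2 V → ℝ :=
  Sym2.lift ⟨fun x y => (φ x - φ y) ^ 2, fun x y => by ring⟩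

@[simp] lemma sqd_mk (φ : V → ℝ) (x y : V) : sqd φ s(x, y) = (φ x - φ y) ^ 2 := rfl

lemma sqd_nonneg (φ : V → ℝ) (f : Sym2 V) : 0 ≤ sqd φ f := by
  induction f using Sym2.ind with
  | _ x y => simp; positivity

lemma sqd_map (φ : V → ℝ) (σ : V ≃ W) (f : Sym2 V) :
    sqd (φ ∘ σ.symm) (f.map σ) = sqd φ f := by
  induction f using Sym2.ind with
  | _ x y => simp

lemma continuous_sqd (f : Sym2 V) : Continuous fun φ : V → ℝ => sqd φ f := by
  induction f using Sym2.ind with
  | _ x y => simp only [sqd_mk]; fun_prop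

/-- Dirichlet energy on a finite edge set -/
noncomputable def energy (F : Finset (Sym2 V)) (h : Sym2 V → ℝ) (φ : V → ℝ) : ℝ :=
  ∑ f ∈ F, Real.exp (h f) * sqd φ f

lemma energy_nonneg (F : Finset (Sym2 V)) (h : Sym2 V → ℝ) (φ : V → ℝ) : 0 ≤ energy F h φ :=
  Finset.sum_nonneg fun f _ => mul_nonneg (Real.exp_nonneg _) (sqd_nonneg _ _)

/-- least energy of a potential with unit drop across `e` -/
noncomputable def cutE (F : Finset (Sym2 V)) (e : Sym2 V) (h : Sym2 V → ℝ) : ℝ :=
  ⨅ φ : {φ : V → ℝ // sqd φ e = 1}, energy F h φ.1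

lemma cutE_nonneg (F : Finset (Sym2 V)) (e : Sym2 V) (h : Sym2 V → ℝ) : 0 ≤ cutE F e h :=
  Real.iInf_nonneg fun φ => energy_nonneg F h φ.1

lemma cutE_le (F : Finset (Sym2 V)) (e : Sym2 V) (h : Sym2 V → ℝ) (φ : V → ℝ)
    (hφ : sqd φ e = 1) : cutE F e h ≤ energy F h φ :=
  ciInf_le (f := fun φ : {φ : V → ℝ // sqd φ e = 1} => energy F h φ.1)
    ⟨0, by rintro _ ⟨φ, rfl⟩; exact energy_nonneg F h φ.1⟩ ⟨φ, hφ⟩

lemma exists_drop {e : Sym2 V} (he : ¬ e.IsDiag) : ∃ φ : V → ℝ, sqd φ e = 1 := by
  classical
  induction e using Sym2.ind with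
  | _ x y =>
    refine ⟨fun v => if v = x then 1 else 0, ?_⟩
    have : y ≠ x := fun hh => he (by simp [hh])
    simp [this]

lemma le_cutE (F : Finset (Sym2 V)) {e : Sym2 V} (he : ¬ e.IsDiag) (h : Sym2 V → ℝ) {c : ℝ}
    (hc : ∀ φ : V → ℝ, sqd φ e = 1 → c ≤ energy F h φ) : c ≤ cutE F e h := by
  have : Nonempty {φ : V → ℝ // sqd φ e = 1} := by
    obtain ⟨φ, hφ⟩ := exists_drop he; exact ⟨⟨φ, hφ⟩⟩
  exact le_ciInf fun φ => hc φ.1 φ.2

lemma cutE_mono {F F' : Finset (Sym2 V)} (hF : F ⊆ F') (e : Sym2 V) (h : Sym2 V → ℝ) :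
    cutE F e h ≤ cutE F' e h := by
  refine ciInf_mono ⟨0, ?_⟩ fun φ => ?_
  · rintro _ ⟨φ, rfl⟩; exact energy_nonneg F h φ.1
  · exact Finset.sum_le_sum_of_subset_of_nonneg hF
      fun f _ _ => mul_nonneg (Real.exp_nonneg _) (sqd_nonneg _ _)

lemma cutE_le_exp_mul (F : Finset (Sym2 V)) (e : Sym2 V) {h h' : Sym2 V → ℝ} {δ : ℝ}
    (hh : ∀ f ∈ F, h' f ≤ h f + δ) : cutE F e h' ≤ Real.exp δ * cutE F e h := by
  rw [cutE, cutE, Real.mul_iInf_of_nonneg (Real.exp_nonneg δ)]
  refine ciInf_mono ⟨0, ?_⟩ fun φ => ?_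
  · rintro _ ⟨φ, rfl⟩; exact energy_nonneg F h' φ.1
  · rw [energy, energy, Finset.mul_sum]
    refine Finset.sum_le_sum fun f hf => ?_
    rw [← mul_assoc, ← Real.exp_add]
    exact mul_le_mul_of_nonneg_right (Real.exp_le_exp.2 (by linarith [hh f hf])) (sqd_nonneg _ _)

lemma continuous_cutE (F : Finset (Sym2 V)) (e : Sym2 V) : Continuous (cutE F e) := by
  rw [continuous_iff_continuousAt]
  intro h
  set d : (Sym2 V → ℝ) → ℝ := fun h' => ∑ f ∈ F, |h' f - h f| with hd
  have hdc : Continuous d := by rw [hd]; fun_prop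
  have hd0 : Tendsto d (𝓝 h) (𝓝 0) := by
    have := hdc.tendsto h
    simpa [hd] using this
  have key : ∀ (h' : Sym2 V → ℝ) (f : Sym2 V), f ∈ F → |h' f - h f| ≤ d h' := fun h' f hf =>
    Finset.single_le_sum (f := fun f => |h' f - h f|) (fun i _ => abs_nonneg _) hf
  refine tendsto_of_tendsto_of_tendsto_of_le_of_le
    (g := fun h' => Real.exp (-d h') * cutE F e h) (h := fun h' => Real.exp (d h') * cutE F e h)
    ?_ ?_ (fun h' => ?_) (fun h' => ?_)
  · simpa using ((Real.continuous_exp.tendsto _).comp hd0.neg).mul_const (cutE F e h)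
  · simpa using ((Real.continuous_exp.tendsto _).comp hd0).mul_const (cutE F e h)
  · have := cutE_le_exp_mul F e (h := h') (h' := h) (δ := d h')
      (fun f hf => by have := abs_le.1 (key h' f hf); linarith [this.1, this.2])
    calc Real.exp (-d h') * cutE F e h ≤ Real.exp (-d h') * (Real.exp (d h') * cutE F e h') := by
          gcongr
      _ = cutE F e h' := by rw [← mul_assoc, ← Real.exp_add]; simp
  · exact cutE_le_exp_mul F e (fun f hf => by
      have := abs_le.1 (key h' f hf); linarith [this.1, this.2])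

open Classical in
/-- free effective conductance across `e` of the edge set `E` -/
noncomputable def cond (E : Set (Sym2 V)) (e : Sym2 V) (h : Sym2 V → ℝ) : ℝ≥0∞ :=
  ⨆ F : Finset (Sym2 V), ENNReal.ofReal (cutE (F.filter (· ∈ E)) e h)

open Classical in
/-- free marginal of the edge `e` -/
noncomputable def marg (E : Set (Sym2 V)) (e : Sym2 V) (h : Sym2 V → ℝ) : ℝ :=
  if e ∈ E then Real.exp (h e) / (cond E e h).toReal else 0

lemma le_cond {E : Set (Sym2 V)} {F : Finset (Sym2 V)} (hF : ↑F ⊆ E) (e : Sym2 V)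
    (h : Sym2 V → ℝ) : ENNReal.ofReal (cutE F e h) ≤ cond E e h := by
  classical
  refine le_trans (le_of_eq ?_) (le_iSup _ F)
  rw [Finset.filter_true_of_mem fun x hx => hF hx]

lemma cond_coe_finset (S : Finset (Sym2 V)) (e : Sym2 V) (h : Sym2 V → ℝ) :
    cond (S : Set (Sym2 V)) e h = ENNReal.ofReal (cutE S e h) := by
  classical
  refine le_antisymm (iSup_le fun F => ENNReal.ofReal_le_ofReal (cutE_mono ?_ e h))
    (le_cond subset_rfl e h)
  intro x hx
  exact Finset.mem_coe.1 ((@Finset.mem_filter _ _ (fun a => Classical.propDecidable _) _ _).1 hx).2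

lemma marg_coe_finset (S : Finset (Sym2 V)) {e : Sym2 V} (he : e ∈ S) (h : Sym2 V → ℝ) :
    marg (S : Set (Sym2 V)) e h = Real.exp (h e) / cutE S e h := by
  rw [marg, if_pos (Finset.mem_coe.2 he), cond_coe_finset,
    ENNReal.toReal_ofReal (cutE_nonneg _ _ _)]

/-- the standing hypothesis: edge sets contain no diagonal pair -/
def Loopless (E : Set (Sym2 V)) : Prop := ∀ e ∈ E, ¬ e.IsDiag

lemma exp_le_cutE {F : Finset (Sym2 V)} {e : Sym2 V} (he : e ∈ F) (hd : ¬ e.IsDiag)
    (h : Sym2 V → ℝ) : Real.exp (h e) ≤ cutE F e h :=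
  le_cutE F hd h fun φ hφ => by
    have := Finset.single_le_sum (f := fun f => Real.exp (h f) * sqd φ f)
      (fun f _ => mul_nonneg (Real.exp_nonneg _) (sqd_nonneg _ _)) he
    simpa [hφ, energy] using this

lemma marg_nonneg (E : Set (Sym2 V)) (e : Sym2 V) (h : Sym2 V → ℝ) : 0 ≤ marg E e h := by
  rw [marg]; split_ifs
  · exact div_nonneg (Real.exp_nonneg _) ENNReal.toReal_nonneg
  · exact le_rfl

lemma marg_le_one {E : Set (Sym2 V)} (hE : Loopless E) (e : Sym2 V) (h : Sym2 V → ℝ) :
    marg E e h ≤ 1 := by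
  classical
  rw [marg]; split_ifs with he
  · by_cases ht : cond E e h = ⊤
    · simp [ht]
    · have h1 : Real.exp (h e) ≤ (cond E e h).toReal := by
        have h2 : ENNReal.ofReal (Real.exp (h e)) ≤ cond E e h :=
          le_trans (ENNReal.ofReal_le_ofReal (exp_le_cutE (Finset.mem_singleton_self e) (hE e he) h))
            (le_cond (by simpa using he) e h)
        simpa [ENNReal.toReal_ofReal (Real.exp_nonneg _)] using ENNReal.toReal_mono ht h2
      exact div_le_one_of_le₀ h1 ENNReal.toReal_nonneg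
  · exact zero_le_one

lemma cond_le_exp_mul (E : Set (Sym2 V)) (e : Sym2 V) {h h' : Sym2 V → ℝ} {δ : ℝ}
    (hh : ∀ f ∈ E, h' f ≤ h f + δ) : cond E e h' ≤ ENNReal.ofReal (Real.exp δ) * cond E e h := by
  classical
  rw [cond, cond, ENNReal.mul_iSup]
  refine iSup_mono fun F => ?_
  rw [← ENNReal.ofReal_mul (Real.exp_nonneg δ)]
  exact ENNReal.ofReal_le_ofReal
    (cutE_le_exp_mul _ e fun f hf => hh f (Finset.mem_filter.1 hf).2)

/-- The marginal is `2`-Lipschitz in the sup distance, with no bound on `h` itself. -/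
lemma marg_lipschitz {E : Set (Sym2 V)} (hE : Loopless E) (e : Sym2 V) {h h' : Sym2 V → ℝ}
    {δ : ℝ} (hδ : 0 ≤ δ) (hh : ∀ f ∈ E, |h f - h' f| ≤ δ) :
    |marg E e h - marg E e h'| ≤ 2 * δ := by
  suffices key : ∀ g g' : Sym2 V → ℝ, (∀ f ∈ E, |g f - g' f| ≤ δ) →
      marg E e g - marg E e g' ≤ 2 * δ by
    rw [abs_sub_le_iff]
    exact ⟨key h h' hh, key h' h fun f hf => by rw [abs_sub_comm]; exact hh f hf⟩
  intro g g' hg
  have h1 := cond_le_exp_mul E e (h := g) (h' := g') (δ := δ)
    (fun f hf => by have := abs_le.1 (hg f hf); linarith [this.1, this.2])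
  have h2 := cond_le_exp_mul E e (h := g') (h' := g) (δ := δ)
    (fun f hf => by have := abs_le.1 (hg f hf); linarith [this.1, this.2])
  have hm0 := marg_nonneg E e g'
  have hm1 := marg_le_one hE e g
  have hmain : Real.exp (-(2 * δ)) * marg E e g ≤ marg E e g' := by
    unfold marg
    split_ifs with he
    · by_cases ht : cond E e g = ⊤
      · simp only [ht, ENNReal.toReal_top, div_zero, mul_zero]
        positivity
      · have ht' : cond E e g' ≠ ⊤ := fun h0 => by
          rw [h0, top_le_iff, ENNReal.mul_eq_top] at h1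
          rcases h1 with ⟨_, h1⟩ | ⟨h1, _⟩
          · exact ht h1
          · exact ENNReal.ofReal_ne_top h1
        have h3 : (cond E e g').toReal ≤ Real.exp δ * (cond E e g).toReal := by
          have h4 := ENNReal.toReal_mono (ENNReal.mul_ne_top ENNReal.ofReal_ne_top ht) h1
          simpa [ENNReal.toReal_mul, ENNReal.toReal_ofReal (Real.exp_nonneg δ)] using h4
        have hpos : 0 < (cond E e g').toReal := by
          have h5 : ENNReal.ofReal (Real.exp (g' e)) ≤ cond E e g' :=
            le_trans (ENNReal.ofReal_le_ofReal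
              (exp_le_cutE (Finset.mem_singleton_self e) (hE e he) g'))
              (le_cond (by simpa using he) e g')
          have h6 := ENNReal.toReal_mono ht' h5
          rw [ENNReal.toReal_ofReal (Real.exp_nonneg _)] at h6
          exact lt_of_lt_of_le (Real.exp_pos _) h6
        have hpos' : 0 < (cond E e g).toReal := by
          by_contra hcon
          have : (cond E e g).toReal = 0 := le_antisymm (not_lt.1 hcon) ENNReal.toReal_nonneg
          rw [this, mul_zero] at h3
          linarith
        rw [mul_div_assoc', div_le_div_iff₀ hpos' hpos]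
        have h7 : g e - δ ≤ g' e := by
          have := abs_le.1 (hg e he); linarith [this.1, this.2]
        calc Real.exp (-(2 * δ)) * Real.exp (g e) * (cond E e g').toReal
            ≤ Real.exp (-(2 * δ)) * Real.exp (g e) * (Real.exp δ * (cond E e g).toReal) := by
              gcongr
          _ = Real.exp (g e - δ) * (cond E e g).toReal := by
              rw [← mul_assoc, ← Real.exp_add, ← Real.exp_add]
              congr 2
              ring
          _ ≤ Real.exp (g' e) * (cond E e g).toReal := by gcongr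
    · simp
  have h4 : 1 - 2 * δ ≤ Real.exp (-(2 * δ)) := by
    have := Real.add_one_le_exp (-(2 * δ)); linarith
  have h5 : 0 ≤ marg E e g := marg_nonneg E e g
  nlinarith [mul_le_mul_of_nonneg_right h4 h5, mul_le_mul_of_nonneg_left hm1 (mul_nonneg zero_le_two hδ)]

lemma marg_congr {E : Set (Sym2 V)} (hE : Loopless E) (e : Sym2 V) {h h' : Sym2 V → ℝ}
    (hh : ∀ f ∈ E, h f = h' f) : marg E e h = marg E e h' := by
  have := marg_lipschitz hE e (le_refl (0 : ℝ)) (h := h) (h' := h')
    (fun f hf => by simp [hh f hf])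
  rw [mul_zero, abs_nonpos_iff, sub_eq_zero] at this
  exact this

open Classical in
lemma measurable_marg [Countable V] {α : Type} [MeasurableSpace α] {E : α → Set (Sym2 V)}
    {H : α → Sym2 V → ℝ} (hE : ∀ f, MeasurableSet {a | f ∈ E a}) (hH : Measurable H)
    (e : Sym2 V) : Measurable fun a => marg (E a) e (H a) := by
  unfold marg
  refine Measurable.ite (hE e) ?_ measurable_const
  refine Measurable.div ((Real.measurable_exp).comp ((measurable_pi_apply e).comp hH)) ?_
  refine Measurable.ennreal_toReal ?_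
  unfold cond
  refine Measurable.iSup fun F => ENNReal.measurable_ofReal.comp ?_
  have hset : ∀ F', MeasurableSet {a | F.filter (· ∈ E a) = F'} := by
    intro F'
    by_cases hs : F' ⊆ F
    · have : {a | F.filter (· ∈ E a) = F'} = ⋂ f ∈ F, {a | f ∈ E a ↔ f ∈ F'} := by
        ext a
        simp only [Set.mem_iInter, Finset.ext_iff, Finset.mem_filter]
        constructor
        · intro h f hf
          have := h f
          exact ⟨fun h' => this.1 ⟨hf, h'⟩, fun h' => (this.2 h').2⟩
        · intro h f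
          exact ⟨fun h' => (h f h'.1).1 h'.2, fun h' => ⟨hs h', (h f (hs h')).2 h'⟩⟩
      rw [this]
      refine Finset.measurableSet_biInter F fun f _ => ?_
      by_cases hf : f ∈ F'
      · simpa [hf] using hE f
      · simp only [hf, iff_false]; exact (hE f).compl
    · have : {a | F.filter (· ∈ E a) = F'} = ∅ := by
        ext a; simp only [Set.mem_empty_iff_false, iff_false]
        intro h; exact hs (h ▸ Finset.filter_subset _ F)
      rw [this]; exact MeasurableSet.empty
  have : (fun a => cutE (F.filter (· ∈ E a)) e (H a)) = fun a =>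
      ∑ F' ∈ F.powerset, Set.indicator {a | F.filter (· ∈ E a) = F'}
        (fun a => cutE F' e (H a)) a := by
    funext a
    rw [Finset.sum_eq_single (F.filter (· ∈ E a))]
    · rw [Set.indicator_of_mem]; rfl
    · intro F' _ hne
      rw [Set.indicator_of_notMem]
      exact fun h => hne h.symm
    · intro h; exact absurd (Finset.mem_powerset.2 (Finset.filter_subset _ F)) h
  rw [this]
  exact Finset.measurable_sum _ fun F' _ =>
    (((continuous_cutE F' e).measurable).comp hH).indicator (hset F')

lemma measurable_marg_fixed [Countable V] (E : Set (Sym2 V)) (e : Sym2 V) :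
    Measurable (marg E e) :=
  measurable_marg (E := fun _ => E) (fun f => by by_cases hf : f ∈ E <;> simp [hf]) measurable_id e

/-- equivariance -/
lemma marg_map (σ : V ≃ W) (E : Set (Sym2 V)) (e : Sym2 V) (h : Sym2 W → ℝ) :
    marg (Sym2.map σ '' E) (e.map σ) h = marg E e (fun f => h (f.map σ)) := by
  classical
  have hinj : Function.Injective (Sym2.map σ) := Sym2.map.injective σ.injective
  have hcut : ∀ F : Finset (Sym2 V),
      cutE (F.image (Sym2.map σ)) (e.map σ) h = cutE F e (fun f => h (f.map σ)) := by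
    intro F
    unfold cutE
    let eqv : {φ : V → ℝ // sqd φ e = 1} ≃ {φ : W → ℝ // sqd φ (e.map σ) = 1} :=
      (Equiv.arrowCongr σ (Equiv.refl ℝ)).subtypeEquiv fun φ => by
        show sqd φ e = 1 ↔ sqd (φ ∘ σ.symm) (e.map σ) = 1
        rw [sqd_map]
    refine (Function.Surjective.iInf_congr eqv eqv.surjective fun φ => ?_).symm
    show energy (F.image (Sym2.map σ)) h (φ.1 ∘ σ.symm) = _
    unfold energy
    rw [Finset.sum_image fun a _ b _ hab => hinj hab]
    exact Finset.sum_congr rfl fun f _ => by rw [sqd_map]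
  have hcond : cond (Sym2.map σ '' E) (e.map σ) h = cond E e (fun f => h (f.map σ)) := by
    unfold cond
    refine (Function.Surjective.iSup_congr (fun F : Finset (Sym2 V) => F.image (Sym2.map σ))
      (fun G => ⟨G.image (Sym2.map σ.symm), ?_⟩) fun F => ?_).symm
    · show (G.image (Sym2.map σ.symm)).image (Sym2.map σ) = G
      rw [Finset.image_image]
      have : (Sym2.map σ ∘ Sym2.map σ.symm) = id := by
        funext f; simp [Sym2.map_map]
      rw [this, Finset.image_id]
    · congr 1
      rw [← hcut]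
      congr 1
      rw [Finset.filter_image]
      congr 1
      refine Finset.filter_congr fun f _ => ?_
      exact hinj.mem_set_image
  simp only [marg, hcond, hinj.mem_set_image]

end Vale.Agent.P143
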