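import Vale.Agent.P143.Brownian

/-!
The finite-volume identity: for a finite family of configurations of constant size with Lipschitz
tilted marginals, Euler's scheme for `h' = m h + noise` converges to the law of
`T • (configuration) + √T • Gaussian`.
-/

namespace Vale.Agent.P143

open MeasureTheory ProbabilityTheory Filter Topology
open scoped NNReal ENNReal

variable {ι : Type} [Fintype ι]

/-- standard Gaussian vector -/
noncomputable abbrev gam (ι : Type) [Fintype ι] : Measure (ι → ℝ) := Measure.pi fun _ : ι => stdG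

/-- a finite tilt model -/
structure Model (ι : Type) [Fintype ι] where
  /-- the configurations, as indicator vectors -/
  conf : Finset (ι → ℝ)
  /-- the tilted marginals -/
  m : (ι → ℝ) → ι → ℝ
  nonempty : conf.Nonempty
  zero_one : ∀ x ∈ conf, ∀ i, x i = 0 ∨ x i = 1
  size : ℝ
  size_eq : ∀ x ∈ conf, ∑ i, x i = size
  m_eq : ∀ h i, m h i * ∑ x ∈ conf, Real.exp (∑ j, h j * x j) =
    ∑ x ∈ conf, Real.exp (∑ j, h j * x j) * x i
  lip : ∀ h g i δ, 0 ≤ δ → (∀ j, |h j - g j| ≤ δ) → |m h i - m g i| ≤ 2 * δ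

variable (M : Model ι)

/-- unnormalised tilted weight -/
noncomputable def Model.w (_M : Model ι) (h x : ι → ℝ) : ℝ := Real.exp (∑ j, h j * x j)

/-- tilted probability of a configuration -/
noncomputable def Model.mu (h x : ι → ℝ) : ℝ := M.w h x / ∑ y ∈ M.conf, M.w h y

lemma Model.Z_pos (h : ι → ℝ) : 0 < ∑ y ∈ M.conf, M.w h y :=
  Finset.sum_pos (fun _ _ => Real.exp_pos _) M.nonempty

lemma Model.mu_nonneg (h x : ι → ℝ) : 0 ≤ M.mu h x :=
  div_nonneg (Real.exp_pos _).le (M.Z_pos h).le

lemma Model.sum_mu (h : ι → ℝ) : ∑ x ∈ M.conf, M.mu h x = 1 := by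
  simp only [Model.mu, ← Finset.sum_div]
  exact div_self (M.Z_pos h).ne'

lemma Model.m_eq_mu (h : ι → ℝ) (i : ι) : M.m h i = ∑ x ∈ M.conf, M.mu h x * x i := by
  simp only [Model.mu, div_mul_eq_mul_div, ← Finset.sum_div]
  rw [eq_div_iff (M.Z_pos h).ne']
  exact M.m_eq h i

lemma Model.m_mem (h : ι → ℝ) (i : ι) : M.m h i ∈ Set.Icc (0 : ℝ) 1 := by
  rw [M.m_eq_mu h i]
  constructor
  · refine Finset.sum_nonneg fun x hx => mul_nonneg (M.mu_nonneg h x) ?_
    rcases M.zero_one x hx i with h0 | h0 <;> simp [h0]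
  · calc ∑ x ∈ M.conf, M.mu h x * x i ≤ ∑ x ∈ M.conf, M.mu h x * 1 := by
          refine Finset.sum_le_sum fun x hx => mul_le_mul_of_nonneg_left ?_ (M.mu_nonneg h x)
          rcases M.zero_one x hx i with h0 | h0 <;> simp [h0]
      _ = 1 := by simp [M.sum_mu h]

lemma Model.measurable_mu (x : ι → ℝ) : Measurable fun h => M.mu h x := by
  unfold Model.mu Model.w; fun_prop

lemma Model.measurable_m (i : ι) : Measurable fun h => M.m h i := by
  have : (fun h => M.m h i) = fun h => ∑ x ∈ M.conf, M.mu h x * x i := funext fun h => M.m_eq_mu h i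
  rw [this]
  exact Finset.measurable_sum _ fun x _ => (M.measurable_mu x).mul_const _

/-- a bounded measurable observable -/
def Obs (f : (ι → ℝ) → ℝ) : Prop := Measurable f ∧ ∀ h, |f h| ≤ 1

lemma Obs.integrable {f : (ι → ℝ) → ℝ} (hf : Obs f) {Ω : Type} [MeasurableSpace Ω]
    {P : Measure Ω} [IsFiniteMeasure P] {g : Ω → ι → ℝ} (hg : Measurable g) :
    Integrable (fun ω => f (g ω)) P :=
  Integrable.of_bound (hf.1.comp hg).aestronglyMeasurable 1 (ae_of_all _ fun _ => by
    simpa using hf.2 _)

/-- exact one-step operator -/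
noncomputable def Model.P (η : ℝ) (f : (ι → ℝ) → ℝ) (h : ι → ℝ) : ℝ :=
  ∑ x ∈ M.conf, M.mu h x * ∫ z, f (fun i => h i + η * x i + √η * z i) ∂gam ι

/-- Euler one-step operator -/
noncomputable def Model.Q (η : ℝ) (f : (ι → ℝ) → ℝ) (g : ι → ℝ) : ℝ :=
  ∫ z, f (fun i => g i + η * M.m g i + √η * z i) ∂gam ι

/-- expectation under the law of `t • X + √t • Gaussian` -/
noncomputable def Model.expect (t : ℝ) (f : (ι → ℝ) → ℝ) : ℝ :=
  ∑ x ∈ M.conf, M.mu 0 x * ∫ z, f (fun i => t * x i + √t * z i) ∂gam ι

lemma measurable_param_integral {α : Type} [MeasurableSpace α] {F : α → (ι → ℝ) → ℝ}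
    (hF : Measurable fun p : α × (ι → ℝ) => F p.1 p.2) :
    Measurable fun a => ∫ z, F a z ∂gam ι :=
  (hF.stronglyMeasurable.integral_prod_right).measurable

lemma abs_integral_le_one {f : (ι → ℝ) → ℝ} (hf : Obs f) (g : (ι → ℝ) → ι → ℝ) :
    |∫ z, f (g z) ∂gam ι| ≤ 1 := by
  have := norm_integral_le_of_norm_le_const (μ := gam ι) (f := fun z => f (g z)) (C := 1)
    (ae_of_all _ fun z => by simpa using hf.2 _)
  simpa using this

lemma Model.obs_P {f : (ι → ℝ) → ℝ} (hf : Obs f) (η : ℝ) : Obs (M.P η f) := by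
  refine ⟨Finset.measurable_sum _ fun x _ => (M.measurable_mu x).mul
    (measurable_param_integral (F := fun (h z : ι → ℝ) => f (fun i => h i + η * x i + √η * z i))
      (hf.1.comp (by fun_prop))), fun h => ?_⟩
  calc |M.P η f h| ≤ ∑ x ∈ M.conf,
        |M.mu h x * ∫ z, f (fun i => h i + η * x i + √η * z i) ∂gam ι| :=
        Finset.abs_sum_le_sum_abs _ _
    _ ≤ ∑ x ∈ M.conf, M.mu h x := by
        refine Finset.sum_le_sum fun x _ => ?_
        rw [abs_mul, abs_of_nonneg (M.mu_nonneg h x)]
        exact mul_le_of_le_one_right (M.mu_nonneg h x) (abs_integral_le_one hf _)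
    _ = 1 := M.sum_mu h

lemma Model.obs_Q {f : (ι → ℝ) → ℝ} (hf : Obs f) (η : ℝ) : Obs (M.Q η f) := by
  have hm : Measurable fun g : ι → ℝ => fun i => M.m g i := measurable_pi_iff.2 M.measurable_m
  refine ⟨measurable_param_integral
    (F := fun (g z : ι → ℝ) => f (fun i => g i + η * M.m g i + √η * z i)) (hf.1.comp ?_),
    fun g => abs_integral_le_one hf _⟩
  refine measurable_pi_iff.2 fun i => ?_
  exact (((measurable_pi_apply i).comp measurable_fst).add
    (((M.measurable_m i).comp measurable_fst).const_mul η)).add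
    (((measurable_pi_apply i).comp measurable_snd).const_mul _)

/-- translation of a standard Gaussian vector -/
lemma gam_shift (a : ι → ℝ) {φ : (ι → ℝ) → ℝ} (hφ : Measurable φ) :
    ∫ z, φ (fun i => z i + a i) ∂gam ι =
      ∫ z, φ z * Real.exp (∑ i, a i * z i - (∑ i, a i ^ 2) / 2) ∂gam ι := by
  set ρ : ι → ℝ → ℝ := fun i x => Real.exp (a i * x - a i ^ 2 / 2) with hρ
  have hρm : ∀ i, Measurable (ρ i) := fun i => by rw [hρ]; fun_prop
  have h1 : ∀ i, stdG.map (fun x => x + a i) =
      stdG.withDensity fun x => ENNReal.ofReal (ρ i x) := by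
    intro i
    rw [gaussianReal_map_add_const, zero_add, gaussianReal_of_var_ne_zero _ one_ne_zero]
    show _ = (gaussianReal 0 1).withDensity _
    rw [gaussianReal_of_var_ne_zero _ one_ne_zero,
      ← withDensity_mul (g := fun x => ENNReal.ofReal (ρ i x)) _ (measurable_gaussianPDF _ _)
        (ENNReal.measurable_ofReal.comp (hρm i))]
    congr 1
    funext x
    simp only [Pi.mul_apply, gaussianPDF, hρ, ← ENNReal.ofReal_mul (gaussianPDFReal_nonneg _ _ _)]
    congr 1
    simp only [gaussianPDFReal, mul_assoc, ← Real.exp_add]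
    congr 2
    simp; ring
  have h2 : (gam ι).map (fun z i => z i + a i) =
      (gam ι).withDensity fun z => ∏ i, ENNReal.ofReal (ρ i (z i)) := by
    rw [show (gam ι).map (fun z i => z i + a i) = Measure.pi fun i => stdG.map (fun x => x + a i)
      from Measure.pi_map_pi (X := fun _ : ι => ℝ) (Y := fun _ : ι => ℝ)
        (f := fun i x => x + a i) fun i => by fun_prop]
    have : ∀ i, IsProbabilityMeasure (stdG.map (fun x => x + a i)) := fun i =>
      Measure.isProbabilityMeasure_map (by fun_prop)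
    refine Measure.pi_eq fun s hs => ?_
    rw [withDensity_apply _ (MeasurableSet.univ_pi hs), ← lintegral_indicator (MeasurableSet.univ_pi hs)]
    have : (Set.univ.pi s).indicator (fun z : ι → ℝ => ∏ i, ENNReal.ofReal (ρ i (z i))) =
        fun z => ∏ i, (s i).indicator (fun x => ENNReal.ofReal (ρ i x)) (z i) := by
      funext z
      by_cases hz : z ∈ Set.univ.pi s
      · rw [Set.indicator_of_mem hz]
        exact Finset.prod_congr rfl fun i _ => (Set.indicator_of_mem (hz i trivial)
          (fun x => ENNReal.ofReal (ρ i x))).symm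
      · rw [Set.indicator_of_notMem hz]
        obtain ⟨i, hi⟩ : ∃ i, z i ∉ s i := by simpa [Set.mem_pi] using hz
        exact (Finset.prod_eq_zero (Finset.mem_univ i) (Set.indicator_of_notMem hi _)).symm
    have hX : ∀ i, Measurable ((s i).indicator fun x => ENNReal.ofReal (ρ i x)) := fun i =>
      (ENNReal.measurable_ofReal.comp (hρm i)).indicator (hs i)
    rw [this, lintegral_prod_eq_prod_lintegral_of_indepFun Finset.univ
      (fun i (z : ι → ℝ) => (s i).indicator (fun x => ENNReal.ofReal (ρ i x)) (z i))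
      (iIndepFun_pi (μ := fun _ : ι => stdG) (X := fun i => (s i).indicator fun x => ENNReal.ofReal (ρ i x))
        fun i => (hX i).aemeasurable)
      (fun i => (hX i).comp (measurable_pi_apply i))]
    refine Finset.prod_congr rfl fun i _ => ?_
    rw [h1, withDensity_apply _ (hs i), ← lintegral_indicator (hs i)]
    conv_rhs => rw [← (measurePreserving_eval (fun _ : ι => stdG) i).map_eq]
    rw [lintegral_map (hX i) (measurable_pi_apply i)]
  calc ∫ z, φ (fun i => z i + a i) ∂gam ι = ∫ y, φ y ∂(gam ι).map (fun z i => z i + a i) :=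
        (integral_map (μ := gam ι) (φ := fun z i => z i + a i)
          (measurable_pi_iff.2 fun i => (measurable_pi_apply i).add_const _).aemeasurable
          hφ.aestronglyMeasurable).symm
    _ = ∫ z, (∏ i, ENNReal.ofReal (ρ i (z i))).toReal • φ z ∂gam ι := by
        rw [h2, integral_withDensity_eq_integral_toReal_smul]
        · exact Finset.measurable_prod _ fun i _ =>
            ENNReal.measurable_ofReal.comp ((hρm i).comp (measurable_pi_apply i))
        · exact ae_of_all _ fun z => ENNReal.prod_lt_top fun i _ => ENNReal.ofReal_lt_top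
    _ = _ := by
        congr 1
        funext z
        rw [ENNReal.toReal_prod, smul_eq_mul, mul_comm]
        congr 1
        rw [Finset.sum_div, ← Finset.sum_sub_distrib, Real.exp_sum]
        exact Finset.prod_congr rfl fun i _ => ENNReal.toReal_ofReal (Real.exp_pos _).le

lemma Model.w_zero (x : ι → ℝ) : M.w 0 x = 1 := by simp [Model.w]

lemma Model.sum_sq_conf {x : ι → ℝ} (hx : x ∈ M.conf) : ∑ i, x i ^ 2 = M.size := by
  rw [← M.size_eq x hx]
  exact Finset.sum_congr rfl fun i _ => by rcases M.zero_one x hx i with h | h <;> simp [h]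

/-- **Bayes**: the law of `t • X + √t • Gaussian` reweighted by the tilted configuration. -/
lemma Model.bayes {t : ℝ} (ht : 0 ≤ t) {x' : ι → ℝ} (hx' : x' ∈ M.conf)
    {φ : (ι → ℝ) → ℝ} (hφ : Obs φ) :
    ∑ x ∈ M.conf, M.mu 0 x *
        (∫ z, M.mu (fun i => t * x i + √t * z i) x' * φ (fun i => t * x i + √t * z i) ∂gam ι) =
      M.mu 0 x' * ∫ z, φ (fun i => t * x' i + √t * z i) ∂gam ι := by
  set ψ : (ι → ℝ) → ℝ := fun y =>
    M.mu (fun i => √t * y i) x' * φ (fun i => √t * y i) with hψ
  have hψm : Measurable ψ := ((M.measurable_mu x').comp (by fun_prop)).mul (hφ.1.comp (by fun_prop))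
  have hscale : ∀ (x z : ι → ℝ), (fun i => t * x i + √t * z i) =
      fun i => √t * (z i + √t * x i) := fun x z => by
    funext i; rw [mul_add, ← mul_assoc, Real.mul_self_sqrt ht]; ring
  have key : ∀ x ∈ M.conf,
      (∫ z, M.mu (fun i => t * x i + √t * z i) x' * φ (fun i => t * x i + √t * z i) ∂gam ι) =
        ∫ z, ψ z * (Real.exp (-(t * M.size / 2)) * M.w (fun i => √t * z i) x) ∂gam ι := by
    intro x hx
    simp only [hscale]
    rw [gam_shift (fun i => √t * x i) hψm]
    congr 1
    funext z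
    congr 1
    rw [Model.w, ← Real.exp_add]
    congr 1
    have h1 : ∑ i, (√t * x i) ^ 2 = t * M.size := by
      simp only [mul_pow, Real.sq_sqrt ht, ← Finset.mul_sum, M.sum_sq_conf hx]
    rw [h1, show ∑ i, √t * x i * z i = ∑ i, √t * z i * x i from
      Finset.sum_congr rfl fun i _ => by ring]
    ring
  rw [Finset.sum_congr rfl fun x hx => by rw [key x hx]]
  have hint : ∀ x ∈ M.conf, Integrable
      (fun z => ψ z * (Real.exp (-(t * M.size / 2)) * M.w (fun i => √t * z i) x)) (gam ι) := by
    intro x _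
    have hb : Integrable (fun z : ι → ℝ => Real.exp (∑ j, √t * z j * x j)) (gam ι) := by
      simp_rw [Real.exp_sum]
      exact Integrable.fintype_prod (f := fun j (y : ℝ) => Real.exp (√t * y * x j)) fun j => by
        have := integrable_exp_mul_gaussianReal (μ := 0) (v := 1) (√t * x j)
        exact this.congr (ae_of_all _ fun y => by ring_nf)
    refine ((hb.const_mul (Real.exp (-(t * M.size / 2)))).bdd_mul
      (c := 1) hψm.aestronglyMeasurable (ae_of_all _ fun z => ?_)).congr
      (ae_of_all _ fun z => rfl)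
    rw [Real.norm_eq_abs, hψ, abs_mul, abs_of_nonneg (M.mu_nonneg _ _)]
    refine le_trans (mul_le_of_le_one_right (M.mu_nonneg _ _) (hφ.2 _)) ?_
    rw [← M.sum_mu (fun i => √t * z i)]
    exact Finset.single_le_sum (fun y _ => M.mu_nonneg _ y) hx'
  simp_rw [← integral_const_mul]
  rw [← integral_finsetSum _ fun x hx => (hint x hx).const_mul _]
  calc ∫ z, ∑ x ∈ M.conf, M.mu 0 x *
        (ψ z * (Real.exp (-(t * M.size / 2)) * M.w (fun i => √t * z i) x)) ∂gam ι
      = ∫ z, M.mu 0 x' * (φ (fun i => √t * z i) *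
          Real.exp (∑ i, √t * x' i * z i - (∑ i, (√t * x' i) ^ 2) / 2)) ∂gam ι := by
        congr 1
        funext z
        simp only [Model.mu, M.w_zero, ← Finset.mul_sum, hψ]
        have h1 : ∑ i, (√t * x' i) ^ 2 = t * M.size := by
          simp only [mul_pow, Real.sq_sqrt ht, ← Finset.mul_sum, M.sum_sq_conf hx']
        rw [h1, sub_eq_neg_add, Real.exp_add, show ∑ i, √t * x' i * z i =
          ∑ i, √t * z i * x' i from Finset.sum_congr rfl fun i _ => by ring]
        have hZ := (M.Z_pos (fun i => √t * z i)).ne'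
        simp only [Model.w] at hZ ⊢
        field_simp
    _ = _ := by
        rw [integral_const_mul,
          ← gam_shift (fun i => √t * x' i) (φ := fun y => φ (fun i => √t * y i))
            (hφ.1.comp (by fun_prop)), ← integral_const_mul]
        simp only [← hscale]

lemma Model.expect_P {t η : ℝ} (ht : 0 ≤ t) (hη : 0 ≤ η) {f : (ι → ℝ) → ℝ} (hf : Obs f) :
    M.expect t (M.P η f) = M.expect (t + η) f := by
  set F : (ι → ℝ) → (ι → ℝ) → ℝ := fun x' h =>
    ∫ z, f (fun i => h i + η * x' i + √η * z i) ∂gam ι with hF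
  have hFobs : ∀ x', Obs (F x') := fun x' =>
    ⟨measurable_param_integral (F := fun (h z : ι → ℝ) => f (fun i => h i + η * x' i + √η * z i))
      (hf.1.comp (by fun_prop)), fun h => abs_integral_le_one hf _⟩
  have hint : ∀ x x' : ι → ℝ, x' ∈ M.conf → Integrable (fun z =>
      M.mu (fun i => t * x i + √t * z i) x' * F x' (fun i => t * x i + √t * z i)) (gam ι) := by
    intro x x' hx'
    refine Integrable.of_bound (((M.measurable_mu x').comp (by fun_prop)).mul
      ((hFobs x').1.comp (by fun_prop))).aestronglyMeasurable 1 (ae_of_all _ fun z => ?_)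
    rw [Real.norm_eq_abs, abs_mul, abs_of_nonneg (M.mu_nonneg _ _)]
    refine le_trans (mul_le_of_le_one_right (M.mu_nonneg _ _) ((hFobs x').2 _)) ?_
    rw [← M.sum_mu (fun i => t * x i + √t * z i)]
    exact Finset.single_le_sum (fun y _ => M.mu_nonneg _ y) hx'
  calc M.expect t (M.P η f)
      = ∑ x ∈ M.conf, M.mu 0 x * ∑ x' ∈ M.conf, ∫ z,
          M.mu (fun i => t * x i + √t * z i) x' * F x' (fun i => t * x i + √t * z i) ∂gam ι := by
        refine Finset.sum_congr rfl fun x _ => ?_
        rw [← integral_finsetSum _ fun x' hx' => hint x x' hx']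
        rfl
    _ = ∑ x' ∈ M.conf, ∑ x ∈ M.conf, M.mu 0 x * ∫ z,
          M.mu (fun i => t * x i + √t * z i) x' * F x' (fun i => t * x i + √t * z i) ∂gam ι := by
        rw [Finset.sum_comm]
        simp only [Finset.mul_sum]
    _ = ∑ x' ∈ M.conf, M.mu 0 x' * ∫ z, F x' (fun i => t * x' i + √t * z i) ∂gam ι :=
        Finset.sum_congr rfl fun x' hx' => M.bayes ht hx' (hFobs x')
    _ = _ := by
        refine Finset.sum_congr rfl fun x' _ => ?_
        congr 1
        set φ : (ι → ℝ) → ℝ := fun y => f (fun i => (t + η) * x' i + y i) with hφ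
        have hφo : Obs φ := ⟨hf.1.comp (by fun_prop), fun y => hf.2 _⟩
        have hcomb := map_gaussian_comb (ι := ι) (a := t.toNNReal) (b := η.toNNReal)
        rw [Real.coe_toNNReal t ht, Real.coe_toNNReal η hη] at hcomb
        calc ∫ z, F x' (fun i => t * x' i + √t * z i) ∂gam ι
            = ∫ z, ∫ z', φ (fun i => √t * z i + √η * z' i) ∂gam ι ∂gam ι := by
              simp only [hF, hφ]
              congr 1; funext z; congr 1; funext z'; congr 1; funext i; ring
          _ = ∫ p, φ (fun i => √t * p.1 i + √η * p.2 i) ∂(gam ι).prod (gam ι) :=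
              (integral_prod (fun p : (ι → ℝ) × (ι → ℝ) => φ (fun i => √t * p.1 i + √η * p.2 i))
                (hφo.integrable (by fun_prop))).symm
          _ = ∫ z, φ (fun i => √(t + η) * z i) ∂gam ι := by
              rw [← integral_map (φ := fun p : (ι → ℝ) × (ι → ℝ) => fun i => √t * p.1 i + √η * p.2 i)
                (by fun_prop) hφo.1.aestronglyMeasurable, hcomb,
                integral_map (φ := fun (z : ι → ℝ) i => √(t + η) * z i)
                  (measurable_pi_iff.2 fun i => (measurable_pi_apply i).const_mul _).aemeasurable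
                  hφo.1.aestronglyMeasurable]
          _ = _ := rfl

/-- iterated exact operator -/
noncomputable def Model.Pit (M : Model ι) (η : ℝ) : ℕ → ((ι → ℝ) → ℝ) → (ι → ℝ) → ℝ
  | 0, f => f
  | k + 1, f => M.P η (Model.Pit M η k f)

/-- iterated Euler operator -/
noncomputable def Model.Qit (M : Model ι) (η : ℝ) : ℕ → ((ι → ℝ) → ℝ) → (ι → ℝ) → ℝ
  | 0, f => f
  | k + 1, f => M.Q η (Model.Qit M η k f)

lemma Model.obs_Pit (M : Model ι) {f : (ι → ℝ) → ℝ} (hf : Obs f) (η : ℝ) : ∀ k, Obs (M.Pit η k f)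
  | 0 => hf
  | k + 1 => M.obs_P (Model.obs_Pit M hf η k) η

lemma Model.obs_Qit (M : Model ι) {f : (ι → ℝ) → ℝ} (hf : Obs f) (η : ℝ) : ∀ k, Obs (M.Qit η k f)
  | 0 => hf
  | k + 1 => M.obs_Q (Model.obs_Qit M hf η k) η

lemma Model.Pit_zero {η : ℝ} (hη : 0 ≤ η) {f : (ι → ℝ) → ℝ} (hf : Obs f) (k : ℕ) :
    M.Pit η k f 0 = M.expect (k * η) f := by
  have key : ∀ (k : ℕ) (t : ℝ), 0 ≤ t → M.expect t (M.Pit η k f) = M.expect (t + k * η) f := by
    intro k
    induction k with
    | zero => intro t _; simp [Model.Pit]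
    | succ k ih =>
      intro t ht
      show M.expect t (M.P η (M.Pit η k f)) = _
      rw [M.expect_P ht hη (M.obs_Pit hf η k), ih (t + η) (by linarith)]
      congr 1
      push_cast; ring
  have h := key k 0 le_rfl
  rw [zero_add] at h
  rw [← h]
  simp only [Model.expect, zero_mul, Real.sqrt_zero, add_zero, integral_const]
  simp [← Finset.sum_mul, M.sum_mu, Pi.zero_def]

/-- comparison of the two schemes -/
lemma Model.Pit_sub_Qit {η : ℝ} (hη : 0 ≤ η) (hη1 : η ≤ 1) {f : (ι → ℝ) → ℝ} (hf : Obs f)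
    {L : ℝ} (hL : 0 ≤ L) (hlip : ∀ h g, |f h - f g| ≤ L * ∑ i, |h i - g i|) {ε : ℝ} (hε : 0 < ε) :
    ∀ k : ℕ, ∀ h g : ι → ℝ, |M.Pit η k f h - M.Qit η k f g| ≤
      L * (ε + ((1 + 8 * η * Fintype.card ι) ^ k * Fintype.card ι / (4 * ε)) *
        ((∑ i, (h i - g i) ^ 2) + k * η ^ 2 * Fintype.card ι)) := by
  intro k
  set n : ℝ := (Fintype.card ι : ℝ) with hn
  induction k with
  | zero =>
    intro h g
    refine (hlip h g).trans (mul_le_mul_of_nonneg_left ?_ hL)
    have h1 : (∑ i, |h i - g i|) ^ 2 ≤ n * ∑ i, (h i - g i) ^ 2 := by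
      have := sq_sum_le_card_mul_sum_sq (s := (Finset.univ : Finset ι)) (f := fun i => |h i - g i|)
      simpa [hn, sq_abs] using this
    set a := ∑ i, |h i - g i|
    simp only [pow_zero, one_mul, Nat.cast_zero, zero_mul, add_zero]
    calc a ≤ ε + a ^ 2 / (4 * ε) := by
          rw [← sub_nonneg]
          have : ε + a ^ 2 / (4 * ε) - a = (a - 2 * ε) ^ 2 / (4 * ε) := by field_simp; ring
          rw [this]; positivity
      _ ≤ ε + n / (4 * ε) * ∑ i, (h i - g i) ^ 2 := by
          rw [div_mul_eq_mul_div]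
          gcongr
  | succ k ih =>
    intro h g
    show |M.P η (M.Pit η k f) h - M.Q η (M.Qit η k f) g| ≤ _
    have hP := M.obs_Pit hf η k
    have hQ := M.obs_Qit hf η k
    set c : ℝ := (1 + 8 * η * n) ^ k * n / (4 * ε) with hc
    have hc0 : 0 ≤ c := by positivity
    set d : ι → ℝ := fun i => h i - g i with hd
    have hterm : ∀ x ∈ M.conf,
        |(∫ z, M.Pit η k f (fun i => h i + η * x i + √η * z i) ∂gam ι) -
          ∫ z, M.Qit η k f (fun i => g i + η * M.m g i + √η * z i) ∂gam ι| ≤
        L * (ε + c * ((∑ i, (d i + η * (x i - M.m g i)) ^ 2) + k * η ^ 2 * n)) := by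
      intro x _
      rw [← integral_sub (hP.integrable (by fun_prop)) (hQ.integrable (by fun_prop))]
      refine le_trans (le_of_eq (Real.norm_eq_abs _).symm)
        ((norm_integral_le_of_norm_le_const
          (C := L * (ε + c * ((∑ i, (d i + η * (x i - M.m g i)) ^ 2) + k * η ^ 2 * n)))
          (ae_of_all _ fun z => ?_)).trans (le_of_eq ?_))
      · refine (ih _ _).trans (le_of_eq ?_)
        congr 5
        funext i
        simp [hd]; ring
      · simp
    set r2 := ∑ i, d i ^ 2 with hr2
    have hr0 : 0 ≤ r2 := Finset.sum_nonneg fun i _ => sq_nonneg _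
    have hmd : ∀ i, |M.m h i - M.m g i| ≤ 2 * √r2 := fun i =>
      M.lip h g i _ (Real.sqrt_nonneg _) fun j => Real.abs_le_sqrt
        (Finset.single_le_sum (f := fun i => d i ^ 2) (fun i _ => sq_nonneg _) (Finset.mem_univ j))
    have hdi : ∀ i, |d i| ≤ √r2 := fun i => Real.abs_le_sqrt
      (Finset.single_le_sum (f := fun i => d i ^ 2) (fun i _ => sq_nonneg _) (Finset.mem_univ i))
    have hmean : ∀ i, ∑ x ∈ M.conf, M.mu h x * (d i + η * (x i - M.m g i)) ^ 2 ≤
        d i ^ 2 + 8 * η * r2 + η ^ 2 := by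
      intro i
      set a := d i + η * (M.m h i - M.m g i) with ha
      have hexp : ∑ x ∈ M.conf, M.mu h x * (d i + η * (x i - M.m g i)) ^ 2 =
          a ^ 2 + η ^ 2 * (M.m h i - M.m h i ^ 2) := by
        calc ∑ x ∈ M.conf, M.mu h x * (d i + η * (x i - M.m g i)) ^ 2
            = ∑ x ∈ M.conf, ((d i - η * M.m g i) ^ 2 * M.mu h x +
                (2 * η * (d i - η * M.m g i) + η ^ 2) * (M.mu h x * x i)) := by
              refine Finset.sum_congr rfl fun x hx => ?_
              rcases M.zero_one x hx i with h0 | h0 <;> rw [h0] <;> ring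
          _ = _ := by
              rw [Finset.sum_add_distrib, ← Finset.mul_sum, ← Finset.mul_sum, M.sum_mu,
                ← M.m_eq_mu, ha]
              ring
      rw [hexp]
      have h1 : a ^ 2 ≤ d i ^ 2 + 8 * η * r2 := by
        have hb : |η * (M.m h i - M.m g i)| ≤ η * (2 * √r2) := by
          rw [abs_mul, abs_of_nonneg hη]; exact mul_le_mul_of_nonneg_left (hmd i) hη
        have hsq : √r2 * √r2 = r2 := Real.mul_self_sqrt hr0
        have : a ^ 2 ≤ d i ^ 2 + 2 * (√r2 * (η * (2 * √r2))) + (η * (2 * √r2)) ^ 2 := by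
          rw [ha, add_sq, mul_assoc]
          refine add_le_add (add_le_add le_rfl (mul_le_mul_of_nonneg_left ?_ zero_le_two)) ?_
          · exact (le_abs_self _).trans ((abs_mul _ _).trans_le
              (mul_le_mul (hdi i) hb (abs_nonneg _) (Real.sqrt_nonneg _)))
          · rw [← sq_abs]; exact pow_le_pow_left₀ (abs_nonneg _) hb 2
        have hη2 : η ^ 2 * r2 ≤ η * r2 := mul_le_mul_of_nonneg_right (by nlinarith) hr0
        nlinarith
      have h2 : η ^ 2 * (M.m h i - M.m h i ^ 2) ≤ η ^ 2 :=
        mul_le_of_le_one_right (sq_nonneg η)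
          (by nlinarith [(M.m_mem h i).1, (M.m_mem h i).2])
      linarith
    calc |M.P η (M.Pit η k f) h - M.Q η (M.Qit η k f) g|
        = |∑ x ∈ M.conf, M.mu h x *
            ((∫ z, M.Pit η k f (fun i => h i + η * x i + √η * z i) ∂gam ι) -
            ∫ z, M.Qit η k f (fun i => g i + η * M.m g i + √η * z i) ∂gam ι)| := by
          simp only [mul_sub, Finset.sum_sub_distrib, ← Finset.sum_mul, M.sum_mu, one_mul]
          rfl
      _ ≤ ∑ x ∈ M.conf, M.mu h x *
            (L * (ε + c * ((∑ i, (d i + η * (x i - M.m g i)) ^ 2) + k * η ^ 2 * n))) := by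
          refine (Finset.abs_sum_le_sum_abs _ _).trans (Finset.sum_le_sum fun x hx => ?_)
          rw [abs_mul, abs_of_nonneg (M.mu_nonneg h x)]
          exact mul_le_mul_of_nonneg_left (hterm x hx) (M.mu_nonneg h x)
      _ = L * (ε + c * ((∑ i, ∑ x ∈ M.conf, M.mu h x * (d i + η * (x i - M.m g i)) ^ 2) +
            k * η ^ 2 * n)) := by
          rw [Finset.sum_comm]
          simp only [mul_add, Finset.sum_add_distrib, ← Finset.sum_mul, M.sum_mu, one_mul,
            Finset.mul_sum]
          congr 1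
          congr 1
          exact Finset.sum_congr rfl fun x _ => Finset.sum_congr rfl fun i _ => by ring
      _ ≤ L * (ε + c * ((∑ i, (d i ^ 2 + 8 * η * r2 + η ^ 2)) + k * η ^ 2 * n)) := by
          gcongr with i
          exact hmean i
      _ ≤ _ := by
          refine mul_le_mul_of_nonneg_left (add_le_add le_rfl ?_) hL
          have hs : (∑ i, (d i ^ 2 + 8 * η * r2 + η ^ 2)) =
              (1 + 8 * η * n) * r2 + η ^ 2 * n := by
            simp only [Finset.sum_add_distrib, Finset.sum_const, Finset.card_univ, nsmul_eq_mul,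
              hn, ← hr2]
            ring
          rw [hs, pow_succ (1 + 8 * η * n) k]
          have h1 : (1 + 8 * η * n) ^ k * (1 + 8 * η * n) * n / (4 * ε) = c * (1 + 8 * η * n) := by
            rw [hc]; ring
          rw [h1, mul_assoc c]
          refine mul_le_mul_of_nonneg_left ?_ hc0
          push_cast
          have h2 : 0 ≤ 8 * η * n := by positivity
          have h3 : 0 ≤ η ^ 2 * n := by positivity
          have h4 : 0 ≤ (k : ℝ) * η ^ 2 * n := by positivity
          nlinarith [mul_nonneg h2 h3, mul_nonneg h2 h4]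

end Vale.Agent.P143
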