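import Vale.Agent.P143.Finite

/-!
In finite volume the pathwise solution of `h = B + ∫ m h` has, at integer times `T`, the law of
`T • X + √T • Gaussian`.
-/

namespace Vale.Agent.P143

open MeasureTheory ProbabilityTheory Filter Topology
open scoped NNReal ENNReal

variable {ι : Type} [Fintype ι] (M : Model ι)

/-- Euler trajectory -/
noncomputable def Model.eul (M : Model ι) (η : ℝ) : ℕ → (ι → ℝ) → (ℕ → ι → ℝ) → ι → ℝ
  | 0, g, _ => g
  | k + 1, g, z => Model.eul M η k (fun i => g i + η * M.m g i + √η * z 0 i) fun l => z (l + 1)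

lemma Model.eul_succ (η : ℝ) : ∀ (k : ℕ) (g : ι → ℝ) (z : ℕ → ι → ℝ),
    M.eul η (k + 1) g z =
      fun i => M.eul η k g z i + η * M.m (M.eul η k g z) i + √η * z k i := by
  intro k
  induction k with
  | zero => intro g z; rfl
  | succ k ih =>
    intro g z
    show M.eul η (k + 1) (fun i => g i + η * M.m g i + √η * z 0 i) (fun l => z (l + 1)) = _
    rw [ih]
    rfl

lemma Model.measurable_eul (η : ℝ) : ∀ k : ℕ,
    Measurable fun p : (ι → ℝ) × (ℕ → ι → ℝ) => M.eul η k p.1 p.2 := by
  intro k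
  induction k with
  | zero => exact measurable_fst
  | succ k ih =>
    have hpair : Measurable fun p : (ι → ℝ) × (ℕ → ι → ℝ) =>
        ((fun i => p.1 i + η * M.m p.1 i + √η * p.2 0 i), fun l => p.2 (l + 1)) := by
      refine Measurable.prodMk (measurable_pi_iff.2 fun i => ?_) (by fun_prop)
      exact (((measurable_pi_apply i).comp measurable_fst).add
        (((M.measurable_m i).comp measurable_fst).const_mul η)).add
        (by fun_prop : Measurable fun p : (ι → ℝ) × (ℕ → ι → ℝ) => √η * p.2 0 i)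
    exact ih.comp hpair

lemma Model.Qit_eq {η : ℝ} {f : (ι → ℝ) → ℝ} (hf : Obs f) : ∀ (k : ℕ) (g : ι → ℝ),
    M.Qit η k f g = ∫ z, f (M.eul η k g z) ∂Measure.infinitePi fun _ : ℕ => gam ι := by
  intro k
  induction k with
  | zero => intro g; simp [Model.Qit, Model.eul]
  | succ k ih =>
    intro g
    have hm : Measurable fun q : (ι → ℝ) × (ℕ → ι → ℝ) =>
        M.eul η k (fun i => g i + η * M.m g i + √η * q.1 i) q.2 :=
      (M.measurable_eul η k).comp (Measurable.prodMk (by fun_prop) measurable_snd)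
    show M.Q η (M.Qit η k f) g = ∫ z : ℕ → ι → ℝ,
      f (M.eul η k (fun i => g i + η * M.m g i + √η * z 0 i) fun l => z (l + 1)) ∂_
    rw [Model.Q]
    simp only [ih]
    rw [← integral_prod (fun q : (ι → ℝ) × (ℕ → ι → ℝ) =>
        f (M.eul η k (fun i => g i + η * M.m g i + √η * q.1 i) q.2)) (hf.integrable hm),
      ← map_head_tail (gam ι)]
    exact integral_map (φ := fun z : ℕ → ι → ℝ => (z 0, fun l => z (l + 1)))
      (f := fun q : (ι → ℝ) × (ℕ → ι → ℝ) =>
        f (M.eul η k (fun i => g i + η * M.m g i + √η * q.1 i) q.2))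
      (by fun_prop) (hf.1.comp hm).aestronglyMeasurable

lemma sqrt_mesh (J : ℕ) : √((2 ^ J : ℝ)⁻¹) = (√2)⁻¹ ^ J := by
  rw [Real.sqrt_inv, inv_pow]
  congr 1
  induction J with
  | zero => simp
  | succ J ih => rw [pow_succ, pow_succ, Real.sqrt_mul (by positivity), ih]

/-- the normalised increments of independent Brownian motions are independent Gaussians -/
lemma law_increments (J : ℕ) :
    (Measure.pi fun _ : ι => nu0).map (fun ω k i => nincr J (ω i) k) =
      Measure.infinitePi fun _ : ℕ => gam ι := by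
  have h1 : (Measure.pi fun _ : ι => nu0).map (fun ω i => nincr J (ω i)) =
      Measure.pi fun _ : ι => Measure.infinitePi fun _ : ℕ => stdG := by
    rw [show (Measure.pi fun _ : ι => nu0).map (fun ω i => nincr J (ω i)) =
      Measure.pi fun _ : ι => nu0.map (nincr J) from
      Measure.pi_map_pi (X := fun _ : ι => Omega0) (Y := fun _ : ι => ℕ → ℝ)
        (f := fun _ => nincr J) fun _ => (measurable_nincr J).aemeasurable]
    simp only [law_nincr]
  have hm : Measurable fun ω : ι → Omega0 => fun i => nincr J (ω i) :=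
    measurable_pi_iff.2 fun i => (measurable_nincr J).comp (measurable_pi_apply i)
  rw [show (fun (ω : ι → Omega0) k i => nincr J (ω i) k) =
      (fun (u : ι → ℕ → ℝ) k i => u i k) ∘ (fun ω i => nincr J (ω i)) from rfl,
    ← Measure.map_map (by fun_prop) hm, h1]
  have hfac : (fun (u : ι → ℕ → ℝ) k i => u i k) =
      (MeasurableEquiv.curry ℕ ι ℝ) ∘
        (MeasurableEquiv.piCongrLeft (fun _ => ℝ) (Equiv.prodComm ι ℕ)) ∘
        (MeasurableEquiv.curry ι ℕ ℝ).symm := by
    funext u k i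
    simp [MeasurableEquiv.coe_piCongrLeft, Equiv.piCongrLeft, MeasurableEquiv.coe_curry,
      MeasurableEquiv.coe_curry_symm, Equiv.prodComm]
  rw [hfac, ← Measure.map_map (MeasurableEquiv.measurable _) (by fun_prop),
    ← Measure.map_map (MeasurableEquiv.measurable _) (MeasurableEquiv.measurable _),
    ← Measure.infinitePi_eq_pi, Measure.infinitePi_map_curry_symm (fun _ _ => stdG),
    Measure.infinitePi_map_piCongrLeft (fun _ : ℕ × ι => stdG) (Equiv.prodComm ι ℕ),
    Measure.infinitePi_map_curry (fun _ _ => stdG)]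
  simp only [Measure.infinitePi_eq_pi]

/-- The properties of the pathwise solution used here. -/
structure Solves (D : (ι → Omega0) → ℝ → ι → ℝ) : Prop where
  measurable : ∀ t, Measurable fun ω => D ω t
  measurable_time : ∀ ω, Measurable (D ω)
  zero : ∀ ω i, D ω 0 i = 0
  lip : ∀ ω i {t t' : ℝ}, 0 ≤ t → t ≤ t' → |D ω t' i - D ω t i| ≤ t' - t
  eq : ∀ ω i {t : ℝ}, 0 ≤ t →
    D ω t i = ∫ s in Set.Ioc (0 : ℝ) t, M.m (fun j => bm (ω j) s + D ω s j) i

variable {M}

lemma Solves.step {D : (ι → Omega0) → ℝ → ι → ℝ} (hD : Solves M D) (ω : ι → Omega0) (g : ι → ℝ)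
    {a η : ℝ} (ha : 0 ≤ a) (hη : 0 ≤ η) (i : ι) :
    ENNReal.ofReal |D ω (a + η) i - D ω a i - η * M.m g i| ≤
      2 * (∑ j, ∫⁻ s in Set.Ioc a (a + η), ENNReal.ofReal |bm (ω j) s - bm (ω j) a|) +
      2 * ENNReal.ofReal η * (∑ j, ENNReal.ofReal |bm (ω j) a + D ω a j - g j|) +
      2 * ENNReal.ofReal η * ((Fintype.card ι : ℝ≥0∞) * ENNReal.ofReal η) := by
  have hbm : ∀ j, Measurable fun s => bm (ω j) s := fun j =>
    measurable_bm_comp measurable_id measurable_const
  have hmeas : Measurable fun s => M.m (fun j => bm (ω j) s + D ω s j) i :=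
    (M.measurable_m i).comp (measurable_pi_iff.2 fun j =>
      (hbm j).add ((measurable_pi_apply j).comp (hD.measurable_time ω)))
  have hI : ∀ u v : ℝ, IntegrableOn (fun s => M.m (fun j => bm (ω j) s + D ω s j) i)
      (Set.Ioc u v) := fun u v =>
    IntegrableOn.of_bound measure_Ioc_lt_top hmeas.aestronglyMeasurable 1 (ae_of_all _ fun s => by
      rw [Real.norm_eq_abs, abs_of_nonneg (M.m_mem _ _).1]; exact (M.m_mem _ _).2)
  have heq : D ω (a + η) i - D ω a i - η * M.m g i =
      ∫ s in Set.Ioc a (a + η), (M.m (fun j => bm (ω j) s + D ω s j) i - M.m g i) := by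
    rw [hD.eq ω i (by linarith : 0 ≤ a + η), hD.eq ω i ha,
      ← Set.Ioc_union_Ioc_eq_Ioc ha (by linarith : a ≤ a + η),
      setIntegral_union (Set.Ioc_disjoint_Ioc_of_le le_rfl) measurableSet_Ioc (hI _ _) (hI _ _),
      integral_sub (hI _ _) (integrableOn_const measure_Ioc_lt_top.ne)]
    simp [hη]
  rw [heq, ← Real.norm_eq_abs, ofReal_norm]
  refine (enorm_integral_le_lintegral_enorm _).trans ?_
  have hpt : ∀ s ∈ Set.Ioc a (a + η),
      ‖M.m (fun j => bm (ω j) s + D ω s j) i - M.m g i‖ₑ ≤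
        2 * (∑ j, ENNReal.ofReal |bm (ω j) s - bm (ω j) a|) +
        2 * ((∑ j, ENNReal.ofReal |bm (ω j) a + D ω a j - g j|) +
          (Fintype.card ι : ℝ≥0∞) * ENNReal.ofReal η) := by
    intro s hs
    rw [← ofReal_norm, Real.norm_eq_abs]
    have hle : ∀ j, |bm (ω j) s + D ω s j - g j| ≤
        |bm (ω j) s - bm (ω j) a| + (|bm (ω j) a + D ω a j - g j| + η) := by
      intro j
      have h1 := abs_le.1 (hD.lip ω j ha hs.1.le)
      have h2 := abs_le.1 (le_refl |bm (ω j) s - bm (ω j) a|)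
      have h3 := abs_le.1 (le_refl |bm (ω j) a + D ω a j - g j|)
      rw [abs_le]
      constructor <;> linarith [hs.2]
    refine le_trans (ENNReal.ofReal_le_ofReal (M.lip _ g i
      (∑ j, |bm (ω j) s + D ω s j - g j|) (Finset.sum_nonneg fun j _ => abs_nonneg _)
      fun j => Finset.single_le_sum (f := fun j => |bm (ω j) s + D ω s j - g j|)
        (fun j _ => abs_nonneg _) (Finset.mem_univ j))) ?_
    rw [ENNReal.ofReal_mul zero_le_two, ← mul_add, ENNReal.ofReal_ofNat,
      ENNReal.ofReal_sum_of_nonneg fun j _ => abs_nonneg _]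
    refine mul_le_mul_right ?_ _
    refine (Finset.sum_le_sum fun j _ => ENNReal.ofReal_le_ofReal (hle j)).trans (le_of_eq ?_)
    simp [ENNReal.ofReal_add (abs_nonneg _) (add_nonneg (abs_nonneg _) hη),
      ENNReal.ofReal_add (abs_nonneg _) hη, Finset.sum_add_distrib]
  refine (lintegral_mono_ae ((ae_restrict_mem measurableSet_Ioc).mono hpt)).trans (le_of_eq ?_)
  have habs : ∀ j, Measurable fun s => ENNReal.ofReal |bm (ω j) s - bm (ω j) a| := fun j =>
    ENNReal.measurable_ofReal.comp ((hbm j).sub_const _).abs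
  rw [lintegral_add_right _ measurable_const, lintegral_const_mul _
      (Finset.measurable_sum _ fun j _ => habs j),
    lintegral_finsetSum _ fun j _ => habs j,
    setLIntegral_const, Real.volume_Ioc, add_sub_cancel_left]
  ring

/-- error after `k` Euler steps -/
lemma Solves.euler_error {D : (ι → Omega0) → ℝ → ι → ℝ} (hD : Solves M D) (ω : ι → Omega0)
    (J k : ℕ) :
    ∑ i, ENNReal.ofReal |bm (ω i) ((k : ℝ) / 2 ^ J) + D ω ((k : ℝ) / 2 ^ J) i -
        M.eul ((2 ^ J : ℝ)⁻¹) k 0 (fun l j => nincr J (ω j) l) i| ≤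
      (1 + 2 * (Fintype.card ι : ℝ≥0∞) * ENNReal.ofReal (2 ^ J : ℝ)⁻¹) ^ k *
        ∑ l ∈ Finset.range k, (Fintype.card ι : ℝ≥0∞) *
          (2 * (∑ j, ∫⁻ s in Set.Ioc ((l : ℝ) / 2 ^ J) ((l : ℝ) / 2 ^ J + (2 ^ J : ℝ)⁻¹),
            ENNReal.ofReal |bm (ω j) s - bm (ω j) ((l : ℝ) / 2 ^ J)|) +
          2 * ENNReal.ofReal (2 ^ J : ℝ)⁻¹ *
            ((Fintype.card ι : ℝ≥0∞) * ENNReal.ofReal (2 ^ J : ℝ)⁻¹)) := by
  set η : ℝ := (2 ^ J : ℝ)⁻¹ with hη
  set n : ℝ≥0∞ := (Fintype.card ι : ℝ≥0∞) with hn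
  set z : ℕ → ι → ℝ := fun l j => nincr J (ω j) l with hz
  induction k with
  | zero =>
    have h0 : ∀ i, bm (ω i) 0 = 0 := fun i => by
      rw [show (0 : ℝ) = ((0 : ℕ) : ℝ) / 2 ^ J by simp, bm_dyadic]; simp
    simp [h0, hD.zero, Model.eul]
  | succ k ih =>
    have ha : (0 : ℝ) ≤ (k : ℝ) / 2 ^ J := by positivity
    have hnext : ((k + 1 : ℕ) : ℝ) / 2 ^ J = (k : ℝ) / 2 ^ J + η := by
      rw [hη]; push_cast; rw [add_div, one_div]
    set a : ℝ := (k : ℝ) / 2 ^ J with ha'
    set δ : ℝ≥0∞ := ∑ i, ENNReal.ofReal |bm (ω i) a + D ω a i - M.eul η k 0 z i| with hδ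
    set e : ℝ≥0∞ := 2 * (∑ j, ∫⁻ s in Set.Ioc a (a + η), ENNReal.ofReal |bm (ω j) s - bm (ω j) a|) +
      2 * ENNReal.ofReal η * (n * ENNReal.ofReal η) with he
    have hone : ∀ i, ENNReal.ofReal |bm (ω i) (((k + 1 : ℕ) : ℝ) / 2 ^ J) +
        D ω (((k + 1 : ℕ) : ℝ) / 2 ^ J) i - M.eul η (k + 1) 0 z i| ≤
        ENNReal.ofReal |bm (ω i) a + D ω a i - M.eul η k 0 z i| +
          (2 * ENNReal.ofReal η * δ + e) := by
      intro i
      have hb : bm (ω i) (((k + 1 : ℕ) : ℝ) / 2 ^ J) = bm (ω i) a + √η * z k i := by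
        rw [ha', bm_dyadic, bm_dyadic, Finset.sum_range_succ, hη, sqrt_mesh]; rfl
      rw [hb, M.eul_succ, hnext]
      have hstep := hD.step ω (M.eul η k 0 z) ha (le_of_lt (by positivity : 0 < η)) i
      rw [show bm (ω i) a + √η * z k i + D ω (a + η) i -
          (M.eul η k 0 z i + η * M.m (M.eul η k 0 z) i + √η * z k i) =
          (bm (ω i) a + D ω a i - M.eul η k 0 z i) +
          (D ω (a + η) i - D ω a i - η * M.m (M.eul η k 0 z) i) by ring]
      refine (ENNReal.ofReal_le_ofReal (abs_add_le _ _)).trans ?_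
      rw [ENNReal.ofReal_add (abs_nonneg _) (abs_nonneg _)]
      refine add_le_add le_rfl (hstep.trans (le_of_eq ?_))
      rw [he, hn, hδ]; ring
    refine (Finset.sum_le_sum fun i _ => hone i).trans ?_
    rw [Finset.sum_add_distrib, ← hδ, Finset.sum_const, Finset.card_univ, nsmul_eq_mul, ← hn]
    set c : ℝ≥0∞ := 1 + 2 * n * ENNReal.ofReal η with hc
    calc δ + n * (2 * ENNReal.ofReal η * δ + e) = c * δ + n * e := by rw [hc]; ring
      _ ≤ _ := by
        refine (add_le_add (mul_le_mul_right ih c) le_rfl).trans ?_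
        rw [Finset.sum_range_succ, mul_add (c ^ (k + 1)), mul_add, ← mul_assoc c, ← pow_succ']
        have hc1 : (1 : ℝ≥0∞) ≤ c := by rw [hc]; exact le_self_add
        exact add_le_add (le_refl _) (le_mul_of_one_le_left' (one_le_pow_of_one_le' hc1 _))

/-- Expected path error on one mesh interval. -/
lemma lintegral_interval_error (J l : ℕ) :
    ∫⁻ ω, (∫⁻ s in Set.Ioc ((l : ℝ) / 2 ^ J) ((l : ℝ) / 2 ^ J + (2 ^ J : ℝ)⁻¹),
        ENNReal.ofReal |bm ω s - bm ω ((l : ℝ) / 2 ^ J)|) ∂nu0 ≤
      ENNReal.ofReal (2 ^ J : ℝ)⁻¹ *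
        ((∑' i : ℕ, ENNReal.ofReal ((√2)⁻¹ ^ (J + i + 1))) * absG) := by
  set a : ℝ := (l : ℝ) / 2 ^ J with ha
  set η : ℝ := (2 ^ J : ℝ)⁻¹ with hη
  have hm : Measurable fun p : Omega0 × ℝ => ENNReal.ofReal |bm p.1 p.2 - bm p.1 a| := by
    refine ENNReal.measurable_ofReal.comp (Measurable.abs (Measurable.sub ?_ ?_))
    · exact measurable_bm_comp measurable_snd measurable_fst
    · exact measurable_bm_comp measurable_const measurable_fst
  rw [lintegral_lintegral_swap hm.aemeasurable]
  calc ∫⁻ s in Set.Ioc a (a + η), ∫⁻ ω, ENNReal.ofReal |bm ω s - bm ω a| ∂nu0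
      ≤ ∫⁻ _ in Set.Ioc a (a + η),
          (∑' i : ℕ, ENNReal.ofReal ((√2)⁻¹ ^ (J + i + 1))) * absG := by
        refine lintegral_mono_ae ?_
        have hlt : ∀ᵐ s ∂volume.restrict (Set.Ioc a (a + η)), s ∈ Set.Ico a (a + η) := by
          filter_upwards [ae_restrict_mem measurableSet_Ioc,
            (Measure.ae_ne (volume.restrict (Set.Ioc a (a + η))) (a + η))] with s hs hne
          exact ⟨hs.1.le, lt_of_le_of_ne hs.2 hne⟩
        filter_upwards [hlt] with s hs
        have ha0 : 0 ≤ a := by positivity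
        refine le_trans (le_of_eq ?_) (lintegral_bm_sub J (ha0.trans hs.1))
        congr 1
        funext ω
        congr 3
        rw [ha, bm_dyadic, bmJ]
        congr 2
        symm
        rw [Nat.floor_eq_iff (mul_nonneg (ha0.trans hs.1) (by positivity))]
        have h2 : (0 : ℝ) < 2 ^ J := by positivity
        constructor
        · have := hs.1; rw [ha, div_le_iff₀ h2] at this; exact this
        · have := hs.2
          rw [ha, hη, show (l : ℝ) / 2 ^ J + (2 ^ J : ℝ)⁻¹ = (l + 1) / 2 ^ J by field_simp,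
            lt_div_iff₀ h2] at this
          exact this
    _ = _ := by rw [setLIntegral_const, Real.volume_Ioc, add_sub_cancel_left, mul_comm]

variable (M)

/-- **Finite volume law of the solution.** -/
theorem Model.law_solution {D : (ι → Omega0) → ℝ → ι → ℝ} (hD : Solves M D) (T : ℕ)
    {f : (ι → ℝ) → ℝ} (hf : Obs f) {L : ℝ} (hL : 0 ≤ L)
    (hlip : ∀ h g, |f h - f g| ≤ L * ∑ i, |h i - g i|) :
    ∫ ω, f (fun i => bm (ω i) T + D ω T i) ∂(Measure.pi fun _ : ι => nu0) = M.expect T f := by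
  set P : Measure (ι → Omega0) := Measure.pi fun _ : ι => nu0 with hP
  set n : ℕ := Fintype.card ι with hn
  let g : ℕ → (ι → Omega0) → ι → ℝ := fun J ω =>
    M.eul ((2 ^ J : ℝ)⁻¹) (T * 2 ^ J) 0 (fun l j => nincr J (ω j) l)
  let sol : (ι → Omega0) → ι → ℝ := fun ω i => bm (ω i) T + D ω T i
  have hsol : Measurable sol := by
    refine measurable_pi_iff.2 fun i => ?_
    exact (measurable_bm_comp measurable_const (measurable_pi_apply i)).add
      ((measurable_pi_apply i).comp (hD.measurable T))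
  have hinc : ∀ J, Measurable fun (ω : ι → Omega0) (l : ℕ) (j : ι) => nincr J (ω j) l := fun J =>
    measurable_pi_iff.2 fun l => measurable_pi_iff.2 fun j =>
      (measurable_pi_apply l).comp ((measurable_nincr J).comp (measurable_pi_apply j))
  have hg : ∀ J, Measurable (g J) := fun J =>
    (M.measurable_eul _ _).comp (measurable_const.prodMk (hinc J))
  have hQ : ∀ J, ∫ ω, f (g J ω) ∂P = M.Qit ((2 ^ J : ℝ)⁻¹) (T * 2 ^ J) f 0 := by
    intro J
    rw [M.Qit_eq hf, ← law_increments J, integral_map (hinc J).aemeasurable]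
    exact (hf.1.comp ((M.measurable_eul _ _).comp
      (measurable_const.prodMk measurable_id))).aestronglyMeasurable
  -- the two error estimates
  have hscheme : Tendsto (fun J => ∫ ω, f (g J ω) ∂P) atTop (𝓝 (M.expect T f)) := by
    set C : ℝ := L * (1 + Real.exp (8 * T * n) * n * (T * n) / 4) with hC
    refine tendsto_iff_norm_sub_tendsto_zero.2 (squeeze_zero (fun J => norm_nonneg _) (fun J => ?_)
      (g := fun J => C * √((2 ^ J : ℝ)⁻¹)) ?_)
    · set η : ℝ := (2 ^ J : ℝ)⁻¹ with hη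
      have hη0 : 0 < η := by positivity
      have hη1 : η ≤ 1 := inv_le_one_of_one_le₀ (one_le_pow₀ one_le_two)
      have hKη : ((T * 2 ^ J : ℕ) : ℝ) * η = T := by rw [hη]; push_cast; field_simp
      rw [hQ, Real.norm_eq_abs, abs_sub_comm]
      have hP0 := M.Pit_zero hη0.le hf (T * 2 ^ J)
      rw [hKη] at hP0
      rw [← hP0]
      refine (M.Pit_sub_Qit hη0.le hη1 hf hL hlip (Real.sqrt_pos.2 hη0) _ 0 0).trans ?_
      have hzero : ∑ i : ι, ((0 : ι → ℝ) i - (0 : ι → ℝ) i) ^ 2 = 0 := by simp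
      rw [hzero, zero_add]
      have hpow : (1 + 8 * η * n) ^ (T * 2 ^ J) ≤ Real.exp (8 * T * n) := by
        refine (pow_le_pow_left₀ (by positivity)
          (le_trans (le_of_eq (add_comm _ _)) (Real.add_one_le_exp _)) _).trans (le_of_eq ?_)
        rw [← Real.exp_nat_mul]; congr 1
        calc ((T * 2 ^ J : ℕ) : ℝ) * (8 * η * n) = 8 * (((T * 2 ^ J : ℕ) : ℝ) * η) * n := by ring
          _ = _ := by rw [hKη]
      have hsq : √η * √η = η := Real.mul_self_sqrt hη0.le
      rw [hC, mul_assoc L (1 + Real.exp (8 * T * n) * n * (T * n) / 4) (√η)]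
      refine mul_le_mul_of_nonneg_left ?_ hL
      calc √η + (1 + 8 * η * n) ^ (T * 2 ^ J) * n / (4 * √η) * (((T * 2 ^ J : ℕ) : ℝ) * η ^ 2 * n)
          = √η + (1 + 8 * η * n) ^ (T * 2 ^ J) * n *
              ((((T * 2 ^ J : ℕ) : ℝ) * η) * n) / 4 * (η / √η) := by
            field_simp
        _ ≤ √η + Real.exp (8 * T * n) * n * (T * n) / 4 * (η / √η) := by rw [hKη]; gcongr
        _ = _ := by rw [Real.div_sqrt]; ring
    · have : Tendsto (fun J : ℕ => √((2 ^ J : ℝ)⁻¹)) atTop (𝓝 0) := by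
        simp only [sqrt_mesh]
        exact tendsto_pow_atTop_nhds_zero_of_lt_one (by positivity)
          (inv_lt_one_of_one_lt₀ Real.one_lt_sqrt_two)
      simpa using this.const_mul C
  have hpath : Tendsto (fun J => ∫ ω, f (g J ω) ∂P) atTop (𝓝 (∫ ω, f (sol ω) ∂P)) := by
    set ρ : ℕ → ℝ≥0∞ := fun J => ENNReal.ofReal (Real.exp (2 * n * T)) *
      (T * (n * (2 * (n * ((∑' i : ℕ, ENNReal.ofReal ((√2)⁻¹ ^ (J + i + 1))) * absG)) +
        2 * (n * ENNReal.ofReal (2 ^ J : ℝ)⁻¹)))) with hρ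
    have hρ0 : Tendsto ρ atTop (𝓝 0) := by
      have h1 : Tendsto (fun J => (∑' i : ℕ, ENNReal.ofReal ((√2)⁻¹ ^ (J + i + 1))) * absG) atTop
          (𝓝 0) := by
        simpa using ENNReal.Tendsto.mul_const tendsto_step_error (Or.inr absG_ne_top)
      have h2 : Tendsto (fun J : ℕ => ENNReal.ofReal (2 ^ J : ℝ)⁻¹) atTop (𝓝 0) := by
        have := ENNReal.tendsto_ofReal (tendsto_inv_atTop_zero.comp
          (tendsto_pow_atTop_atTop_of_one_lt (one_lt_two : (1 : ℝ) < 2)))
        simpa using this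
      have hN : (n : ℝ≥0∞) ≠ ⊤ := ENNReal.natCast_ne_top n
      have hT : (T : ℝ≥0∞) ≠ ⊤ := ENNReal.natCast_ne_top T
      have h3 := ENNReal.Tendsto.const_mul (ENNReal.Tendsto.const_mul (ENNReal.Tendsto.const_mul
        ((ENNReal.Tendsto.const_mul (ENNReal.Tendsto.const_mul h1 (Or.inr hN))
          (Or.inr (ENNReal.ofNat_ne_top (n := 2))) : Tendsto _ _ (𝓝 ((2 : ℝ≥0∞) * (n * 0)))).add
        (ENNReal.Tendsto.const_mul (ENNReal.Tendsto.const_mul h2 (Or.inr hN))
          (Or.inr (ENNReal.ofNat_ne_top (n := 2))))) (Or.inr hN)) (Or.inr hT))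
        (Or.inr (ENNReal.ofReal_ne_top (r := Real.exp (2 * n * T))))
      simpa [hρ] using h3
    have hbound : ∀ J, ∫⁻ ω, ∑ i, ENNReal.ofReal |sol ω i - g J ω i| ∂P ≤ ρ J := by
      intro J
      set η : ℝ := (2 ^ J : ℝ)⁻¹ with hη
      have hη0 : 0 ≤ η := by positivity
      have hKη : ((T * 2 ^ J : ℕ) : ℝ) * η = T := by rw [hη]; push_cast; field_simp
      set κ : ℝ≥0∞ := (∑' i : ℕ, ENNReal.ofReal ((√2)⁻¹ ^ (J + i + 1))) * absG with hκ
      have hT : ((T * 2 ^ J : ℕ) : ℝ) / 2 ^ J = (T : ℝ) := by push_cast; field_simp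
      have hpt := fun ω => hD.euler_error ω J (T * 2 ^ J)
      simp only [hT] at hpt
      refine (lintegral_mono hpt).trans ?_
      have hJm : ∀ (l : ℕ) (j : ι), Measurable fun ω : ι → Omega0 =>
          ∫⁻ s in Set.Ioc ((l : ℝ) / 2 ^ J) ((l : ℝ) / 2 ^ J + η),
            ENNReal.ofReal |bm (ω j) s - bm (ω j) ((l : ℝ) / 2 ^ J)| := by
        intro l j
        have hm : Measurable fun p : (ι → Omega0) × ℝ =>
            ENNReal.ofReal |bm (p.1 j) p.2 - bm (p.1 j) ((l : ℝ) / 2 ^ J)| := by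
          have hj : Measurable fun p : (ι → Omega0) × ℝ => p.1 j :=
            (measurable_pi_apply j).comp measurable_fst
          exact ENNReal.measurable_ofReal.comp (Measurable.abs
            ((measurable_bm_comp measurable_snd hj).sub
              (measurable_bm_comp measurable_const hj)))
        exact hm.lintegral_prod_right
      rw [lintegral_const_mul _ (Finset.measurable_sum _ fun l _ =>
          (((Finset.measurable_sum _ fun j _ => hJm l j).const_mul _).add_const _).const_mul _),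
        lintegral_finsetSum _ fun l _ =>
          (((Finset.measurable_sum _ fun j _ => hJm l j).const_mul _).add_const _).const_mul _]
      refine le_trans (mul_le_mul' ?_ (Finset.sum_le_sum (g := fun _ => (n : ℝ≥0∞) *
        (2 * (n * (ENNReal.ofReal η * κ)) + 2 * ENNReal.ofReal η * (n * ENNReal.ofReal η)))
        fun l _ => ?_)) ?_ (b := ENNReal.ofReal (Real.exp (2 * n * T)) * _)
      · have h1 : (1 + 2 * (n : ℝ≥0∞) * ENNReal.ofReal η) = ENNReal.ofReal (1 + 2 * n * η) := by
          rw [ENNReal.ofReal_add zero_le_one (by positivity), ENNReal.ofReal_one,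
            ENNReal.ofReal_mul (by positivity), ENNReal.ofReal_mul zero_le_two,
            ENNReal.ofReal_ofNat, ENNReal.ofReal_natCast]
        rw [h1, ← ENNReal.ofReal_pow (by positivity)]
        refine ENNReal.ofReal_le_ofReal ((pow_le_pow_left₀ (by positivity)
          (le_trans (le_of_eq (add_comm _ _)) (Real.add_one_le_exp _)) _).trans (le_of_eq ?_))
        rw [← Real.exp_nat_mul]; congr 1
        calc ((T * 2 ^ J : ℕ) : ℝ) * (2 * n * η) = 2 * n * (((T * 2 ^ J : ℕ) : ℝ) * η) := by ring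
          _ = _ := by rw [hKη]
      · rw [lintegral_const_mul _ (((Finset.measurable_sum _ fun j _ => hJm l j).const_mul _).add_const _),
          lintegral_add_right _ measurable_const,
          lintegral_const_mul _ (Finset.measurable_sum _ fun j _ => hJm l j),
          lintegral_finsetSum _ fun j _ => hJm l j, lintegral_const, measure_univ, mul_one]
        refine mul_le_mul_right (add_le_add ?_ le_rfl) _
        refine mul_le_mul_right ((Finset.sum_le_sum fun j _ => ?_).trans
          (le_of_eq (by rw [Finset.sum_const, Finset.card_univ, nsmul_eq_mul]))) _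
        have hm : Measurable fun x : Omega0 =>
            ∫⁻ s in Set.Ioc ((l : ℝ) / 2 ^ J) ((l : ℝ) / 2 ^ J + η),
              ENNReal.ofReal |bm x s - bm x ((l : ℝ) / 2 ^ J)| := by
          refine Measurable.lintegral_prod_right'
            (f := fun p : Omega0 × ℝ => ENNReal.ofReal |bm p.1 p.2 - bm p.1 ((l : ℝ) / 2 ^ J)|) ?_
          exact ENNReal.measurable_ofReal.comp (Measurable.abs
            ((measurable_bm_comp measurable_snd measurable_fst).sub
              (measurable_bm_comp measurable_const measurable_fst)))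
        have h := lintegral_interval_error J l
        rw [← (measurePreserving_eval (fun _ : ι => nu0) j).map_eq,
          lintegral_map hm (measurable_pi_apply j)] at h
        exact h
      · rw [Finset.sum_const, Finset.card_range, nsmul_eq_mul, hρ]
        refine mul_le_mul_right (le_of_eq ?_) _
        have h3 : ((T * 2 ^ J : ℕ) : ℝ≥0∞) * ENNReal.ofReal η = T := by
          rw [← ENNReal.ofReal_natCast, ← ENNReal.ofReal_mul (by positivity), hKη,
            ENNReal.ofReal_natCast]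
        calc _ = (((T * 2 ^ J : ℕ) : ℝ≥0∞) * ENNReal.ofReal η) *
              ((n : ℝ≥0∞) * (2 * (n * κ) + 2 * (n * ENNReal.ofReal η))) := by ring
          _ = _ := by rw [h3]
    refine tendsto_iff_norm_sub_tendsto_zero.2 (squeeze_zero (fun J => norm_nonneg _) (fun J => ?_)
      (g := fun J => (ENNReal.ofReal L * ρ J).toReal) ?_)
    · rw [← integral_sub (hf.integrable (hg J)) (hf.integrable hsol)]
      have hρtop : ρ J ≠ ⊤ := by
        have : (∑' i : ℕ, ENNReal.ofReal ((√2)⁻¹ ^ (J + i + 1))) ≠ ⊤ := by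
          rw [← ENNReal.ofReal_tsum_of_nonneg (fun i => by positivity)]
          · exact ENNReal.ofReal_ne_top
          · exact ((summable_geometric_of_lt_one (by positivity)
              (inv_lt_one_of_one_lt₀ Real.one_lt_sqrt_two)).mul_left ((√2)⁻¹ ^ (J + 1))).congr
              fun i => by rw [← pow_add]; congr 1; omega
        rw [hρ]
        exact ENNReal.mul_ne_top ENNReal.ofReal_ne_top (ENNReal.mul_ne_top
          (ENNReal.natCast_ne_top T) (ENNReal.mul_ne_top (ENNReal.natCast_ne_top n)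
            (ENNReal.add_ne_top.2 ⟨ENNReal.mul_ne_top (ENNReal.ofNat_ne_top (n := 2))
              (ENNReal.mul_ne_top (ENNReal.natCast_ne_top n) (ENNReal.mul_ne_top this absG_ne_top)),
              ENNReal.mul_ne_top (ENNReal.ofNat_ne_top (n := 2))
                (ENNReal.mul_ne_top (ENNReal.natCast_ne_top n) ENNReal.ofReal_ne_top)⟩)))
      have hle : ‖∫ ω, (f (g J ω) - f (sol ω)) ∂P‖ₑ ≤ ENNReal.ofReal L * ρ J := by
        refine (enorm_integral_le_lintegral_enorm _).trans ?_
        refine le_trans ?_ (mul_le_mul_right (hbound J) _)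
        rw [← lintegral_const_mul' _ _ ENNReal.ofReal_ne_top]
        refine lintegral_mono fun ω => ?_
        rw [← ofReal_norm, Real.norm_eq_abs, ← ENNReal.ofReal_sum_of_nonneg (fun i _ => abs_nonneg _),
          ← ENNReal.ofReal_mul hL, abs_sub_comm]
        exact ENNReal.ofReal_le_ofReal (hlip _ _)
      have := ENNReal.toReal_mono (ENNReal.mul_ne_top ENNReal.ofReal_ne_top hρtop) hle
      rwa [toReal_enorm] at this
    · have := (ENNReal.tendsto_toReal (show (0 : ℝ≥0∞) ≠ ⊤ by simp)).comp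
        (by simpa using ENNReal.Tendsto.const_mul hρ0 (Or.inr (ENNReal.ofReal_ne_top (r := L))) :
          Tendsto (fun J => ENNReal.ofReal L * ρ J) atTop (𝓝 0))
      rw [ENNReal.toReal_zero] at this
      exact this
  exact tendsto_nhds_unique hpath hscheme

end Vale.Agent.P143
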