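import Vale.Agent.P143.Tree
import Vale.Agent.P143.Finite
import Vale.Agent.P143.Defs

/-!
The uniform spanning tree of a finite connected subgraph as a tilt model.
-/

namespace Vale.Agent.P143

open SimpleGraph

variable {V : Type}

/-- extension by zero from a finite edge set -/
noncomputable def ext (S : Finset (Sym2 V)) (h : S → ℝ) : Sym2 V → ℝ :=
  fun f => open Classical in if hf : f ∈ S then h ⟨f, hf⟩ else 0

lemma ext_apply (S : Finset (Sym2 V)) (h : S → ℝ) (i : S) : ext S h i = h i := by
  simp [ext, i.2]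

open Classical in
/-- indicator vector of an edge set -/
noncomputable def indVec (S T : Finset (Sym2 V)) : S → ℝ :=
  fun i => if (i : Sym2 V) ∈ T then 1 else 0

lemma sum_indVec {S T : Finset (Sym2 V)} (hT : T ⊆ S) (h : Sym2 V → ℝ) :
    ∑ i : S, h i * indVec S T i = ∑ f ∈ T, h f := by
  classical
  simp only [indVec, mul_ite, mul_one, mul_zero]
  rw [← Finset.sum_filter]
  have : ((Finset.univ : Finset {f // f ∈ S}).filter (fun i => i.1 ∈ T)).map
      (Function.Embedding.subtype (· ∈ S)) = T := by
    ext f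
    simp only [Finset.mem_map, Finset.mem_filter, Finset.mem_univ, true_and,
      Function.Embedding.coe_subtype, Subtype.exists]
    constructor
    · rintro ⟨a, ha, haT, rfl⟩; exact haT
    · exact fun hf => ⟨f, hT hf, hf, rfl⟩
  conv_rhs => rw [← this, Finset.sum_map]
  rfl

lemma indVec_injOn {R : Set V} {S : Finset (Sym2 V)} [DecidableEq V] :
    Set.InjOn (indVec S) (trees R S : Set (Finset (Sym2 V))) := by
  classical
  intro T hT T' hT' h
  have hsub := (mem_trees.1 (Finset.mem_coe.1 hT)).1
  have hsub' := (mem_trees.1 (Finset.mem_coe.1 hT')).1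
  ext f
  constructor
  · intro hf
    have := congrFun h ⟨f, hsub hf⟩
    by_contra hf'
    simp [indVec, hf, hf'] at this
  · intro hf
    have := congrFun h ⟨f, hsub' hf⟩
    by_contra hf'
    simp [indVec, hf, hf'] at this

variable [DecidableEq V]

lemma spanTree_card {R : Set V} (hR : R.Finite) (hne : R.Nonempty) {S : Finset (Sym2 V)}
    (hG : FiniteGraph R S) {T : Finset (Sym2 V)} (hT : SpanTree R S T) :
    T.card + 1 = R.ncard := by
  classical
  have : Fintype R := hR.fintype
  set Gt : SimpleGraph R := (gr T).induce R with hGt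
  have hadj : ∀ {a b : V}, (gr T).Adj a b → a ∈ R := fun {a b} h =>
    hG.ends _ (hT.1 (Finset.mem_coe.1 ((fromEdgeSet_adj _).1 h).1)) a (by simp)
  have hreach : ∀ (u v : V) (p : (gr T).Walk u v) (hu : u ∈ R) (hv : v ∈ R),
      Gt.Reachable ⟨u, hu⟩ ⟨v, hv⟩ := by
    intro u v p
    induction p with
    | nil => intro hu hv; exact Reachable.rfl
    | @cons u w v h p ih =>
      intro hu hv
      exact (show Gt.Adj ⟨u, hu⟩ ⟨w, hadj h.symm⟩ from h).reachable.trans (ih (hadj h.symm) hv)
  have htree : Gt.IsTree := by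
    refine { connected := { preconnected := ?_, nonempty := hne.to_subtype }, isAcyclic := hT.2.1.induce R }
    rintro ⟨u, hu⟩ ⟨v, hv⟩
    obtain ⟨p⟩ := hT.2.2 u hu v hv
    exact hreach u v p hu hv
  have hcard := htree.card_edgeFinset
  rw [← Nat.card_eq_fintype_card, Nat.card_coe_set_eq] at hcard
  rw [← hcard]
  congr 1
  refine (Finset.card_bij (fun e _ => e.map Subtype.val) ?_ ?_ ?_).symm
  · intro e he
    induction e using Sym2.ind with
    | _ a b =>
      rw [mem_edgeFinset] at he
      exact Finset.mem_coe.1 ((fromEdgeSet_adj _).1 he).1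
  · intro e _ e' _ h
    exact Sym2.map.injective Subtype.val_injective h
  · intro f hf
    induction f using Sym2.ind with
    | _ a b =>
      have hfS := hT.1 hf
      refine ⟨s(⟨a, hG.ends _ hfS a (by simp)⟩, ⟨b, hG.ends _ hfS b (by simp)⟩), ?_, rfl⟩
      rw [mem_edgeFinset]
      exact gr_adj_of_mem hf (by simpa using hG.loopless _ hfS)

lemma exists_spanTree {R : Set V} {S : Finset (Sym2 V)} (_hG : FiniteGraph R S)
    (hconn : ∀ u ∈ R, ∀ v ∈ R, (gr S).Reachable u v) : (trees R S).Nonempty := by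
  classical
  set 𝒮 := S.powerset.filter fun T => ∀ u ∈ R, ∀ v ∈ R, (gr T).Reachable u v with h𝒮
  obtain ⟨T, hT, hmin⟩ := Finset.exists_min_image 𝒮 Finset.card
    ⟨S, Finset.mem_filter.2 ⟨Finset.mem_powerset.2 subset_rfl, hconn⟩⟩
  rw [h𝒮, Finset.mem_filter, Finset.mem_powerset] at hT
  refine ⟨T, mem_trees.2 ⟨hT.1, ?_, hT.2⟩⟩
  rw [isAcyclic_iff_forall_adj_isBridge]
  intro a b hab hreach
  have hmem : s(a, b) ∈ T := Finset.mem_coe.1 ((fromEdgeSet_adj _).1 hab).1
  have : T.erase s(a, b) ∈ 𝒮 := by
    rw [h𝒮, Finset.mem_filter, Finset.mem_powerset]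
    refine ⟨(Finset.erase_subset _ _).trans hT.1, fun u hu v hv => ?_⟩
    rw [gr_erase]
    have hab' : ((gr T).deleteEdges {s(a, b)}).Reachable a b := hreach
    rcases reach_deleteEdge (a := a) (b := b) (hT.2 u hu v hv) with h | ⟨h1, h2⟩
    · exact h
    · have hu' : ((gr T).deleteEdges {s(a, b)}).Reachable u a :=
        h1.elim id fun h => h.trans hab'.symm
      have hv' : ((gr T).deleteEdges {s(a, b)}).Reachable v a :=
        h2.elim id fun h => h.trans hab'.symm
      exact hu'.trans hv'.symm
  have := hmin _ this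
  have := Finset.card_erase_lt_of_mem hmem
  omega

/-- the tilt model of a finite connected graph -/
noncomputable def treeModel {R : Set V} {S : Finset (Sym2 V)} (hR : R.Finite) (hne : R.Nonempty)
    (hG : FiniteGraph R S) (hconn : ∀ u ∈ R, ∀ v ∈ R, (gr S).Reachable u v) : Model S where
  conf := (trees R S).image (indVec S)
  m h i := marg (S : Set (Sym2 V)) i (ext S h)
  nonempty := (exists_spanTree hG hconn).image _
  zero_one x hx i := by
    classical
    obtain ⟨T, -, rfl⟩ := Finset.mem_image.1 hx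
    unfold indVec
    split_ifs <;> simp
  size := (R.ncard : ℝ) - 1
  size_eq x hx := by
    classical
    obtain ⟨T, hT, rfl⟩ := Finset.mem_image.1 hx
    rw [mem_trees] at hT
    have h1 := sum_indVec hT.1 (fun _ => (1 : ℝ))
    simp only [one_mul, Finset.sum_const, nsmul_eq_mul, mul_one] at h1
    rw [h1, ← spanTree_card hR hne hG hT]
    push_cast; ring
  m_eq h i := by
    classical
    rw [Finset.sum_image indVec_injOn, Finset.sum_image indVec_injOn]
    have hw : ∀ T ∈ trees R S, Real.exp (∑ j : S, h j * indVec S T j) = wt (ext S h) T := by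
      intro T hT
      rw [wt, ← sum_indVec (mem_trees.1 hT).1 (ext S h)]
      congr 1
      exact Finset.sum_congr rfl fun j _ => by rw [ext_apply]
    rw [Finset.sum_congr rfl hw, marg_mul_sum hG (exists_spanTree hG hconn) i.2,
      Finset.sum_filter]
    refine Finset.sum_congr rfl fun T hT => ?_
    rw [hw T hT]
    by_cases hi : (i : Sym2 V) ∈ T <;> simp [indVec, hi]
  lip h g i δ hδ hhg := by
    refine marg_lipschitz (fun e he => hG.loopless e (Finset.mem_coe.1 he)) _ hδ fun f hf => ?_
    rw [Finset.mem_coe] at hf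
    have := hhg ⟨f, hf⟩
    rwa [← ext_apply S h ⟨f, hf⟩, ← ext_apply S g ⟨f, hf⟩] at this

omit [DecidableEq V] in
lemma connected_edge_reachable {G : SimpleGraph V} {H : G.Subgraph} {S : Finset (Sym2 V)}
    (hS : ∀ f, f ∈ S ↔ f ∈ H.edgeSet) (hH : H.Connected) :
    ∀ u ∈ H.verts, ∀ v ∈ H.verts, (gr S).Reachable u v := by
  intro u hu v hv
  classical
  have := hH.coe.preconnected ⟨u, hu⟩ ⟨v, hv⟩
  refine this.map { toFun := Subtype.val, map_rel' := ?_ }
  intro a b hab
  have hab' : H.Adj a b := hab
  exact gr_adj_of_mem ((hS _).2 hab') hab'.ne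

omit [DecidableEq V] in
lemma finiteGraph_of_subgraph {G : SimpleGraph V} {H : G.Subgraph} {S : Finset (Sym2 V)}
    (hS : ∀ f, f ∈ S ↔ f ∈ H.edgeSet) : FiniteGraph H.verts S where
  ends f hf _ ha := H.mem_verts_of_mem_edge ((hS f).1 hf) ha
  loopless f hf := G.not_isDiag_of_mem_edgeSet (H.edgeSet_subset ((hS f).1 hf))

omit [DecidableEq V] in
lemma isSpanningTree_iff {G : SimpleGraph V} {H : G.Subgraph} {S : Finset (Sym2 V)}
    (hS : ∀ f, f ∈ S ↔ f ∈ H.edgeSet) (T : Finset (Sym2 V)) :
    IsSpanningTree H T ↔ SpanTree H.verts S T := by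
  have hsub : (T : Set (Sym2 V)) ⊆ H.edgeSet ↔ T ⊆ S :=
    ⟨fun h f hf => (hS f).2 (h (Finset.mem_coe.2 hf)),
      fun h f hf => (hS f).1 (h (Finset.mem_coe.1 hf))⟩
  exact and_congr hsub Iff.rfl

open Classical in
/-- expectations of the uniform configuration are averages over spanning trees -/
lemma sum_mu_zero {R : Set V} {S : Finset (Sym2 V)} (hR : R.Finite) (hne : R.Nonempty)
    (hG : FiniteGraph R S) (hconn : ∀ u ∈ R, ∀ v ∈ R, (gr S).Reachable u v) (a : (S → ℝ) → ℝ) :
    ∑ x ∈ (treeModel hR hne hG hconn).conf, (treeModel hR hne hG hconn).mu 0 x * a x =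
      (∑ T ∈ trees R S, a (indVec S T)) / (trees R S).card := by
  have hcard : ((trees R S).image (indVec S)).card = (trees R S).card :=
    Finset.card_image_of_injOn indVec_injOn
  have hmu : ∀ x, (treeModel hR hne hG hconn).mu 0 x = 1 / (trees R S).card := by
    intro x
    simp only [Model.mu, Model.w_zero, Finset.sum_const, nsmul_eq_mul, mul_one]
    congr 2
  simp only [hmu, ← Finset.mul_sum]
  rw [show (treeModel hR hne hG hconn).conf = (trees R S).image (indVec S) from rfl,
    Finset.sum_image indVec_injOn]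
  ring

end Vale.Agent.P143
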