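import Vale.Agent.P143.Defs

/-!
Elementary facts on connected locally finite graphs and Cayley graphs.
-/

namespace Vale.Agent.P143

open SimpleGraph

variable {V : Type} {G : SimpleGraph V}

/-- vertices within walking distance `n` of `o` -/
def ballW (G : SimpleGraph V) (o : V) (n : ℕ) : Set V :=
  {v | ∃ p : G.Walk o v, p.length ≤ n}

lemma finite_ballW (hlf : ∀ v, (G.neighborSet v).Finite) : ∀ (n : ℕ) (o : V),
    (ballW G o n).Finite := by
  intro n
  induction n with
  | zero =>
    intro o
    refine (Set.finite_singleton o).subset ?_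
    rintro v ⟨p, hp⟩
    exact ((Walk.eq_of_length_eq_zero (p := p) (by omega))).symm
  | succ n ih =>
    intro o
    refine ((Set.finite_singleton o).union ((hlf o).biUnion fun w _ => ih w)).subset ?_
    rintro v ⟨p, hp⟩
    cases p with
    | nil => exact Or.inl rfl
    | cons h q =>
      refine Or.inr (Set.mem_biUnion h ⟨q, ?_⟩)
      rw [Walk.length_cons] at hp
      omega

lemma countable_of_connected (hconn : G.Connected) (hlf : ∀ v, (G.neighborSet v).Finite) :
    Countable V := by
  obtain ⟨o⟩ := hconn.nonempty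
  rw [← Set.countable_univ_iff]
  refine (Set.countable_iUnion fun n => (finite_ballW hlf n o).countable).mono ?_
  intro v _
  obtain ⟨p⟩ := hconn.preconnected o v
  exact Set.mem_iUnion.2 ⟨p.length, p, le_rfl⟩

lemma exists_exhaustion (hconn : G.Connected) (hlf : ∀ v, (G.neighborSet v).Finite) :
    ∃ H : ℕ → G.Subgraph, IsExhaustion G H := by
  classical
  obtain ⟨o⟩ := hconn.nonempty
  refine ⟨fun n => (⊤ : G.Subgraph).induce (ballW G o n), ?_, fun n => ⟨finite_ballW hlf n o, ?_⟩,
    fun v => ?_, fun e he => ?_⟩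
  · intro m n hmn
    exact Subgraph.induce_mono le_rfl fun v ⟨p, hp⟩ => ⟨p, hp.trans hmn⟩
  · set H := (⊤ : G.Subgraph).induce (ballW G o n)
    have ho : o ∈ H.verts := ⟨Walk.nil, Nat.zero_le n⟩
    have hroot : ∀ (v : V) (hv : v ∈ H.verts), H.coe.Reachable ⟨o, ho⟩ ⟨v, hv⟩ := by
      intro v hv
      obtain ⟨p, hp⟩ := hv
      have hsupp : ∀ {a b : V} (q : G.Walk a b), (∀ w ∈ q.support, w ∈ H.verts) →
          ∀ (ha : a ∈ H.verts) (hb : b ∈ H.verts), H.coe.Reachable ⟨a, ha⟩ ⟨b, hb⟩ := by
        intro a b q
        induction q with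
        | nil => intro _ ha hb; exact Reachable.rfl
        | @cons a c b h q ih =>
          intro hall ha hb
          have hc : c ∈ H.verts := hall c (by simp)
          exact (show H.coe.Adj ⟨a, ha⟩ ⟨c, hc⟩ from ⟨ha, hc, h⟩).reachable.trans
            (ih (fun w hw => hall w (by simp [hw])) hc hb)
      refine hsupp p (fun w hw => ?_) _ _
      exact ⟨p.takeUntil w hw, (p.length_takeUntil_le_length hw).trans hp⟩
    rw [Subgraph.connected_iff']
    exact { preconnected := fun a b => (hroot a a.2).symm.trans (hroot b b.2),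
            nonempty := ⟨⟨o, ho⟩⟩ }
  · obtain ⟨p⟩ := hconn.preconnected o v
    exact ⟨p.length, p, le_rfl⟩
  · induction e using Sym2.ind with
    | _ a b =>
      obtain ⟨p⟩ := hconn.preconnected o a
      refine ⟨p.length + 1, ⟨p, Nat.le_succ _⟩, ⟨p.concat he, ?_⟩, he⟩
      exact le_of_eq (Walk.length_concat p he)

variable {Γ : Type} [Group Γ]

lemma mulCayley_connected (S : Set Γ) (hS : Subgroup.closure S = ⊤) :
    (SimpleGraph.mulCayley S).Connected := by
  have key : ∀ g ∈ Subgroup.closure S, ∀ x : Γ, (SimpleGraph.mulCayley S).Reachable x (x * g) := by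
    intro g hg
    induction hg using Subgroup.closure_induction with
    | mem s hs =>
      intro x
      by_cases h : x = x * s
      · rw [← h]
      · exact (show (SimpleGraph.mulCayley S).Adj x (x * s) from
          (SimpleGraph.mulCayley_adj' S _ _).2 ⟨h, s, hs, Or.inl rfl⟩).reachable
    | one => intro x; rw [mul_one]
    | mul a b _ _ iha ihb => intro x; rw [← mul_assoc]; exact (iha x).trans (ihb (x * a))
    | inv a _ iha =>
      intro x
      have := iha (x * a⁻¹)
      rw [inv_mul_cancel_right] at this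
      exact this.symm
  refine { preconnected := fun x y => ?_, nonempty := ⟨1⟩ }
  have := key (x⁻¹ * y) (by rw [hS]; exact Subgroup.mem_top _) x
  rwa [mul_inv_cancel_left] at this

lemma mulCayley_locallyFinite (S : Finset Γ) (x : Γ) :
    ((SimpleGraph.mulCayley (S : Set Γ)).neighborSet x).Finite := by
  refine ((S.finite_toSet.image fun g => x * g).union
    (S.finite_toSet.image fun g => x * g⁻¹)).subset ?_
  intro y hy
  obtain ⟨-, g, hg, h | h⟩ := (SimpleGraph.mulCayley_adj' _ _ _).1 hy
  · exact Or.inl ⟨g, hg, h⟩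
  · exact Or.inr ⟨g, hg, by simp [h]⟩

/-- left translation as a graph automorphism -/
def leftIso (S : Set Γ) (γ : Γ) : SimpleGraph.mulCayley S ≃g SimpleGraph.mulCayley S where
  toEquiv := Equiv.mulLeft γ
  map_rel_iff' := by
    intro a b
    simp [SimpleGraph.mulCayley_adj', mul_assoc]

end Vale.Agent.P143
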