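import Vale.Agent.P143.Main

/-!
The law of the factor is the free uniform spanning forest: limit in the volume, then in time.
-/

namespace Vale.Agent.P143

open MeasureTheory ProbabilityTheory Filter Topology
open scoped ENNReal

variable {V : Type}

/-- common summable error bound -/
noncomputable def tau (k : ℕ) : ℝ := 2 * Real.exp (-(1 / 800) * k)

lemma tau_nonneg (k : ℕ) : 0 ≤ tau k := by unfold tau; positivity

lemma summable_tau : Summable tau := summable_gauss_tail (by norm_num) 2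

lemma tail_le_tau {a : ℝ} (ha : 1 / 20 ≤ a) (k : ℕ) :
    stdG.real {y | a * √(k : ℝ) ≤ |y|} ≤ tau k := by
  have ha0 : 0 ≤ a := le_trans (by norm_num) ha
  refine (gauss_tail (mul_nonneg ha0 (Real.sqrt_nonneg _))).trans ?_
  refine mul_le_mul_of_nonneg_left (Real.exp_le_exp.2 ?_) zero_le_two
  have h1 : a * √(k : ℝ) * (a * √(k : ℝ)) = a ^ 2 * k := by
    rw [show a * √(k : ℝ) * (a * √(k : ℝ)) = a ^ 2 * (√(k : ℝ) * √(k : ℝ)) by ring,
      Real.mul_self_sqrt (Nat.cast_nonneg k)]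
  rw [h1]
  have h2 : (1 / 20 : ℝ) ^ 2 ≤ a ^ 2 := pow_le_pow_left₀ (by norm_num) ha 2
  nlinarith [(Nat.cast_nonneg k : (0 : ℝ) ≤ k)]

lemma scale_div {k : ℕ} (hk : 1 ≤ k) (x z : ℝ) :
    (k * x + √(k : ℝ) * z) / k = x + z / √(k : ℝ) := by
  have hk0 : (0 : ℝ) < k := by exact_mod_cast hk
  rw [add_div, mul_div_cancel_left₀ _ hk0.ne']
  congr 1
  rw [div_eq_div_iff hk0.ne' (Real.sqrt_pos.2 hk0).ne',
    show √(k : ℝ) * z * √(k : ℝ) = z * (√(k : ℝ) * √(k : ℝ)) by ring,
    Real.mul_self_sqrt hk0.le]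

lemma measurable_obsPat (S A : Finset (Sym2 V)) (k : ℕ) : Measurable (obsPat S A k) := by
  classical
  refine Finset.measurable_prod _ fun e _ => ?_
  split_ifs <;> (unfold clamp01; fun_prop)

lemma measurable_obsBad (e : Sym2 V) (k : ℕ) : Measurable (obsBad e k) := by
  unfold obsBad clamp01; fun_prop

lemma measurable_ext (S : Finset (Sym2 V)) : Measurable (ext S) := by
  refine measurable_pi_iff.2 fun f => ?_
  by_cases hf : f ∈ S
  · simp only [ext, hf, dif_pos]; exact measurable_pi_apply _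
  · simp only [ext, hf, dif_neg, not_false_iff]; exact measurable_const

lemma obsPat_rigid {S A Sn : Finset (Sym2 V)} (hSn : ∀ e ∈ S, e ∈ Sn) {k : ℕ} (hk : 1 ≤ k)
    (x z : Sn → ℝ) (hx : ∀ i, x i = 0 ∨ x i = 1)
    (hz : ∀ i : Sn, i.1 ∈ S → |z i| < 2 / 5 * √(k : ℝ)) [DecidableEq (Sym2 V)] :
    obsPat S A k (ext Sn fun i => k * x i + √(k : ℝ) * z i) =
      if ∀ e ∈ S, (ext Sn x e = 1 ↔ e ∈ A) then 1 else 0 := by
  classical
  unfold obsPat
  rw [← Finset.prod_boole]
  refine Finset.prod_congr rfl fun e he => ?_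
  have hzi := hz ⟨e, hSn e he⟩ he
  have hsk : 0 < √(k : ℝ) := Real.sqrt_pos.2 (by exact_mod_cast hk)
  have hdiv : |z ⟨e, hSn e he⟩ / √(k : ℝ)| < 2 / 5 := by
    rw [abs_div, abs_of_pos hsk, div_lt_iff₀ hsk]; exact hzi
  have hval : 5 * ext Sn (fun i => k * x i + √(k : ℝ) * z i) e / k - 2 =
      5 * (x ⟨e, hSn e he⟩ + z ⟨e, hSn e he⟩ / √(k : ℝ)) - 2 := by
    rw [mul_div_assoc, ext, dif_pos (hSn e he), scale_div hk]
  rw [hval]
  have hd := abs_lt.1 hdiv
  rcases hx ⟨e, hSn e he⟩ with h0 | h1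
  · have hcl : clamp01 (5 * (x ⟨e, hSn e he⟩ + z ⟨e, hSn e he⟩ / √(k : ℝ)) - 2) = 0 := by
      rw [h0, clamp01]
      exact max_eq_left (le_trans (min_le_right _ _) (by linarith [hd.2]))
    rw [hcl]
    by_cases hA : e ∈ A <;> simp [hA, ext, hSn e he, h0]
  · have hcl : clamp01 (5 * (x ⟨e, hSn e he⟩ + z ⟨e, hSn e he⟩ / √(k : ℝ)) - 2) = 1 := by
      rw [h1, clamp01, min_eq_left (by linarith [hd.1]), max_eq_right zero_le_one]
    rw [hcl]
    by_cases hA : e ∈ A <;> simp [hA, ext, hSn e he, h1]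

lemma obsBad_rigid {e : Sym2 V} {Sn : Finset (Sym2 V)} (he : e ∈ Sn) {k : ℕ} (hk : 1 ≤ k)
    (x z : Sn → ℝ) (hx : x ⟨e, he⟩ = 0 ∨ x ⟨e, he⟩ = 1)
    (hz : |z ⟨e, he⟩| < 1 / 20 * √(k : ℝ)) :
    obsBad e k (ext Sn fun i => k * x i + √(k : ℝ) * z i) = 0 := by
  have hsk : 0 < √(k : ℝ) := Real.sqrt_pos.2 (by exact_mod_cast hk)
  have hdiv : |z ⟨e, he⟩ / √(k : ℝ)| < 1 / 20 := by
    rw [abs_div, abs_of_pos hsk, div_lt_iff₀ hsk]; exact hz
  rw [obsBad, ext, dif_pos he, scale_div hk, clamp01]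
  refine max_eq_left (le_trans (min_le_right _ _) ?_)
  rcases hx with h0 | h0
  · rw [h0, zero_add]
    have := min_le_left |z ⟨e, he⟩ / √(k : ℝ)| |z ⟨e, he⟩ / √(k : ℝ) - 1|
    linarith
  · rw [h0, add_sub_cancel_left]
    have := min_le_right |1 + z ⟨e, he⟩ / √(k : ℝ)| |z ⟨e, he⟩ / √(k : ℝ)|
    linarith

variable [Countable V] [DecidableEq V] {G : SimpleGraph V}

omit [DecidableEq V] in
lemma measurable_sol_fixed (E : Set (Sym2 V)) (k : ℕ) :
    Measurable fun U : V → unitInterval => sol E U (k : ℝ) :=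
  measurable_sol (E := fun _ => E) (U := fun U : V → unitInterval => U)
    (fun f => by by_cases hf : f ∈ E <;> simp [hf]) measurable_id k

instance : IsProbabilityMeasure (iidLabels V) := by unfold iidLabels; infer_instance

/-- cylinder probabilities of finite trees are close to the smoothed observable at time `k` -/
lemma eventually_pat_close (hlf : ∀ v, (G.neighborSet v).Finite) {H : ℕ → G.Subgraph}
    (hex : IsExhaustion G H) (En : ℕ → Finset (Sym2 V))
    (hEn : ∀ n f, f ∈ En n ↔ f ∈ (H n).edgeSet) {S : Finset (Sym2 V)} (A : Finset (Sym2 V))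
    (hS : ∀ e ∈ S, e ∈ G.edgeSet) (hexev : ∀ᶠ n in atTop, ∀ f ∈ S, f ∈ En n)
    {k : ℕ} (hk : 1 ≤ k) {δ : ℝ} (hδ : 0 < δ) :
    ∀ᶠ n in atTop, |(ustProb (H n) fun T => ∀ e ∈ S, (e ∈ T ↔ e ∈ A)) -
      ∫ U, obsPat S A k (sol G.edgeSet U k) ∂iidLabels V| ≤ 2 * S.card * tau k + δ := by
  classical
  have hb : ∀ h, |obsPat S A k h| ≤ 1 := fun h =>
    abs_le.2 ⟨by linarith [(obsPat_mem S A k h).1], (obsPat_mem S A k h).2⟩
  have hlim := tendsto_expect hlf hex En hEn k (obsPat S A k) S hS hb (measurable_obsPat S A k)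
    (by norm_num : (0 : ℝ) ≤ 5) (obsPat_lip S A hk)
  filter_upwards [Metric.tendsto_nhds.1 hlim δ hδ, hexev] with n hn hSn
  rw [Real.dist_eq] at hn
  set M := treeModel (hex.2.1 n).1 (hex.2.1 n).2.nonempty (finiteGraph_of_subgraph (hEn n))
    (connected_edge_reachable (hEn n) (hex.2.1 n).2) with hM
  set c : (En n → ℝ) → ℝ := fun x =>
    if ∀ e ∈ S, (ext (En n) x e = 1 ↔ e ∈ A) then 1 else 0 with hc
  set I : Finset {f // f ∈ En n} :=
    (Finset.univ : Finset {f // f ∈ En n}).filter (fun i => i.1 ∈ S) with hI'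
  have hI : I.card = S.card := by
    refine Finset.card_bij (fun i _ => i.1) (fun i hi => (Finset.mem_filter.1 hi).2)
      (fun i _ j _ h => Subtype.ext h) (fun e he => ⟨⟨e, hSn e he⟩, ?_, rfl⟩)
    rw [hI']; simp [he]
  have hpatn : (ustProb (H n) fun T => ∀ e ∈ S, (e ∈ T ↔ e ∈ A)) =
      ∑ x ∈ M.conf, M.mu 0 x * c x := by
    rw [hM, sum_mu_zero, ustProb_eq (hEn n), Finset.card_filter, Nat.cast_sum]
    congr 1
    refine Finset.sum_congr rfl fun T _ => ?_
    have hiff : (∀ e ∈ S, (e ∈ T ↔ e ∈ A)) ↔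
        ∀ e ∈ S, (ext (En n) (indVec (En n) T) e = 1 ↔ e ∈ A) := by
      refine forall₂_congr fun e he => ?_
      simp [ext, indVec, hSn e he]
    by_cases h : ∀ e ∈ S, (e ∈ T ↔ e ∈ A)
    · simp only [hc]
      rw [if_pos h, if_pos (hiff.1 h), Nat.cast_one]
    · simp only [hc]
      rw [if_neg h, if_neg (mt hiff.2 h), Nat.cast_zero]
  have hnear := M.expect_near k (g := fun h => obsPat S A k (ext (En n) h))
    ⟨(measurable_obsPat S A k).comp (measurable_ext _), fun h => hb _⟩ c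
    (fun x _ => by simp only [hc]; split_ifs <;> simp) I (2 / 5 * √(k : ℝ))
    (fun x hx z hz => obsPat_rigid hSn hk x z (M.zero_one x hx) fun i hi => hz i (by rw [hI']; simp [hi]))
  rw [← hpatn, hI] at hnear
  have h5 := mul_le_mul_of_nonneg_left (tail_le_tau (by norm_num : (1 : ℝ) / 20 ≤ 2 / 5) k)
    (show (0 : ℝ) ≤ 2 * S.card by positivity)
  have h6 := abs_lt.1 hn
  have h7 := abs_le.1 hnear
  rw [abs_le]
  constructor <;> linarith [h6.1, h6.2, h7.1, h7.2]

lemma measure_far_le (hlf : ∀ v, (G.neighborSet v).Finite) {H : ℕ → G.Subgraph}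
    (hex : IsExhaustion G H) (En : ℕ → Finset (Sym2 V))
    (hEn : ∀ n f, f ∈ En n ↔ f ∈ (H n).edgeSet) {e : Sym2 V} (he : e ∈ G.edgeSet)
    {k : ℕ} (hk : 1 ≤ k) :
    (iidLabels V).real
      {U | 1 / 10 ≤ min |sol G.edgeSet U k e / k| |sol G.edgeSet U k e / k - 1|} ≤ 2 * tau k := by
  have hb1 : ∀ h, |obsBad e k h| ≤ 1 := fun h => by
    rw [obsBad, abs_of_nonneg (clamp01_mem _).1]; exact (clamp01_mem _).2
  have hlim := tendsto_expect hlf hex En hEn k (obsBad e k) {e}
    (fun f hf => by rw [Finset.mem_singleton] at hf; rw [hf]; exact he) hb1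
    (measurable_obsBad e k) (by norm_num : (0 : ℝ) ≤ 20)
    (fun h g => by simpa using obsBad_lip e hk h g)
  have hev : ∀ᶠ n in atTop, e ∈ En n := by
    obtain ⟨n, hn⟩ := hex.2.2.2 e he
    exact eventually_atTop.2 ⟨n, fun m hm =>
      (hEn m e).2 (SimpleGraph.Subgraph.edgeSet_mono (hex.1 hm) hn)⟩
  have hint : ∫ U, obsBad e k (sol G.edgeSet U k) ∂iidLabels V ≤ 2 * tau k := by
    refine le_of_tendsto hlim ?_
    filter_upwards [hev] with n hSn
    set M := treeModel (hex.2.1 n).1 (hex.2.1 n).2.nonempty (finiteGraph_of_subgraph (hEn n))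
      (connected_edge_reachable (hEn n) (hex.2.1 n).2) with hM
    have hnear := M.expect_near k (g := fun h => obsBad e k (ext (En n) h))
      ⟨(measurable_obsBad e k).comp (measurable_ext _), fun h => hb1 _⟩ (fun _ => 0) (by simp)
      {⟨e, hSn⟩} (1 / 20 * √(k : ℝ))
      (fun x hx z hz => obsBad_rigid hSn hk x z (M.zero_one x hx _)
        (hz _ (Finset.mem_singleton_self _)))
    simp only [mul_zero, Finset.sum_const_zero, sub_zero, Finset.card_singleton,
      Nat.cast_one, mul_one] at hnear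
    have := tail_le_tau (le_refl (1 / 20 : ℝ)) k
    have := abs_le.1 hnear
    linarith
  refine le_trans ?_ hint
  have hms : MeasurableSet
      {U | 1 / 10 ≤ min |sol G.edgeSet U k e / k| |sol G.edgeSet U k e / k - 1|} :=
    measurableSet_le measurable_const (by
      have := (measurable_pi_apply e).comp (measurable_sol_fixed G.edgeSet k)
      fun_prop)
  rw [← integral_indicator_one hms]
  refine integral_mono ((integrable_const (1 : ℝ)).indicator hms)
    (Integrable.of_bound ((measurable_obsBad e k).comp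
        (measurable_sol_fixed G.edgeSet k)).aestronglyMeasurable 1
      (ae_of_all _ fun U => by simpa using hb1 (sol G.edgeSet U k))) fun U => ?_
  by_cases hU : 1 / 10 ≤ min |sol G.edgeSet U k e / k| |sol G.edgeSet U k e / k - 1|
  · rw [Set.indicator_of_mem (show U ∈ {U | 1 / 10 ≤
      min |sol G.edgeSet U k e / k| |sol G.edgeSet U k e / k - 1|} from hU)]
    show (1 : ℝ) ≤ clamp01 _
    rw [clamp01, min_eq_left (by linarith), max_eq_right zero_le_one]
  · rw [Set.indicator_of_notMem (show U ∉ {U | 1 / 10 ≤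
      min |sol G.edgeSet U k e / k| |sol G.edgeSet U k e / k - 1|} from hU)]
    exact (clamp01_mem _).1

lemma ae_eventually_near (hlf : ∀ v, (G.neighborSet v).Finite) {H : ℕ → G.Subgraph}
    (hex : IsExhaustion G H) (En : ℕ → Finset (Sym2 V))
    (hEn : ∀ n f, f ∈ En n ↔ f ∈ (H n).edgeSet) {e : Sym2 V} (he : e ∈ G.edgeSet) :
    ∀ᵐ U ∂iidLabels V, ∀ᶠ k : ℕ in atTop,
      min |sol G.edgeSet U k e / k| |sol G.edgeSet U k e / k - 1| < 1 / 10 := by
  set B : ℕ → Set (V → unitInterval) := fun k =>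
    {U | 1 ≤ k ∧ 1 / 10 ≤ min |sol G.edgeSet U k e / k| |sol G.edgeSet U k e / k - 1|} with hB
  have hsum : ∑' k, (iidLabels V) (B k) ≠ ⊤ := by
    refine ne_top_of_le_ne_top ?_ (ENNReal.tsum_le_tsum (g := fun k : ℕ =>
      ENNReal.ofReal (2 * tau k)) fun k => ?_)
    · rw [← ENNReal.ofReal_tsum_of_nonneg (fun k => mul_nonneg zero_le_two (tau_nonneg k))
        (summable_tau.mul_left 2)]
      exact ENNReal.ofReal_ne_top
    · by_cases hk : 1 ≤ k
      · rw [← ofReal_measureReal]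
        refine ENNReal.ofReal_le_ofReal (le_trans (measureReal_mono ?_)
          (measure_far_le hlf hex En hEn he hk))
        intro U hU
        exact hU.2
      · have : B k = ∅ := by
          rw [hB]; ext U; simp [hk]
        simp [this]
  filter_upwards [ae_eventually_notMem hsum] with U hU
  filter_upwards [hU, eventually_ge_atTop 1] with k hk hk1
  by_contra hcon
  exact hk ⟨hk1, not_lt.1 hcon⟩

lemma ae_eventually_small_jump (hlf : ∀ v, (G.neighborSet v).Finite) {e : Sym2 V}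
    (he : e ∈ G.edgeSet) :
    ∀ᵐ U ∂iidLabels V, ∀ᶠ k : ℕ in atTop,
      |nincr 0 (noise G.edgeSet U e) k| < 1 / 20 * k := by
  have hnoise : Measurable fun U : V → unitInterval => noise G.edgeSet U :=
    measurable_noise (E := fun _ => G.edgeSet) (U := fun U : V → unitInterval => U)
      (fun f => by by_cases hf : f ∈ G.edgeSet <;> simp [hf]) measurable_id
  have hmn : Measurable fun U => noise G.edgeSet U e := (measurable_pi_apply e).comp hnoise
  have hlawe : (iidLabels V).map (fun U => noise G.edgeSet U e) = nu0 := by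
    have h := law_noise (hfin_of_locallyFinite hlf) (fun f hf => G.not_isDiag_of_mem_edgeSet hf)
      {e} (fun f hf => by rw [Finset.mem_singleton] at hf; rw [hf]; exact he)
    have hm : Measurable fun U (f : ({e} : Finset (Sym2 V))) => noise G.edgeSet U (f : Sym2 V) :=
      measurable_pi_iff.2 fun f => (measurable_pi_apply (f : Sym2 V)).comp hnoise
    rw [show (fun U => noise G.edgeSet U e) =
      (fun ω : ({e} : Finset (Sym2 V)) → Omega0 => ω ⟨e, Finset.mem_singleton_self e⟩) ∘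
        (fun U f => noise G.edgeSet U (f : Sym2 V)) from rfl,
      ← Measure.map_map (measurable_pi_apply _) hm, h]
    exact (measurePreserving_eval (fun _ => nu0) _).map_eq
  have hval : ∀ k : ℕ, (iidLabels V) {U | 1 / 20 * (k : ℝ) ≤ |nincr 0 (noise G.edgeSet U e) k|} =
      stdG {y | 1 / 20 * (k : ℝ) ≤ |y|} := by
    intro k
    have hms : MeasurableSet {y : ℝ | 1 / 20 * (k : ℝ) ≤ |y|} :=
      measurableSet_le measurable_const (by fun_prop)
    have hmk : Measurable fun ω : Omega0 => nincr 0 ω k :=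
      (measurable_pi_apply k).comp (measurable_nincr 0)
    have hk : nu0.map (fun ω => nincr 0 ω k) = stdG := by
      rw [show (fun ω => nincr 0 ω k) = (fun z : ℕ → ℝ => z k) ∘ nincr 0 from rfl,
        ← Measure.map_map (by fun_prop) (measurable_nincr 0), law_nincr,
        Measure.infinitePi_map_eval]
    conv_rhs => rw [← hk, ← hlawe, Measure.map_map hmk hmn,
      Measure.map_apply (hmk.comp hmn) hms]
    rfl
  have hsum : ∑' k : ℕ,
      (iidLabels V) {U | 1 / 20 * (k : ℝ) ≤ |nincr 0 (noise G.edgeSet U e) k|} ≠ ⊤ := by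
    refine ne_top_of_le_ne_top ?_ (ENNReal.tsum_le_tsum (g := fun k => ENNReal.ofReal (tau k))
      fun k => ?_)
    · rw [← ENNReal.ofReal_tsum_of_nonneg tau_nonneg summable_tau]
      exact ENNReal.ofReal_ne_top
    · rw [hval, ← ofReal_measureReal]
      refine ENNReal.ofReal_le_ofReal
        (le_trans (measureReal_mono fun y hy => ?_) (tail_le_tau (le_refl (1 / 20 : ℝ)) k))
      simp only [Set.mem_ofPred_eq] at hy ⊢
      refine le_trans (mul_le_mul_of_nonneg_left ?_ (by norm_num)) hy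
      rcases Nat.eq_zero_or_pos k with h0 | h0
      · simp [h0]
      · exact (Real.sqrt_le_left (Nat.cast_nonneg k)).2 (by
          have : (1 : ℝ) ≤ k := by exact_mod_cast h0
          nlinarith)
  filter_upwards [ae_eventually_notMem hsum] with U hU
  exact hU.mono fun k hk => not_le.1 hk

omit [DecidableEq V] in
lemma sol_succ_sub {E : Set (Sym2 V)} (hE : Loopless E) (U : V → unitInterval) (e : Sym2 V)
    (k : ℕ) :
    nincr 0 (noise E U e) k ≤ sol E U ((k + 1 : ℕ) : ℝ) e - sol E U (k : ℝ) e ∧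
      sol E U ((k + 1 : ℕ) : ℝ) e - sol E U (k : ℝ) e ≤ nincr 0 (noise E U e) k + 1 := by
  have hd := drift_mono (E := E) hE (measurable_pathB_fixed E U) e (Nat.cast_nonneg k)
    (show (k : ℝ) ≤ ((k + 1 : ℕ) : ℝ) by push_cast; linarith)
  have hb : pathB E U ((k + 1 : ℕ) : ℝ) e = pathB E U (k : ℝ) e + nincr 0 (noise E U e) k := by
    have e1 := bm_dyadic 0 (k + 1) (noise E U e)
    have e2 := bm_dyadic 0 k (noise E U e)
    simp only [pow_zero, div_one] at e1 e2
    simp only [pathB, e1, e2, Finset.sum_range_succ, incr, pow_zero, one_mul]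
  simp only [sol, hb]
  push_cast at hd ⊢
  constructor <;> linarith [hd.1, hd.2]

omit [DecidableEq V] in
/-- eventual rigidity implies eventual agreement with `Phi` -/
lemma eventually_side {E : Set (Sym2 V)} (hE : Loopless E) {U : V → unitInterval} {e : Sym2 V}
    (he : e ∈ E)
    (h1 : ∀ᶠ k : ℕ in atTop, min |sol E U k e / k| |sol E U k e / k - 1| < 1 / 10)
    (h2 : ∀ᶠ k : ℕ in atTop, |nincr 0 (noise E U e) k| < 1 / 20 * k) :
    ∀ᶠ k : ℕ in atTop, (e ∈ Phi E U → |sol E U k e / k - 1| < 1 / 10) ∧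
      (e ∉ Phi E U → |sol E U k e / k| < 1 / 10) := by
  obtain ⟨K, hK⟩ := eventually_atTop.1 ((eventually_ge_atTop 10).and (h1.and h2))
  have hcases : ∀ k ≥ K, (|sol E U k e| < 1 / 10 * k) ∨ (|sol E U k e - k| < 1 / 10 * k) := by
    intro k hk
    obtain ⟨h10, h, -⟩ := hK k hk
    have hk0 : (0 : ℝ) < k := by
      have : 0 < k := by omega
      exact_mod_cast this
    rcases min_lt_iff.1 h with h | h
    · left; rwa [abs_div, Nat.abs_cast, div_lt_iff₀ hk0] at h
    · right; rwa [div_sub_one hk0.ne', abs_div, Nat.abs_cast, div_lt_iff₀ hk0] at h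
  have hstep : ∀ k ≥ K,
      ((k : ℝ) / 2 < sol E U k e ↔ ((k + 1 : ℕ) : ℝ) / 2 < sol E U ((k + 1 : ℕ) : ℝ) e) := by
    intro k hk
    obtain ⟨h10, -, hj⟩ := hK k hk
    obtain ⟨hX1, hX2⟩ := sol_succ_sub hE U e k
    obtain ⟨hj1, hj2⟩ := abs_lt.1 hj
    have hk10 : (10 : ℝ) ≤ k := by exact_mod_cast h10
    have hcast : ((k + 1 : ℕ) : ℝ) = (k : ℝ) + 1 := by push_cast; ring
    rcases hcases k hk with h | h <;> rcases hcases (k + 1) (by omega) with h' | h' <;>
      (obtain ⟨ha1, ha2⟩ := abs_lt.1 h; obtain ⟨hb1, hb2⟩ := abs_lt.1 h') <;>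
      constructor <;> intro hgt <;> linarith
  have hconst : ∀ k ≥ K, ((k : ℝ) / 2 < sol E U k e ↔ (K : ℝ) / 2 < sol E U K e) := by
    intro k hk
    induction k, hk using Nat.le_induction with
    | base => exact Iff.rfl
    | succ m hm ih => rw [← hstep m hm]; exact ih
  have hphi : e ∈ Phi E U ↔ (K : ℝ) / 2 < sol E U K e := by
    constructor
    · rintro ⟨-, h⟩
      obtain ⟨m, hm1, hm2⟩ := (h.and (eventually_ge_atTop K)).exists
      exact (hconst m hm2).1 hm1
    · intro h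
      exact ⟨he, eventually_atTop.2 ⟨K, fun m hm => (hconst m hm).2 h⟩⟩
  filter_upwards [eventually_ge_atTop K] with k hk
  obtain ⟨h10, hmin, -⟩ := hK k hk
  have hk0 : (0 : ℝ) < k := by
    have : 0 < k := by omega
    exact_mod_cast this
  rw [hphi, ← hconst k hk]
  constructor
  · intro hhi
    have h2 : 1 / 2 < sol E U k e / k := by rw [lt_div_iff₀ hk0]; linarith
    rcases min_lt_iff.1 hmin with h | h
    · linarith [(abs_lt.1 h).2]
    · exact h
  · intro hlo
    have h2 : sol E U k e / k ≤ 1 / 2 := by rw [div_le_iff₀ hk0]; linarith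
    rcases min_lt_iff.1 hmin with h | h
    · exact h
    · linarith [(abs_lt.1 h).1]

lemma ae_tendsto_obsPat (hlf : ∀ v, (G.neighborSet v).Finite) {H : ℕ → G.Subgraph}
    (hex : IsExhaustion G H) (En : ℕ → Finset (Sym2 V))
    (hEn : ∀ n f, f ∈ En n ↔ f ∈ (H n).edgeSet) {S : Finset (Sym2 V)} (A : Finset (Sym2 V))
    (hS : ∀ e ∈ S, e ∈ G.edgeSet) :
    ∀ᵐ U ∂iidLabels V, Tendsto (fun k : ℕ => obsPat S A k (sol G.edgeSet U k)) atTop
      (𝓝 ({U | ∀ e ∈ S, (e ∈ Phi G.edgeSet U ↔ e ∈ A)}.indicator (fun _ => (1 : ℝ)) U)) := by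
  classical
  have h1 : ∀ᵐ U ∂iidLabels V, ∀ e : S, ∀ᶠ k : ℕ in atTop,
      min |sol G.edgeSet U k e / k| |sol G.edgeSet U k e / k - 1| < 1 / 10 :=
    ae_all_iff.2 fun e => ae_eventually_near hlf hex En hEn (hS e e.2)
  have h2 : ∀ᵐ U ∂iidLabels V, ∀ e : S, ∀ᶠ k : ℕ in atTop,
      |nincr 0 (noise G.edgeSet U e) k| < 1 / 20 * k :=
    ae_all_iff.2 fun e => ae_eventually_small_jump hlf (hS e e.2)
  filter_upwards [h1, h2] with U hU1 hU2
  refine Tendsto.congr' ?_ tendsto_const_nhds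
  filter_upwards [(Finset.eventually_all S).2 fun e he =>
    eventually_side (E := G.edgeSet) (fun f hf => G.not_isDiag_of_mem_edgeSet hf) (hS e he)
      (hU1 ⟨e, he⟩) (hU2 ⟨e, he⟩)] with k hk
  have hval : obsPat S A k (sol G.edgeSet U k) =
      ∏ e ∈ S, if (e ∈ Phi G.edgeSet U ↔ e ∈ A) then (1 : ℝ) else 0 := by
    rw [obsPat]
    refine Finset.prod_congr rfl fun e he => ?_
    obtain ⟨hkP, hkN⟩ := hk e he
    by_cases hP : e ∈ Phi G.edgeSet U
    · have hcl : clamp01 (5 * sol G.edgeSet U k e / k - 2) = 1 := by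
        rw [clamp01, mul_div_assoc, min_eq_left (by linarith [(abs_lt.1 (hkP hP)).1]),
          max_eq_right zero_le_one]
      rw [hcl]
      by_cases hA : e ∈ A <;> simp [hA, hP]
    · have hcl : clamp01 (5 * sol G.edgeSet U k e / k - 2) = 0 := by
        rw [clamp01, mul_div_assoc]
        exact max_eq_left (le_trans (min_le_right _ _) (by linarith [(abs_lt.1 (hkN hP)).2]))
      rw [hcl]
      by_cases hA : e ∈ A <;> simp [hA, hP]
  rw [hval, Finset.prod_boole]
  by_cases h : ∀ e ∈ S, (e ∈ Phi G.edgeSet U ↔ e ∈ A)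
  · rw [Set.indicator_of_mem (show U ∈ {U | ∀ e ∈ S, (e ∈ Phi G.edgeSet U ↔ e ∈ A)} from h), if_pos h]
  · rw [Set.indicator_of_notMem
      (show U ∉ {U | ∀ e ∈ S, (e ∈ Phi G.edgeSet U ↔ e ∈ A)} from h), if_neg h]

/-- The factor has the law of the free uniform spanning forest. -/
theorem hasFUSFLaw_Phi (hlf : ∀ v, (G.neighborSet v).Finite) :
    HasFUSFLaw G (Phi G.edgeSet) := by
  intro H hex S A hS _hAS
  let En : ℕ → Finset (Sym2 V) := fun n => (subgraph_edges_finite (hex.2.1 n).1).toFinset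
  have hEn : ∀ n f, f ∈ En n ↔ f ∈ (H n).edgeSet := fun n f => Set.Finite.mem_toFinset _
  have hS' : ∀ e ∈ S, e ∈ G.edgeSet := fun e he => hS (Finset.mem_coe.2 he)
  have hexev : ∀ᶠ n in atTop, ∀ f ∈ S, f ∈ En n :=
    (Finset.eventually_all S).2 fun f hf => by
      obtain ⟨n, hn⟩ := hex.2.2.2 f (hS' f hf)
      exact eventually_atTop.2 ⟨n, fun m hm =>
        (hEn m f).2 (SimpleGraph.Subgraph.edgeSet_mono (hex.1 hm) hn)⟩
  have hPm : MeasurableSet {U | ∀ e ∈ S, (e ∈ Phi G.edgeSet U ↔ e ∈ A)} := by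
    have : {U | ∀ e ∈ S, (e ∈ Phi G.edgeSet U ↔ e ∈ A)} =
        ⋂ e ∈ S, {U | e ∈ Phi G.edgeSet U ↔ e ∈ A} := by ext U; simp
    rw [this]
    refine Finset.measurableSet_biInter S fun e _ => ?_
    have hm := measurableSet_Phi (E := fun _ => G.edgeSet) (U := fun U : V → unitInterval => U)
      (fun f => by by_cases hf : f ∈ G.edgeSet <;> simp [hf]) measurable_id e
    by_cases hA : e ∈ A
    · simpa [hA] using hm
    · simp only [hA, iff_false]; exact hm.compl
  have hgoal : Tendsto (fun k : ℕ => ∫ U, obsPat S A k (sol G.edgeSet U k) ∂iidLabels V) atTop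
      (𝓝 ((iidLabels V).real {U | ∀ e ∈ S, (e ∈ Phi G.edgeSet U ↔ e ∈ A)})) := by
    rw [← integral_indicator_one hPm]
    refine tendsto_integral_of_dominated_convergence (fun _ => 1)
      (fun k => ((measurable_obsPat S A k).comp
        (measurable_sol_fixed G.edgeSet k)).aestronglyMeasurable)
      (integrable_const _) (fun k => ae_of_all _ fun U => ?_)
      (ae_tendsto_obsPat hlf hex En hEn A hS')
    rw [Real.norm_eq_abs, abs_of_nonneg (obsPat_mem _ _ _ _).1]; exact (obsPat_mem _ _ _ _).2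
  rw [Metric.tendsto_nhds]
  intro ε hε
  have hτ0 : Tendsto (fun k => 2 * (S.card : ℝ) * tau k) atTop (𝓝 0) := by
    simpa using summable_tau.tendsto_atTop_zero.const_mul (2 * (S.card : ℝ))
  obtain ⟨k, hk1, hk2, hk3⟩ := ((eventually_ge_atTop 1).and
    ((hτ0.eventually_lt_const (show (0 : ℝ) < ε / 3 by linarith)).and
      (Metric.tendsto_nhds.1 hgoal (ε / 3) (by linarith)))).exists
  filter_upwards [eventually_pat_close hlf hex En hEn A hS' hexev hk1
    (show 0 < ε / 4 by linarith)] with n hn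
  rw [Real.dist_eq, abs_lt] at hk3 ⊢
  have h1 := abs_le.1 hn
  constructor <;> linarith [h1.1, h1.2, hk3.1, hk3.2]

end Vale.Agent.P143
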