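import Vale.Agent.P143.Energy

/-!
Continuity of the edge marginal along exhaustions: this is Rayleigh monotonicity together with
compactness of `[0,1]`-valued potentials.
-/

namespace Vale.Agent.P143

open Filter Topology
open scoped ENNReal

variable {V : Type}

lemma sqd_clamp_le (φ : V → ℝ) (f : Sym2 V) :
    sqd (fun v => max 0 (min 1 (φ v))) f ≤ sqd φ f := by
  induction f using Sym2.ind with
  | _ x y =>
    simp only [sqd_mk]
    apply sq_le_sq.2
    exact le_trans (abs_max_sub_max_le_max _ _ _ _) (by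
      simp only [sub_self, abs_zero]
      refine max_le (abs_nonneg _) ?_
      exact le_trans (abs_min_sub_min_le_max _ _ _ _) (by simp))

lemma exists_normalized {F : Finset (Sym2 V)} {h : Sym2 V → ℝ} {x y : V} {c : ℝ}
    (φ : V → ℝ) (hφ : sqd φ s(x, y) = 1) (hc : energy F h φ ≤ c) :
    ∃ ψ : V → ℝ, (∀ v, ψ v ∈ Set.Icc (0 : ℝ) 1) ∧ ψ x = 1 ∧ ψ y = 0 ∧ energy F h ψ ≤ c := by
  set d := φ x - φ y with hd
  have hd2 : d ^ 2 = 1 := by simpa [hd] using hφ
  refine ⟨fun v => max 0 (min 1 ((φ v - φ y) * d)), fun v => ⟨le_max_left _ _,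
    max_le zero_le_one (min_le_left _ _)⟩, ?_, by simp, le_trans ?_ hc⟩
  · show max 0 (min 1 ((φ x - φ y) * d)) = 1
    rw [← hd, ← sq, hd2]; simp
  · refine Finset.sum_le_sum fun f _ => mul_le_mul_of_nonneg_left ?_ (Real.exp_nonneg _)
    refine le_trans (sqd_clamp_le _ f) (le_of_eq ?_)
    induction f using Sym2.ind with
    | _ u v =>
      simp only [sqd_mk]
      rw [show (φ u - φ y) * d - (φ v - φ y) * d = (φ u - φ v) * d by ring, mul_pow, hd2, mul_one]

open Classical in
lemma cond_ne_top {E : Set (Sym2 V)} {x y : V} (hxy : x ≠ y)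
    (hfin : {f | f ∈ E ∧ x ∈ f}.Finite) (h : Sym2 V → ℝ) : cond E s(x, y) h ≠ ⊤ := by
  set K : ℝ := ∑ f ∈ hfin.toFinset, Real.exp (h f) * sqd (fun v => if v = x then 1 else 0) f
    with hK
  refine ne_top_of_le_ne_top (ENNReal.ofReal_ne_top (r := K)) (iSup_le fun F =>
    ENNReal.ofReal_le_ofReal ?_)
  refine le_trans (cutE_le _ _ _ (fun v => if v = x then 1 else 0) (by simp [hxy.symm])) ?_
  rw [energy, hK]
  have h1 : ∀ f ∈ F.filter (· ∈ E), f ∉ hfin.toFinset →
      Real.exp (h f) * sqd (fun v => if v = x then (1 : ℝ) else 0) f = 0 := by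
    intro f hf hf'
    have hx : x ∉ f := fun hx => hf' (by simpa using ⟨(Finset.mem_filter.1 hf).2, hx⟩)
    induction f using Sym2.ind with
    | _ u v =>
      simp only [Sym2.mem_iff, not_or] at hx
      simp [Ne.symm hx.1, Ne.symm hx.2]
  calc ∑ f ∈ F.filter (· ∈ E), Real.exp (h f) * sqd (fun v => if v = x then (1 : ℝ) else 0) f
      = ∑ f ∈ (F.filter (· ∈ E)).filter (· ∈ hfin.toFinset),
          Real.exp (h f) * sqd (fun v => if v = x then (1 : ℝ) else 0) f := by
        refine (Finset.sum_filter_of_ne fun f hf hne => ?_).symm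
        by_contra hcon
        exact hne (h1 f hf hcon)
    _ ≤ _ := Finset.sum_le_sum_of_subset_of_nonneg (fun f hf => (Finset.mem_filter.1 hf).2)
        fun f _ _ => mul_nonneg (Real.exp_nonneg _) (sqd_nonneg _ _)

lemma exists_global_potential {E : Set (Sym2 V)} {x y : V} (hxy : x ≠ y)
    (hfin : {f | f ∈ E ∧ x ∈ f}.Finite) (h : Sym2 V → ℝ) {ε : ℝ} (hε : 0 < ε) :
    ∃ φ : V → ℝ, sqd φ s(x, y) = 1 ∧ ∀ F : Finset (Sym2 V), (∀ f ∈ F, f ∈ E) →
      energy F h φ ≤ (cond E s(x, y) h).toReal + ε := by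
  classical
  set C := (cond E s(x, y) h).toReal with hC
  let ι := {F : Finset (Sym2 V) // ∀ f ∈ F, f ∈ E}
  have : Nonempty ι := ⟨⟨∅, by simp⟩⟩
  let K : ι → Set (V → ℝ) := fun F => (Set.univ.pi fun _ : V => Set.Icc (0 : ℝ) 1) ∩
    {φ | φ x = 1 ∧ φ y = 0 ∧ energy F.1 h φ ≤ C + ε}
  have hcl : ∀ F, IsClosed {φ : V → ℝ | φ x = 1 ∧ φ y = 0 ∧ energy F h φ ≤ C + ε} := by
    intro F
    have hc : Continuous fun φ : V → ℝ => energy F h φ :=
      continuous_finsetSum _ fun f _ => (continuous_sqd f).const_mul _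
    exact (isClosed_eq (continuous_apply x) continuous_const).inter
      ((isClosed_eq (continuous_apply y) continuous_const).inter (isClosed_le hc continuous_const))
  have hcube : IsCompact (Set.univ.pi fun _ : V => Set.Icc (0 : ℝ) 1) :=
    isCompact_univ_pi fun _ => isCompact_Icc
  have hne : ∀ F, (K F).Nonempty := by
    rintro ⟨F, hF⟩
    have h1 : cutE F s(x, y) h ≤ C := by
      have := ENNReal.toReal_mono (cond_ne_top hxy hfin h) (le_cond (E := E)
        (fun f hf => hF f hf) s(x, y) h)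
      simpa [hC, ENNReal.toReal_ofReal (cutE_nonneg _ _ _)] using this
    have : Nonempty {φ : V → ℝ // sqd φ s(x, y) = 1} := by
      obtain ⟨φ, hφ⟩ := exists_drop (e := s(x, y)) (by simpa using hxy); exact ⟨⟨φ, hφ⟩⟩
    obtain ⟨⟨φ, hφ⟩, hlt⟩ := exists_lt_of_ciInf_lt
      (show cutE F s(x, y) h < C + ε by linarith)
    obtain ⟨ψ, h01, hx, hy, he⟩ := exists_normalized φ hφ hlt.le
    exact ⟨ψ, fun v _ => h01 v, hx, hy, he⟩
  have hdir : Directed (· ⊇ ·) K := by
    rintro ⟨F, hF⟩ ⟨F', hF'⟩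
    refine ⟨⟨F ∪ F', fun f hf => (Finset.mem_union.1 hf).elim (hF f) (hF' f)⟩, ?_, ?_⟩ <;>
    · rintro φ ⟨h01, hx, hy, he⟩
      refine ⟨h01, hx, hy, le_trans ?_ he⟩
      exact Finset.sum_le_sum_of_subset_of_nonneg (by simp)
        fun f _ _ => mul_nonneg (Real.exp_nonneg _) (sqd_nonneg _ _)
  obtain ⟨φ, hφ⟩ := IsCompact.nonempty_iInter_of_directed_nonempty_isCompact_isClosed K hdir hne
    (fun F => hcube.inter_right (hcl F.1)) (fun F => hcube.isClosed.inter (hcl F.1))
  rw [Set.mem_iInter] at hφ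
  obtain ⟨hx, hy, -⟩ := (hφ ⟨∅, by simp⟩).2
  exact ⟨φ, by simp [hx, hy], fun F hF => (hφ ⟨F, hF⟩).2.2.2⟩

/-- An exhaustion of an edge set by finite sets. -/
structure EdgeExhaustion (E : Set (Sym2 V)) (En : ℕ → Finset (Sym2 V)) : Prop where
  subset : ∀ n, ∀ f ∈ En n, f ∈ E
  eventually_mem : ∀ f ∈ E, ∀ᶠ n in atTop, f ∈ En n

lemma tendsto_cutE {E : Set (Sym2 V)} {En : ℕ → Finset (Sym2 V)} (hEn : EdgeExhaustion E En)
    {x y : V} (hxy : x ≠ y) (hfin : {f | f ∈ E ∧ x ∈ f}.Finite) {h : Sym2 V → ℝ}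
    {hn : ℕ → Sym2 V → ℝ} (hlim : ∀ f ∈ E, Tendsto (fun n => hn n f) atTop (𝓝 (h f)))
    {M : ℝ} (hM : ∀ n, ∀ f ∈ En n, hn n f ≤ h f + M) :
    Tendsto (fun n => cutE (En n) s(x, y) (hn n)) atTop (𝓝 (cond E s(x, y) h).toReal) := by
  classical
  refine tendsto_order.2 ⟨fun a ha => ?_, fun a ha => ?_⟩
  · obtain ⟨F, hF⟩ : ∃ F : Finset (Sym2 V), a < cutE (F.filter (· ∈ E)) s(x, y) h := by
      by_contra hcon
      push Not at hcon
      have h1 : cond E s(x, y) h ≤ ENNReal.ofReal a :=
        iSup_le fun F => ENNReal.ofReal_le_ofReal (hcon F)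
      have h2 := ENNReal.toReal_mono ENNReal.ofReal_ne_top h1
      rw [ENNReal.toReal_ofReal (le_trans (cutE_nonneg _ _ _) (hcon ∅))] at h2
      linarith
    set F' := F.filter (· ∈ E) with hF'
    have hmemE : ∀ f ∈ F', f ∈ E := fun f hf => (Finset.mem_filter.1 hf).2
    -- make the sequence converge in the product topology
    let gn : ℕ → Sym2 V → ℝ := fun n f => if f ∈ F' then hn n f else h f
    have hg : Tendsto gn atTop (𝓝 h) := by
      rw [tendsto_pi_nhds]
      intro f
      by_cases hf : f ∈ F'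
      · simpa [gn, hf] using hlim f (hmemE f hf)
      · simp [gn, hf]
    have h3 := ((continuous_cutE F' s(x, y)).tendsto h).comp hg
    filter_upwards [h3.eventually_const_lt hF,
      (Finset.eventually_all (l := atTop) F').2 fun f hf => hEn.eventually_mem f (hmemE f hf)]
      with n hn1 hn2
    refine lt_of_lt_of_le hn1 (le_trans (le_of_eq ?_) (cutE_mono hn2 _ _))
    refine le_antisymm ?_ ?_
    · simpa using cutE_le_exp_mul F' s(x, y) (h := hn n) (h' := gn n) (δ := 0)
        (fun f hf => by simp [gn, hf])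
    · simpa using cutE_le_exp_mul F' s(x, y) (h := gn n) (h' := hn n) (δ := 0)
        (fun f hf => by simp [gn, hf])
  · set C := (cond E s(x, y) h).toReal with hC
    obtain ⟨φ, hφ, hφb⟩ := exists_global_potential hxy hfin h (half_pos (sub_pos.2 ha))
    set ε := (a - C) / 2 with hε
    let g : E → ℝ := fun f => Real.exp (h f) * sqd φ f
    have hg0 : ∀ f, 0 ≤ g f := fun f => mul_nonneg (Real.exp_nonneg _) (sqd_nonneg _ _)
    have hgF : ∀ s : Finset E, ∑ f ∈ s, g f ≤ C + ε := by
      intro s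
      have := hφb (s.map (Function.Embedding.subtype _)) (by
        intro f hf
        obtain ⟨f', -, rfl⟩ := Finset.mem_map.1 hf
        exact f'.2)
      simpa [energy, Finset.sum_map] using this
    have hgs : Summable g := summable_of_sum_le hg0 hgF
    have hgsum : ∑' f, g f ≤ C + ε := hgs.tsum_le_of_sum_le hgF
    let Gn : ℕ → E → ℝ := fun n f =>
      if (f : Sym2 V) ∈ En n then Real.exp (hn n f) * sqd φ f else 0
    have hdct : Tendsto (fun n => ∑' f, Gn n f) atTop (𝓝 (∑' f, g f)) := by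
      refine tendsto_tsum_of_dominated_convergence (bound := fun f => Real.exp M * g f)
        (hgs.mul_left _) (fun f => ?_) (Eventually.of_forall fun n f => ?_)
      · refine Tendsto.congr' ?_
          (((Real.continuous_exp.tendsto _).comp (hlim f f.2)).mul_const (sqd φ f))
        filter_upwards [hEn.eventually_mem f f.2] with n hn'
        simp [Gn, hn']
      · simp only [Gn]
        split_ifs with hmem
        · rw [Real.norm_eq_abs, abs_of_nonneg (mul_nonneg (Real.exp_nonneg _) (sqd_nonneg _ _))]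
          simp only [g]
          rw [← mul_assoc, ← Real.exp_add]
          exact mul_le_mul_of_nonneg_right (Real.exp_le_exp.2 (by linarith [hM n f hmem]))
            (sqd_nonneg _ _)
        · simpa using mul_nonneg (Real.exp_nonneg M) (hg0 f)
    filter_upwards [hdct.eventually_lt_const (show ∑' f, g f < a by linarith)] with n hlt
    refine lt_of_le_of_lt (le_trans (cutE_le _ _ _ φ hφ) (le_of_eq ?_)) hlt
    rw [tsum_eq_sum (s := (En n).subtype (· ∈ E))
      (fun f hf => by simp only [Gn]; rw [if_neg]; simpa using hf)]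
    rw [energy]
    symm
    rw [← Finset.sum_subtype_of_mem (s := En n) (fun f => Real.exp (hn n f) * sqd φ f)
      (p := (· ∈ E)) (fun f hf => hEn.subset n f hf)]
    refine Finset.sum_congr rfl fun f hf => ?_
    rw [Finset.mem_subtype] at hf
    simp [Gn, hf]

lemma tendsto_marg {E : Set (Sym2 V)} {En : ℕ → Finset (Sym2 V)} (hEn : EdgeExhaustion E En)
    (hE : Loopless E) (hfin : ∀ x : V, {f | f ∈ E ∧ x ∈ f}.Finite) {h : Sym2 V → ℝ}
    {hn : ℕ → Sym2 V → ℝ} (hlim : ∀ f ∈ E, Tendsto (fun n => hn n f) atTop (𝓝 (h f)))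
    {M : ℝ} (hM : ∀ n, ∀ f ∈ En n, hn n f ≤ h f + M) (e : Sym2 V) :
    Tendsto (fun n => marg (En n : Set (Sym2 V)) e (hn n)) atTop (𝓝 (marg E e h)) := by
  by_cases he : e ∈ E
  · have hd := hE e he
    induction e using Sym2.ind with
    | _ x y =>
      have hxy : x ≠ y := by simpa using hd
      have hcut := tendsto_cutE hEn hxy (hfin x) hlim hM
      have hpos : 0 < (cond E s(x, y) h).toReal := by
        have h5 : ENNReal.ofReal (Real.exp (h s(x, y))) ≤ cond E s(x, y) h :=
          le_trans (ENNReal.ofReal_le_ofReal (exp_le_cutE (Finset.mem_singleton_self _) hd h))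
            (le_cond (by simpa using he) _ h)
        have h6 := ENNReal.toReal_mono (cond_ne_top hxy (hfin x) h) h5
        rw [ENNReal.toReal_ofReal (Real.exp_nonneg _)] at h6
        exact lt_of_lt_of_le (Real.exp_pos _) h6
      rw [show marg E s(x, y) h = Real.exp (h s(x, y)) / (cond E s(x, y) h).toReal by
        simp [marg, he]]
      refine Tendsto.congr' ?_
        (((Real.continuous_exp.tendsto _).comp (hlim _ he)).div hcut hpos.ne')
      filter_upwards [hEn.eventually_mem _ he] with n hn'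
      simp [marg_coe_finset _ hn']
  · have : ∀ n, marg (En n : Set (Sym2 V)) e (hn n) = 0 := fun n => by
      rw [marg, if_neg]; exact fun hmem => he (hEn.subset n e hmem)
    rw [show marg E e h = 0 by simp [marg, he]]
    simp only [this]
    exact tendsto_const_nhds

end Vale.Agent.P143
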