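import Vale.Agent.P143.Brownian
import Vale.Agent.P143.Defs

/-!
From i.i.d. uniform labels on vertices to i.i.d. randomness on edges, equivariantly: each vertex
carries a mark and a sequence of spare samples; an edge uses a spare sample of its endpoint with
smaller mark, indexed by the rank of the other endpoint among that vertex's neighbours.
-/

namespace Vale.Agent.P143

open MeasureTheory ProbabilityTheory Filter Topology
open scoped ENNReal

/-- randomness carried by a vertex -/
abbrev VData : Type := ℝ × (ℕ → Omega0)

/-- its law -/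
noncomputable abbrev nuV : Measure VData := stdG.prod (Measure.infinitePi fun _ : ℕ => nu0)

lemma exists_decode : ∃ f : unitInterval → VData, Measurable f ∧ volume.map f = nuV :=
  Measure.exists_measurable_map_eq nuV

/-- decoding of one uniform label -/
noncomputable def decode : unitInterval → VData := exists_decode.choose

lemma measurable_decode : Measurable decode := exists_decode.choose_spec.1

lemma map_decode : (volume : Measure unitInterval).map decode = nuV := exists_decode.choose_spec.2

variable {V W : Type}

open Classical in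
/-- number of neighbours of `x` with mark below that of `y` -/
noncomputable def rank (E : Set (Sym2 V)) (R : V → ℝ) (x y : V) : ℕ :=
  ⌊(∑' z, if s(x, z) ∈ E ∧ R z < R y then (1 : ℝ≥0∞) else 0).toReal⌋₊

/-- slot used by an edge -/
noncomputable def slot (E : Set (Sym2 V)) (R : V → ℝ) (x y : V) : V × ℕ :=
  if R x < R y then (x, rank E R x y) else (y, rank E R y x)

open Classical in
/-- randomness of an edge -/
noncomputable def noiseOf (E : Set (Sym2 V)) (R : V → ℝ) (d : V → ℕ → Omega0) :
    Sym2 V → Omega0 :=
  Sym2.lift ⟨fun x y => if R x < R y then d x (rank E R x y)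
      else if R y < R x then d y (rank E R y x) else 0, fun x y => by
    by_cases h1 : R x < R y
    · simp [h1, not_lt.2 h1.le]
    · by_cases h2 : R y < R x <;> simp [h1, h2]⟩

/-- edge randomness as a function of the uniform labels -/
noncomputable def noise (E : Set (Sym2 V)) (U : V → unitInterval) : Sym2 V → Omega0 :=
  noiseOf E (fun v => (decode (U v)).1) fun v => (decode (U v)).2

lemma rank_map (σ : V ≃ W) (E : Set (Sym2 V)) (R : W → ℝ) (x y : V) :
    rank (Sym2.map σ '' E) R (σ x) (σ y) = rank E (R ∘ σ) x y := by
  classical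
  unfold rank
  rw [← σ.tsum_eq]
  congr 2
  refine tsum_congr fun z => ?_
  have : s(σ x, σ z) ∈ Sym2.map σ '' E ↔ s(x, z) ∈ E := by
    rw [show s(σ x, σ z) = Sym2.map σ s(x, z) from rfl]
    exact (Sym2.map.injective σ.injective).mem_set_image
  exact if_congr (and_congr this Iff.rfl) rfl rfl

lemma noise_map (σ : V ≃ W) (E : Set (Sym2 V)) (U : W → unitInterval) (e : Sym2 V) :
    noise (Sym2.map σ '' E) U (e.map σ) = noise E (U ∘ σ) e := by
  induction e using Sym2.ind with
  | _ x y =>
    simp only [noise, noiseOf, Sym2.map_mk, Sym2.lift_mk, rank_map, Function.comp]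
    rfl

lemma measurable_noise [Countable V] {α : Type} [MeasurableSpace α] {E : α → Set (Sym2 V)}
    {U : α → V → unitInterval} (hE : ∀ f, MeasurableSet {a | f ∈ E a}) (hU : Measurable U) :
    Measurable fun a => noise (E a) (U a) := by
  classical
  have hd : ∀ v, Measurable fun a => decode (U a v) := fun v =>
    measurable_decode.comp ((measurable_pi_apply v).comp hU)
  have hR : ∀ v, Measurable fun a => (decode (U a v)).1 := fun v => measurable_fst.comp (hd v)
  have hrank : ∀ x y, Measurable fun a => rank (E a) (fun v => (decode (U a v)).1) x y := by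
    intro x y
    refine Nat.measurable_floor.comp (Measurable.ennreal_toReal (Measurable.tsum fun z => ?_))
    exact Measurable.ite ((hE _).inter (measurableSet_lt (hR z) (hR y))) measurable_const
      measurable_const
  have hdata : ∀ x y, Measurable fun a =>
      (decode (U a x)).2 (rank (E a) (fun v => (decode (U a v)).1) x y) := fun x y =>
    Measurable.comp (g := fun q : ℕ × (ℕ → Omega0) => q.2 q.1)
      (f := fun a => (rank (E a) (fun v => (decode (U a v)).1) x y, (decode (U a x)).2))
      (measurable_from_prod_countable_right fun k => measurable_pi_apply k)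
      ((hrank x y).prodMk (measurable_snd.comp (hd x)))
  refine measurable_pi_iff.2 fun e => ?_
  induction e using Sym2.ind with
  | _ x y =>
    simp only [noise, noiseOf, Sym2.lift_mk]
    exact Measurable.ite (measurableSet_lt (hR x) (hR y)) (hdata x y)
      (Measurable.ite (measurableSet_lt (hR y) (hR x)) (hdata y x) measurable_const)

lemma noiseOf_eq_slot (E : Set (Sym2 V)) (R : V → ℝ) (d : V → ℕ → Omega0) {x y : V}
    (h : R x ≠ R y) :
    noiseOf E R d s(x, y) = d (slot E R x y).1 (slot E R x y).2 := by
  simp only [noiseOf, Sym2.lift_mk, slot]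
  rcases lt_or_gt_of_ne h with h1 | h1
  · simp [h1]
  · simp [h1, not_lt.2 h1.le]

lemma rank_lt {E : Set (Sym2 V)} (hfin : ∀ x : V, {f | f ∈ E ∧ x ∈ f}.Finite) {R : V → ℝ}
    {x y y' : V} (hy : s(x, y) ∈ E) (hlt : R y < R y') : rank E R x y < rank E R x y' := by
  classical
  have hnb : {z | s(x, z) ∈ E}.Finite := by
    refine Set.Finite.of_finite_image (f := fun z => s(x, z)) ((hfin x).subset ?_) ?_
    · rintro _ ⟨z, hz, rfl⟩; exact ⟨hz, by simp⟩
    · intro a _ b _ hab; exact Sym2.congr_right.1 hab
  have hcard : ∀ w, rank E R x w = (hnb.toFinset.filter fun z => R z < R w).card := by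
    intro w
    unfold rank
    rw [tsum_eq_sum (s := hnb.toFinset.filter fun z => R z < R w) (fun z hz => by
      rw [if_neg]; simpa using hz)]
    rw [Finset.sum_congr rfl (fun z hz => if_pos (by simpa using hz))]
    simp
  rw [hcard, hcard]
  refine Finset.card_lt_card ((Finset.ssubset_iff_of_subset ?_).2 ⟨y, ?_, ?_⟩)
  · intro z hz
    simp only [Finset.mem_filter] at hz ⊢
    exact ⟨hz.1, hz.2.trans hlt⟩
  · simpa using ⟨hy, hlt⟩
  · simp

lemma slot_injective {E : Set (Sym2 V)} (hfin : ∀ x : V, {f | f ∈ E ∧ x ∈ f}.Finite) {R : V → ℝ}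
    (hR : Function.Injective R) {x y x' y' : V} (h : s(x, y) ∈ E) (h' : s(x', y') ∈ E)
    (heq : slot E R x y = slot E R x' y') : s(x, y) = s(x', y') := by
  have key : ∀ a b a' b' : V, s(a, b) ∈ E → s(a', b') ∈ E →
      (a, rank E R a b) = (a', rank E R a' b') → s(a, b) = s(a', b') := by
    intro a b a' b' hab ha'b' he
    simp only [Prod.mk.injEq] at he
    obtain ⟨rfl, he⟩ := he
    rcases lt_trichotomy (R b) (R b') with hl | hl | hl
    · exact absurd he (rank_lt hfin hab hl).ne
    · rw [hR hl]
    · exact absurd he.symm (rank_lt hfin ha'b' hl).ne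
  unfold slot at heq
  split_ifs at heq
  · exact key _ _ _ _ h h' heq
  · rw [key _ _ _ _ h (Sym2.eq_swap ▸ h') heq]; exact Sym2.eq_swap
  · rw [Sym2.eq_swap, key _ _ _ _ (Sym2.eq_swap ▸ h) h' heq]
  · rw [Sym2.eq_swap, key _ _ _ _ (Sym2.eq_swap ▸ h) (Sym2.eq_swap ▸ h') heq]; exact Sym2.eq_swap

lemma ae_injective_marks [Countable V] :
    ∀ᵐ R ∂(Measure.infinitePi fun _ : V => stdG), Function.Injective R := by
  have hpair : ∀ x y : V, x ≠ y → ∀ᵐ R ∂(Measure.infinitePi fun _ : V => stdG), R x ≠ R y := by
    intro x y hxy
    have hind := (iIndepFun_infinitePi (P := fun _ : V => stdG) (X := fun _ a => a)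
      (fun _ => measurable_id)).indepFun hxy
    have hlaw : (Measure.infinitePi fun _ : V => stdG).map (fun R => (R x, R y)) =
        stdG.prod stdG := by
      rw [(indepFun_iff_map_prod_eq_prod_map_map (measurable_pi_apply x).aemeasurable
        (measurable_pi_apply y).aemeasurable).1 hind, Measure.infinitePi_map_eval,
        Measure.infinitePi_map_eval]
    have hdiag : MeasurableSet {p : ℝ × ℝ | p.1 = p.2} :=
      measurableSet_eq_fun measurable_fst measurable_snd
    rw [ae_iff]
    have h0 : (stdG.prod stdG) {p : ℝ × ℝ | p.1 = p.2} = 0 := by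
      rw [Measure.prod_apply hdiag]
      have : NullSingletonClass stdG := nullSingletonClass_gaussianReal one_ne_zero
      have hz : ∀ a : ℝ, stdG (Prod.mk a ⁻¹' {p : ℝ × ℝ | p.1 = p.2}) = 0 := fun a => by
        rw [show Prod.mk a ⁻¹' {p : ℝ × ℝ | p.1 = p.2} = {a} by ext b; simp [eq_comm]]
        exact measure_singleton a
      simp [hz]
    rw [← hlaw, Measure.map_apply (by fun_prop) hdiag] at h0
    simpa using h0
  have hall : ∀ᵐ R ∂(Measure.infinitePi fun _ : V => stdG),
      ∀ p : {p : V × V // p.1 ≠ p.2}, R p.1.1 ≠ R p.1.2 :=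
    ae_all_iff.2 fun p => hpair _ _ p.2
  filter_upwards [hall] with R hR x y hxy
  by_contra hne
  exact hR ⟨(x, y), hne⟩ hxy

/-- The randomness on finitely many edges is i.i.d. -/
theorem law_noise [Countable V] {E : Set (Sym2 V)}
    (hfin : ∀ x : V, {f | f ∈ E ∧ x ∈ f}.Finite) (hloop : ∀ e ∈ E, ¬ e.IsDiag)
    (S : Finset (Sym2 V)) (hS : ∀ e ∈ S, e ∈ E) :
    (iidLabels V).map (fun U (e : S) => noise E U e) = Measure.pi fun _ : S => nu0 := by
  classical
  set PR : Measure (V → ℝ) := Measure.infinitePi fun _ : V => stdG with hPR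
  set PD : Measure (V → ℕ → Omega0) :=
    Measure.infinitePi fun _ : V => Measure.infinitePi fun _ : ℕ => nu0 with hPD
  have hsplit : (iidLabels V).map
      (fun U => ((fun v => (decode (U v)).1), fun v => (decode (U v)).2)) = PR.prod PD := by
    have h1 : (iidLabels V).map (fun U v => decode (U v)) = Measure.infinitePi fun _ : V => nuV := by
      rw [iidLabels, Measure.infinitePi_map_pi _ (f := fun _ => decode) fun _ => measurable_decode]
      simp only [map_decode]
    have hm : Measurable fun (U : V → unitInterval) v => decode (U v) :=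
      measurable_pi_iff.2 fun v => measurable_decode.comp (measurable_pi_apply v)
    rw [← map_unzipPi (fun _ : V => stdG) (fun _ : V => Measure.infinitePi fun _ : ℕ => nu0),
      show (fun U : V → unitInterval => ((fun v => (decode (U v)).1), fun v => (decode (U v)).2)) =
        (fun z : V → VData => ((fun v => (z v).1), fun v => (z v).2)) ∘
          (fun U v => decode (U v)) from rfl,
      ← Measure.map_map (by fun_prop) hm, h1]
  let F : (V → ℝ) × (V → ℕ → Omega0) → S → Omega0 := fun p e => noiseOf E p.1 p.2 e
  have hF : Measurable F := by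
    refine measurable_pi_iff.2 fun e => ?_
    obtain ⟨e, he⟩ := e
    have hrank : ∀ x y, Measurable fun p : (V → ℝ) × (V → ℕ → Omega0) => rank E p.1 x y := by
      intro x y
      refine Nat.measurable_floor.comp (Measurable.ennreal_toReal (Measurable.tsum fun z => ?_))
      refine Measurable.ite ?_ measurable_const measurable_const
      by_cases hz : s(x, z) ∈ E
      · simp only [hz, true_and]; exact measurableSet_lt (by fun_prop) (by fun_prop)
      · simp only [hz, false_and]; exact MeasurableSet.empty
    have hdata : ∀ x y, Measurable fun p : (V → ℝ) × (V → ℕ → Omega0) =>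
        p.2 x (rank E p.1 x y) := fun x y =>
      Measurable.comp (g := fun q : ℕ × (ℕ → Omega0) => q.2 q.1)
        (f := fun p : (V → ℝ) × (V → ℕ → Omega0) => (rank E p.1 x y, p.2 x))
        (measurable_from_prod_countable_right fun k => measurable_pi_apply k)
        ((hrank x y).prodMk ((measurable_pi_apply x).comp measurable_snd))
    induction e using Sym2.ind with
    | _ x y =>
      simp only [F, noiseOf, Sym2.lift_mk]
      exact Measurable.ite (measurableSet_lt (by fun_prop) (by fun_prop)) (hdata x y)
        (Measurable.ite (measurableSet_lt (by fun_prop) (by fun_prop)) (hdata y x) measurable_const)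
  have hcomp : (fun U (e : S) => noise E U e) =
      F ∘ fun U => ((fun v => (decode (U v)).1), fun v => (decode (U v)).2) := rfl
  have hdec : ∀ v : V, Measurable fun U : V → unitInterval => decode (U v) := fun v =>
    measurable_decode.comp (measurable_pi_apply v)
  have hm2 : Measurable fun U : V → unitInterval =>
      ((fun v => (decode (U v)).1), fun v => (decode (U v)).2) :=
    Measurable.prodMk (measurable_pi_iff.2 fun v => measurable_fst.comp (hdec v))
      (measurable_pi_iff.2 fun v => measurable_snd.comp (hdec v))
  rw [hcomp, ← Measure.map_map hF hm2, hsplit]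
  refine (Measure.pi_eq fun t ht => ?_).symm
  rw [Measure.map_apply hF (MeasurableSet.univ_pi ht),
    Measure.prod_apply (hF (MeasurableSet.univ_pi ht))]
  have key : ∀ᵐ R ∂PR, PD (Prod.mk R ⁻¹' (F ⁻¹' Set.univ.pi t)) = ∏ i, nu0 (t i) := by
    filter_upwards [ae_injective_marks (V := V)] with R hR
    let sl : S → V × ℕ := fun e =>
      slot E R (Quot.out (e : Sym2 V)).1 (Quot.out (e : Sym2 V)).2
    have hout : ∀ e : S, s((Quot.out (e : Sym2 V)).1, (Quot.out (e : Sym2 V)).2) = (e : Sym2 V) :=
      fun e => Quot.out_eq _
    have hinj : Function.Injective sl := by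
      intro e e' h
      apply Subtype.ext
      rw [← hout e, ← hout e']
      exact slot_injective hfin hR (by rw [hout]; exact hS _ e.2) (by rw [hout]; exact hS _ e'.2) h
    have hval : ∀ (d : V → ℕ → Omega0) (e : S), F (R, d) e = Function.uncurry d (sl e) := by
      intro d e
      have hne : R (Quot.out (e : Sym2 V)).1 ≠ R (Quot.out (e : Sym2 V)).2 := by
        intro h
        exact hloop _ (hS _ e.2) (by rw [← hout e]; exact hR h)
      show noiseOf E R d (e : Sym2 V) = _
      conv_lhs => rw [← hout e]
      exact noiseOf_eq_slot E R d hne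
    let t' : V × ℕ → Set Omega0 := fun p => if h : ∃ e, sl e = p then t h.choose else Set.univ
    have ht' : ∀ e, t' (sl e) = t e := by
      intro e
      have h : ∃ e', sl e' = sl e := ⟨e, rfl⟩
      simp only [t', dif_pos h]
      rw [hinj h.choose_spec]
    have ht'm : ∀ p, MeasurableSet (t' p) := by
      intro p; simp only [t']; split_ifs
      · exact ht _
      · exact MeasurableSet.univ
    have hset : Prod.mk R ⁻¹' (F ⁻¹' Set.univ.pi t) =
        (MeasurableEquiv.curry V ℕ Omega0).symm ⁻¹'
          ((Finset.univ.image sl : Finset (V × ℕ)) : Set (V × ℕ)).pi t' := by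
      ext d
      simp only [Set.mem_preimage, Set.mem_pi, Finset.coe_image, Finset.coe_univ,
        Set.image_univ, Set.mem_range, forall_exists_index, forall_apply_eq_imp_iff, ht', hval,
        MeasurableEquiv.coe_curry_symm, Set.mem_univ, true_implies]
    rw [hset, ← Measure.map_apply (MeasurableEquiv.measurable _)
      (MeasurableSet.pi (Finset.countable_toSet _) fun p _ => ht'm p), hPD,
      Measure.infinitePi_map_curry_symm (fun _ _ => nu0),
      Measure.infinitePi_pi _ (fun p _ => ht'm p), Finset.prod_image fun a _ b _ h => hinj h]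
    exact Finset.prod_congr rfl fun e _ => by rw [ht']
  rw [lintegral_congr_ae key, lintegral_const, measure_univ, mul_one]

end Vale.Agent.P143
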