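import Vale.Agent.P143.Picard
import Vale.Agent.P143.FiniteLaw
import Vale.Agent.P143.Noise
import Vale.Agent.P143.GraphModel

/-!
The factor map and the proof that it realises the free uniform spanning forest.
-/

namespace Vale.Agent.P143

open MeasureTheory ProbabilityTheory Filter Topology
open scoped ENNReal

variable {V W : Type}

/-- Brownian paths on the pairs -/
noncomputable def pathB (E : Set (Sym2 V)) (U : V → unitInterval) : ℝ → Sym2 V → ℝ :=
  fun s f => bm (noise E U f) s

/-- the observation process -/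
noncomputable def sol (E : Set (Sym2 V)) (U : V → unitInterval) (t : ℝ) (e : Sym2 V) : ℝ :=
  pathB E U t e + drift E (pathB E U) t e

/-- the factor -/
def Phi (E : Set (Sym2 V)) (U : V → unitInterval) : Set (Sym2 V) :=
  {e | e ∈ E ∧ ∀ᶠ k : ℕ in atTop, (k : ℝ) / 2 < sol E U k e}

lemma Phi_map (σ : V ≃ W) (E : Set (Sym2 V)) (U : W → unitInterval) :
    Phi (Sym2.map σ '' E) U = Sym2.map σ '' Phi E (U ∘ σ) := by
  have hinj : Function.Injective (Sym2.map σ) := Sym2.map.injective σ.injective
  have hsol : ∀ (t : ℝ) (e : Sym2 V),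
      sol (Sym2.map σ '' E) U t (e.map σ) = sol E (U ∘ σ) t e := by
    intro t e
    simp only [sol, drift_map, pathB, noise_map]
    rfl
  ext e'
  constructor
  · rintro ⟨⟨e, he, rfl⟩, hev⟩
    refine ⟨e, ⟨he, ?_⟩, rfl⟩
    simpa [hsol] using hev
  · rintro ⟨e, ⟨he, hev⟩, rfl⟩
    exact ⟨hinj.mem_set_image.2 he, by simpa [hsol] using hev⟩

lemma measurable_pathB [Countable V] {α : Type} [MeasurableSpace α] {E : α → Set (Sym2 V)}
    {U : α → V → unitInterval} (hE : ∀ f, MeasurableSet {a | f ∈ E a}) (hU : Measurable U) :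
    Measurable fun p : ℝ × α => pathB (E p.2) (U p.2) p.1 :=
  measurable_pi_iff.2 fun f => measurable_bm_comp measurable_fst
    ((measurable_pi_apply f).comp ((measurable_noise hE hU).comp measurable_snd))

lemma measurable_drift_at [Countable V] {α : Type} [MeasurableSpace α] {E : α → Set (Sym2 V)}
    {B : α → ℝ → Sym2 V → ℝ} (hE : ∀ f, MeasurableSet {a | f ∈ E a})
    (hB : Measurable fun p : ℝ × α => B p.2 p.1) (t : ℝ) (e : Sym2 V) :
    Measurable fun a => drift (E a) (B a) t e :=
  Measurable.limsup fun j =>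
    Measurable.comp (g := fun p : ℝ × α => iter (E p.2) (B p.2) j p.1 e) (f := fun a => (t, a))
      ((measurable_pi_apply e).comp (measurable_iter hE hB j)) (measurable_const.prodMk measurable_id)

lemma measurable_pathB_at [Countable V] {α : Type} [MeasurableSpace α] {E : α → Set (Sym2 V)}
    {U : α → V → unitInterval} (hE : ∀ f, MeasurableSet {a | f ∈ E a}) (hU : Measurable U)
    (t : ℝ) (e : Sym2 V) : Measurable fun a => pathB (E a) (U a) t e :=
  measurable_bm_comp measurable_const ((measurable_pi_apply e).comp (measurable_noise hE hU))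

lemma measurable_sol [Countable V] {α : Type} [MeasurableSpace α] {E : α → Set (Sym2 V)}
    {U : α → V → unitInterval} (hE : ∀ f, MeasurableSet {a | f ∈ E a}) (hU : Measurable U)
    (t : ℝ) : Measurable fun a => sol (E a) (U a) t :=
  measurable_pi_iff.2 fun e => (measurable_pathB_at hE hU t e).add
    (measurable_drift_at (B := fun a => pathB (E a) (U a)) hE (measurable_pathB hE hU) t e)

lemma measurableSet_Phi [Countable V] {α : Type} [MeasurableSpace α] {E : α → Set (Sym2 V)}
    {U : α → V → unitInterval} (hE : ∀ f, MeasurableSet {a | f ∈ E a}) (hU : Measurable U)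
    (e : Sym2 V) : MeasurableSet {a | e ∈ Phi (E a) (U a)} := by
  have : {a | e ∈ Phi (E a) (U a)} =
      {a | e ∈ E a} ∩ ⋃ N : ℕ, ⋂ k : ℕ, ⋂ (_ : N ≤ k), {a | (k : ℝ) / 2 < sol (E a) (U a) k e} := by
    ext a
    simp [Phi, eventually_atTop]
  rw [this]
  exact (hE e).inter (MeasurableSet.iUnion fun N => MeasurableSet.iInter fun k =>
    MeasurableSet.iInter fun _ => measurableSet_lt measurable_const
      ((measurable_pi_apply e).comp (measurable_sol hE hU k)))

lemma measurable_pathB_fixed [Countable V] (E : Set (Sym2 V)) (U : V → unitInterval) :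
    Measurable (pathB E U) :=
  measurable_pi_iff.2 fun _ => measurable_bm_comp measurable_id measurable_const

lemma drift_congr [Countable V] {E : Set (Sym2 V)} (hE : Loopless E) {B B' : ℝ → Sym2 V → ℝ}
    (h : ∀ s, ∀ f ∈ E, B s f = B' s f) (t : ℝ) (e : Sym2 V) :
    drift E B t e = drift E B' t e := by
  have hi : ∀ (j : ℕ) (t : ℝ) (e : Sym2 V), iter E B j t e = iter E B' j t e := by
    intro j
    induction j with
    | zero => intros; rfl
    | succ j ih =>
      intro t e
      simp only [iter]
      congr 1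
      funext s
      exact marg_congr hE e fun f hf => by rw [h s f hf, ih]
  simp only [drift, hi]

/-- randomness of finitely many edges, extended by zero -/
noncomputable def extO (S : Finset (Sym2 V)) (ω : S → Omega0) : Sym2 V → Omega0 :=
  fun f => open Classical in if hf : f ∈ S then ω ⟨f, hf⟩ else 0

/-- drift of the finite system as a function of the edge randomness -/
noncomputable def finDrift (S : Finset (Sym2 V)) (ω : S → Omega0) (t : ℝ) (i : S) : ℝ :=
  drift (S : Set (Sym2 V)) (fun s f => bm (extO S ω f) s) t i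

section finite

variable [Countable V] [DecidableEq V] {R : Set V} {S : Finset (Sym2 V)}

lemma solves_finDrift (hR : R.Finite) (hne : R.Nonempty) (hG : FiniteGraph R S)
    (hconn : ∀ u ∈ R, ∀ v ∈ R, (gr S).Reachable u v) :
    Solves (treeModel hR hne hG hconn) (finDrift S) := by
  have hS : Loopless (S : Set (Sym2 V)) := fun e he => hG.loopless e (Finset.mem_coe.1 he)
  have hB : ∀ ω : S → Omega0, Measurable fun s f => bm (extO S ω f) s := fun ω =>
    measurable_pi_iff.2 fun f => measurable_bm_comp measurable_id measurable_const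
  refine ⟨fun t => measurable_pi_iff.2 fun i => ?_, fun ω => measurable_pi_iff.2 fun i => ?_,
    fun ω i => drift_zero_time _, fun ω i {t t'} ht htt => ?_, fun ω i {t} ht => ?_⟩
  · have hpair : Measurable fun p : ℝ × (S → Omega0) => fun f : Sym2 V => bm (extO S p.2 f) p.1 :=
      measurable_pi_iff.2 fun f => measurable_bm_comp measurable_fst (by
        by_cases hf : f ∈ S
        · simp only [extO, hf, dif_pos]
          exact (measurable_pi_apply _).comp measurable_snd
        · simp only [extO, hf, dif_neg, not_false_iff]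
          exact measurable_const)
    exact measurable_drift_at (E := fun _ : S → Omega0 => (S : Set (Sym2 V)))
      (B := fun ω s f => bm (extO S ω f) s)
      (fun f => by by_cases hf : f ∈ (S : Set (Sym2 V)) <;> simp [hf]) hpair t i
  · exact (measurable_pi_apply (i : Sym2 V)).comp (measurable_drift_path (hB ω))
  · have := drift_mono hS (hB ω) (i : Sym2 V) ht htt
    rw [finDrift, finDrift, abs_of_nonneg this.1]
    exact this.2
  · rw [finDrift, drift_eq hS (hB ω) _ ht]
    congr 1
    funext s
    refine marg_congr hS _ fun f hf => ?_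
    rw [Finset.mem_coe] at hf
    simp [ext, extO, finDrift, hf]

/-- the finite-volume law transported to the vertex labels -/
lemma integral_finite {E : Set (Sym2 V)} (hfin : ∀ x : V, {f | f ∈ E ∧ x ∈ f}.Finite)
    (hloop : ∀ e ∈ E, ¬ e.IsDiag) (hSE : ∀ e ∈ S, e ∈ E) (hR : R.Finite) (hne : R.Nonempty)
    (hG : FiniteGraph R S) (hconn : ∀ u ∈ R, ∀ v ∈ R, (gr S).Reachable u v) (k : ℕ)
    {f : (S → ℝ) → ℝ} (hf : Obs f) {L : ℝ} (hL : 0 ≤ L)
    (hlip : ∀ h g, |f h - f g| ≤ L * ∑ i, |h i - g i|) :
    ∫ U, f (fun i => pathB E U k i + drift (S : Set (Sym2 V)) (pathB E U) k i) ∂iidLabels V =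
      (treeModel hR hne hG hconn).expect k f := by
  have hsolves := solves_finDrift hR hne hG hconn
  rw [← Model.law_solution _ hsolves k hf hL hlip, ← law_noise hfin hloop S hSE]
  have hnoise : Measurable fun U (e : S) => noise E U (e : Sym2 V) :=
    measurable_pi_iff.2 fun e => (measurable_pi_apply (e : Sym2 V)).comp
      (measurable_noise (E := fun _ => E) (U := id)
        (fun f => by by_cases hf : f ∈ E <;> simp [hf]) measurable_id)
  have hmeas : Measurable fun ω : S → Omega0 => f fun i => bm (ω i) k + finDrift S ω k i :=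
    hf.1.comp (measurable_pi_iff.2 fun i =>
      (measurable_bm_comp measurable_const (measurable_pi_apply i)).add
        ((measurable_pi_apply i).comp (hsolves.measurable k)))
  rw [integral_map hnoise.aemeasurable hmeas.aestronglyMeasurable]
  congr 1
  funext U
  congr 1
  funext i
  rw [finDrift]
  congr 1
  refine drift_congr (fun e he => hG.loopless e (Finset.mem_coe.1 he)) (fun s f hf => ?_) _ _
  rw [Finset.mem_coe] at hf
  simp [pathB, extO, hf]

end finite

/-- expectation of an observable which is rigid near the configurations -/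
lemma Model.expect_near {ι : Type} [Fintype ι] (M : Model ι) (k : ℕ) {g : (ι → ℝ) → ℝ}
    (hg : Obs g) (c : (ι → ℝ) → ℝ) (hc : ∀ x ∈ M.conf, |c x| ≤ 1) (I : Finset ι) (a : ℝ)
    (h : ∀ x ∈ M.conf, ∀ z : ι → ℝ, (∀ i ∈ I, |z i| < a) →
      g (fun i => k * x i + √(k : ℝ) * z i) = c x) :
    |M.expect k g - ∑ x ∈ M.conf, M.mu 0 x * c x| ≤ 2 * I.card * stdG.real {y | a ≤ |y|} := by
  have hms : MeasurableSet {y : ℝ | a ≤ |y|} := measurableSet_le measurable_const (by fun_prop)
  have hbad : ∀ i : ι, MeasurableSet {z : ι → ℝ | a ≤ |z i|} := fun i =>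
    measurableSet_le measurable_const (by fun_prop)
  have key : ∀ x ∈ M.conf, |(∫ z, g (fun i => k * x i + √(k : ℝ) * z i) ∂gam ι) - c x| ≤
      2 * I.card * stdG.real {y | a ≤ |y|} := by
    intro x hx
    have hgi : Integrable (fun z => g (fun i => k * x i + √(k : ℝ) * z i)) (gam ι) :=
      hg.integrable (by fun_prop)
    rw [show c x = ∫ _, c x ∂gam ι by simp, ← integral_sub hgi (integrable_const _)]
    refine (abs_integral_le_integral_abs).trans ?_
    calc ∫ z, |g (fun i => k * x i + √(k : ℝ) * z i) - c x| ∂gam ι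
        ≤ ∫ z, 2 * ∑ i ∈ I, {z : ι → ℝ | a ≤ |z i|}.indicator (fun _ => (1 : ℝ)) z ∂gam ι := by
          refine integral_mono (hgi.sub (integrable_const _)).abs
            ((integrable_finsetSum _ fun i _ => (integrable_const _).indicator (hbad i)).const_mul _)
            fun z => ?_
          by_cases hall : ∀ i ∈ I, |z i| < a
          · rw [h x hx z hall, sub_self, abs_zero]
            exact mul_nonneg zero_le_two (Finset.sum_nonneg fun i _ =>
              Set.indicator_nonneg (fun _ _ => zero_le_one) _)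
          · push Not at hall
            obtain ⟨i, hi, hia⟩ := hall
            have h1 : (1 : ℝ) ≤ ∑ i ∈ I, {z : ι → ℝ | a ≤ |z i|}.indicator (fun _ => (1 : ℝ)) z := by
              refine le_trans ?_ (Finset.single_le_sum (fun j _ =>
                Set.indicator_nonneg (fun _ _ => zero_le_one) _) hi)
              rw [Set.indicator_of_mem (show z ∈ {z : ι → ℝ | a ≤ |z i|} from hia)]
            have h2 := hg.2 (fun i => k * x i + √(k : ℝ) * z i)
            have h3 := hc x hx
            have h4 := abs_sub (g fun i => k * x i + √(k : ℝ) * z i) (c x)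
            linarith
      _ = _ := by
          rw [integral_const_mul, integral_finsetSum _ fun i _ =>
            (integrable_const _).indicator (hbad i), mul_assoc]
          congr 1
          have : ∀ i ∈ I, ∫ z, {z : ι → ℝ | a ≤ |z i|}.indicator (fun _ => (1 : ℝ)) z ∂gam ι =
              stdG.real {y | a ≤ |y|} := by
            intro i _
            rw [integral_indicator_const _ (hbad i), smul_eq_mul, mul_one]
            exact (measurePreserving_eval (fun _ : ι => stdG) i).measureReal_preimage
              hms.nullMeasurableSet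
          rw [Finset.sum_congr rfl this, Finset.sum_const, nsmul_eq_mul]
  calc |M.expect k g - ∑ x ∈ M.conf, M.mu 0 x * c x|
      = |∑ x ∈ M.conf, M.mu 0 x * ((∫ z, g (fun i => k * x i + √(k : ℝ) * z i) ∂gam ι) - c x)| := by
        rw [Model.expect, ← Finset.sum_sub_distrib]
        congr 1
        exact Finset.sum_congr rfl fun x _ => (mul_sub _ _ _).symm
    _ ≤ ∑ x ∈ M.conf, M.mu 0 x * (2 * I.card * stdG.real {y | a ≤ |y|}) := by
        refine (Finset.abs_sum_le_sum_abs _ _).trans (Finset.sum_le_sum fun x hx => ?_)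
        rw [abs_mul, abs_of_nonneg (M.mu_nonneg _ _)]
        exact mul_le_mul_of_nonneg_left (key x hx) (M.mu_nonneg _ _)
    _ = _ := by rw [← Finset.sum_mul, M.sum_mu, one_mul]

/-- clamped ramp -/
noncomputable def clamp01 (u : ℝ) : ℝ := max 0 (min 1 u)

lemma clamp01_mem (u : ℝ) : 0 ≤ clamp01 u ∧ clamp01 u ≤ 1 :=
  ⟨le_max_left _ _, max_le zero_le_one (min_le_left _ _)⟩

lemma clamp01_lip (u v : ℝ) : |clamp01 u - clamp01 v| ≤ |u - v| := by
  refine le_trans (abs_max_sub_max_le_max _ _ _ _) ?_
  simp only [sub_self, abs_zero]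
  refine max_le (abs_nonneg _) (le_trans (abs_min_sub_min_le_max _ _ _ _) (by simp))

lemma abs_prod_sub_prod_le {κ : Type} (s : Finset κ) (a b : κ → ℝ)
    (ha : ∀ i ∈ s, 0 ≤ a i ∧ a i ≤ 1) (hb : ∀ i ∈ s, 0 ≤ b i ∧ b i ≤ 1) :
    |∏ i ∈ s, a i - ∏ i ∈ s, b i| ≤ ∑ i ∈ s, |a i - b i| := by
  classical
  induction s using Finset.induction_on with
  | empty => simp
  | @insert i s hi ih =>
    rw [Finset.prod_insert hi, Finset.prod_insert hi, Finset.sum_insert hi]
    have hA := ha i (Finset.mem_insert_self _ _)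
    have hP0 : 0 ≤ ∏ j ∈ s, b j :=
      Finset.prod_nonneg fun j hj => (hb j (Finset.mem_insert_of_mem hj)).1
    have hP1 : ∏ j ∈ s, b j ≤ 1 := Finset.prod_le_one
      (fun j hj => (hb j (Finset.mem_insert_of_mem hj)).1)
      (fun j hj => (hb j (Finset.mem_insert_of_mem hj)).2)
    have h := ih (fun j hj => ha j (Finset.mem_insert_of_mem hj))
      (fun j hj => hb j (Finset.mem_insert_of_mem hj))
    calc |a i * ∏ j ∈ s, a j - b i * ∏ j ∈ s, b j|
        = |a i * (∏ j ∈ s, a j - ∏ j ∈ s, b j) + (a i - b i) * ∏ j ∈ s, b j| := by ring_nf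
      _ ≤ |a i * (∏ j ∈ s, a j - ∏ j ∈ s, b j)| + |(a i - b i) * ∏ j ∈ s, b j| := abs_add_le _ _
      _ ≤ |∏ j ∈ s, a j - ∏ j ∈ s, b j| + |a i - b i| := by
          rw [abs_mul, abs_mul, abs_of_nonneg hA.1, abs_of_nonneg hP0]
          exact add_le_add (mul_le_of_le_one_left (abs_nonneg _) hA.2)
            (mul_le_of_le_one_right (abs_nonneg _) hP1)
      _ ≤ |a i - b i| + ∑ j ∈ s, |a j - b j| := by linarith

open Classical in
/-- smoothed cylinder indicator read at time `k` -/
noncomputable def obsPat (S A : Finset (Sym2 V)) (k : ℕ) (h : Sym2 V → ℝ) : ℝ :=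
  ∏ e ∈ S, if e ∈ A then clamp01 (5 * h e / k - 2) else 1 - clamp01 (5 * h e / k - 2)

/-- smoothed indicator that the coordinate `e` is far from `{0, k}` -/
noncomputable def obsBad (e : Sym2 V) (k : ℕ) (h : Sym2 V → ℝ) : ℝ :=
  clamp01 (20 * min |h e / k| |h e / k - 1| - 1)

open Classical in
lemma obsPat_mem (S A : Finset (Sym2 V)) (k : ℕ) (h : Sym2 V → ℝ) :
    0 ≤ obsPat S A k h ∧ obsPat S A k h ≤ 1 := by
  have hfac : ∀ e ∈ S, (0 : ℝ) ≤
      (if e ∈ A then clamp01 (5 * h e / k - 2) else 1 - clamp01 (5 * h e / k - 2)) ∧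
      (if e ∈ A then clamp01 (5 * h e / k - 2) else 1 - clamp01 (5 * h e / k - 2)) ≤ 1 := by
    intro e _
    have := clamp01_mem (5 * h e / k - 2)
    split_ifs
    · exact this
    · constructor <;> linarith
  exact ⟨Finset.prod_nonneg fun e he => (hfac e he).1,
    Finset.prod_le_one (fun e he => (hfac e he).1) fun e he => (hfac e he).2⟩

open Classical in
lemma obsPat_lip (S A : Finset (Sym2 V)) {k : ℕ} (hk : 1 ≤ k) (h g : Sym2 V → ℝ) :
    |obsPat S A k h - obsPat S A k g| ≤ 5 * ∑ e ∈ S, |h e - g e| := by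
  have hfac : ∀ (h : Sym2 V → ℝ), ∀ e ∈ S, (0 : ℝ) ≤
      (if e ∈ A then clamp01 (5 * h e / k - 2) else 1 - clamp01 (5 * h e / k - 2)) ∧
      (if e ∈ A then clamp01 (5 * h e / k - 2) else 1 - clamp01 (5 * h e / k - 2)) ≤ 1 := by
    intro h e _
    have := clamp01_mem (5 * h e / k - 2)
    split_ifs
    · exact this
    · constructor <;> linarith
  refine (abs_prod_sub_prod_le S _ _ (hfac h) (hfac g)).trans ?_
  rw [Finset.mul_sum]
  refine Finset.sum_le_sum fun e _ => ?_
  have h1 := clamp01_lip (5 * h e / k - 2) (5 * g e / k - 2)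
  have h2 : |5 * h e / k - 2 - (5 * g e / k - 2)| ≤ 5 * |h e - g e| := by
    rw [show 5 * h e / k - 2 - (5 * g e / k - 2) = 5 * (h e - g e) / k by ring, abs_div, abs_mul,
      Nat.abs_cast, abs_of_pos (by norm_num : (0 : ℝ) < 5)]
    exact div_le_self (by positivity) (by exact_mod_cast hk)
  split_ifs
  · exact h1.trans h2
  · rw [show (1 - clamp01 (5 * h e / k - 2)) - (1 - clamp01 (5 * g e / k - 2)) =
      -(clamp01 (5 * h e / k - 2) - clamp01 (5 * g e / k - 2)) by ring, abs_neg]
    exact h1.trans h2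

lemma obsBad_lip (e : Sym2 V) {k : ℕ} (hk : 1 ≤ k) (h g : Sym2 V → ℝ) :
    |obsBad e k h - obsBad e k g| ≤ 20 * |h e - g e| := by
  refine (clamp01_lip _ _).trans ?_
  rw [show 20 * min |h e / k| |h e / k - 1| - 1 - (20 * min |g e / k| |g e / k - 1| - 1) =
    20 * (min |h e / k| |h e / k - 1| - min |g e / k| |g e / k - 1|) by ring, abs_mul,
    abs_of_pos (by norm_num : (0 : ℝ) < 20)]
  refine mul_le_mul_of_nonneg_left ((abs_min_sub_min_le_max _ _ _ _).trans ?_) (by norm_num)
  have hd : |h e / k - g e / k| ≤ |h e - g e| := by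
    rw [← sub_div, abs_div, Nat.abs_cast]
    exact div_le_self (abs_nonneg _) (by exact_mod_cast hk)
  refine max_le ((abs_abs_sub_abs_le_abs_sub _ _).trans hd)
    ((abs_abs_sub_abs_le_abs_sub _ _).trans ?_)
  rwa [sub_sub_sub_cancel_right]

section law

variable [Countable V] [DecidableEq V] {G : SimpleGraph V}

lemma hfin_of_locallyFinite (hlf : ∀ v, (G.neighborSet v).Finite) (x : V) :
    {f | f ∈ G.edgeSet ∧ x ∈ f}.Finite := by
  refine ((hlf x).image fun y => s(x, y)).subset ?_
  rintro f ⟨hf, hx⟩
  obtain ⟨y, rfl⟩ := Sym2.mem_iff_exists.1 hx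
  exact ⟨y, hf, rfl⟩

lemma subgraph_edges_finite {H : G.Subgraph} (hH : H.verts.Finite) : H.edgeSet.Finite := by
  refine ((hH.prod hH).image fun p => s(p.1, p.2)).subset ?_
  intro f hf
  induction f using Sym2.ind with
  | _ a b => exact ⟨(a, b), ⟨H.edge_vert hf, H.edge_vert hf.symm⟩, rfl⟩

/-- Limit of a smoothed observable along an exhaustion. -/
lemma tendsto_expect (hlf : ∀ v, (G.neighborSet v).Finite) {H : ℕ → G.Subgraph}
    (hex : IsExhaustion G H) (En : ℕ → Finset (Sym2 V))
    (hEn : ∀ n f, f ∈ En n ↔ f ∈ (H n).edgeSet) (k : ℕ) (F : (Sym2 V → ℝ) → ℝ)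
    (T : Finset (Sym2 V)) (hT : ∀ f ∈ T, f ∈ G.edgeSet) (hF1 : ∀ h, |F h| ≤ 1) (hFm : Measurable F)
    {L : ℝ} (hL : 0 ≤ L) (hFlip : ∀ h g, |F h - F g| ≤ L * ∑ e ∈ T, |h e - g e|) :
    Tendsto (fun n => (treeModel (hex.2.1 n).1 (hex.2.1 n).2.nonempty
        (finiteGraph_of_subgraph (hEn n))
        (connected_edge_reachable (hEn n) (hex.2.1 n).2)).expect k
          (fun h => F (ext (En n) h)))
      atTop (𝓝 (∫ U, F (fun e => sol G.edgeSet U k e) ∂iidLabels V)) := by
  classical
  have hfin := hfin_of_locallyFinite hlf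
  have hloop : Loopless G.edgeSet := fun e he => G.not_isDiag_of_mem_edgeSet he
  have hexh : EdgeExhaustion G.edgeSet En := by
    refine ⟨fun n f hf => (H n).edgeSet_subset ((hEn n f).1 hf), fun f hf => ?_⟩
    obtain ⟨n, hn⟩ := hex.2.2.2 f hf
    exact eventually_atTop.2 ⟨n, fun m hm =>
      (hEn m f).2 (SimpleGraph.Subgraph.edgeSet_mono (hex.1 hm) hn)⟩
  have hTev : ∀ᶠ n in atTop, ∀ f ∈ T, f ∈ En n :=
    (Finset.eventually_all T).2 fun f hf => hexh.eventually_mem f (hT f hf)
  let Xn : ℕ → (V → unitInterval) → Sym2 V → ℝ := fun n U e =>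
    pathB G.edgeSet U k e + drift (En n : Set (Sym2 V)) (pathB G.edgeSet U) k e
  have hEm : ∀ f, MeasurableSet {_a : V → unitInterval | f ∈ G.edgeSet} := fun f => by
    by_cases hf : f ∈ G.edgeSet <;> simp [hf]
  have hXm : ∀ n, Measurable (Xn n) := by
    intro n
    refine measurable_pi_iff.2 fun e => ?_
    exact (measurable_pathB_at (E := fun _ => G.edgeSet) (U := id) hEm measurable_id k e).add
      (measurable_drift_at (E := fun _ => (En n : Set (Sym2 V))) (B := fun U => pathB G.edgeSet U)
        (fun f => by by_cases hf : f ∈ (En n : Set (Sym2 V)) <;> simp [hf])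
        (measurable_pathB (E := fun _ => G.edgeSet) (U := id) hEm measurable_id) k e)
  have hcongr : ∀ h g : Sym2 V → ℝ, (∀ e ∈ T, h e = g e) → F h = F g := by
    intro h g hhg
    have h0 : ∑ e ∈ T, |h e - g e| = 0 := Finset.sum_eq_zero fun e he => by simp [hhg e he]
    have := hFlip h g
    rw [h0, mul_zero, abs_nonpos_iff, sub_eq_zero] at this
    exact this
  have hlim : Tendsto (fun n => ∫ U, F (Xn n U) ∂iidLabels V) atTop
      (𝓝 (∫ U, F (fun e => sol G.edgeSet U k e) ∂iidLabels V)) := by
    have : IsProbabilityMeasure (iidLabels V) := by unfold iidLabels; infer_instance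
    refine tendsto_integral_of_dominated_convergence (fun _ => 1)
      (fun n => (hFm.comp (hXm n)).aestronglyMeasurable) (integrable_const _)
      (fun n => ae_of_all _ fun U => by simpa using hF1 _) (ae_of_all _ fun U => ?_)
    have hsum : Tendsto (fun n => L * ∑ e ∈ T, |Xn n U e - sol G.edgeSet U k e|) atTop (𝓝 0) := by
      have : Tendsto (fun n => ∑ e ∈ T, |Xn n U e - sol G.edgeSet U k e|) atTop (𝓝 0) := by
        rw [← Finset.sum_const_zero (s := T)]
        refine tendsto_finsetSum _ fun e _ => ?_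
        have h := ((tendsto_drift hexh hloop hfin (measurable_pathB_fixed G.edgeSet U) e
          (Nat.cast_nonneg k)).const_add (pathB G.edgeSet U k e)).sub_const
            (sol G.edgeSet U k e)
        simpa [Xn, sol] using h.abs
      simpa using this.const_mul L
    refine tendsto_iff_norm_sub_tendsto_zero.2
      (squeeze_zero (fun n => norm_nonneg _) (fun n => ?_) hsum)
    exact hFlip _ _
  refine hlim.congr' ?_
  filter_upwards [hTev] with n hn
  have : IsProbabilityMeasure (iidLabels V) := by unfold iidLabels; infer_instance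
  have hextm : Measurable (ext (En n) : (En n → ℝ) → Sym2 V → ℝ) := by
    refine measurable_pi_iff.2 fun f => ?_
    by_cases hf : f ∈ En n
    · simp only [ext, hf, dif_pos]; exact measurable_pi_apply _
    · simp only [ext, hf, dif_neg, not_false_iff]; exact measurable_const
  have hobs : Obs fun h : En n → ℝ => F (ext (En n) h) := ⟨hFm.comp hextm, fun h => hF1 _⟩
  have hlip : ∀ h g : En n → ℝ,
      |F (ext (En n) h) - F (ext (En n) g)| ≤ L * ∑ i, |h i - g i| := by
    intro h g
    refine (hFlip _ _).trans (mul_le_mul_of_nonneg_left ?_ hL)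
    calc ∑ e ∈ T, |ext (En n) h e - ext (En n) g e|
        ≤ ∑ e ∈ En n, |ext (En n) h e - ext (En n) g e| :=
          Finset.sum_le_sum_of_subset_of_nonneg hn fun _ _ _ => abs_nonneg _
      _ = ∑ i : En n, |h i - g i| := by
          rw [← Finset.sum_coe_sort]
          exact Finset.sum_congr rfl fun i _ => by rw [ext_apply, ext_apply]
  rw [← integral_finite hfin hloop (fun e he => hexh.subset n e he) (hex.2.1 n).1
    (hex.2.1 n).2.nonempty (finiteGraph_of_subgraph (hEn n))
    (connected_edge_reachable (hEn n) (hex.2.1 n).2) k hobs hL hlip]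
  congr 1
  funext U
  exact hcongr _ _ fun e he => by simp [Xn, ext, hn e he]

lemma summable_gauss_tail {c : ℝ} (hc : 0 < c) (C : ℝ) :
    Summable fun k : ℕ => C * Real.exp (-c * k) :=
  (Real.summable_exp_nat_mul_iff.2 (neg_neg_of_pos hc)).congr
    (fun k => by rw [mul_comm]) |>.mul_left C

lemma ustProb_eq {H : G.Subgraph} {S : Finset (Sym2 V)} (hS : ∀ f, f ∈ S ↔ f ∈ H.edgeSet)
    (P : Finset (Sym2 V) → Prop) [DecidablePred P] :
    ustProb H P = ((trees H.verts S).filter P).card / (trees H.verts S).card := by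
  unfold ustProb
  congr 2
  · rw [← Set.ncard_coe_finset]
    congr 1
    ext T
    simp [isSpanningTree_iff hS, mem_trees]
  · rw [← Set.ncard_coe_finset]
    congr 1
    ext T
    simp [isSpanningTree_iff hS, mem_trees]

end law

end Vale.Agent.P143
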