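import Vale.Agent.P143.Limit

/-!
Pathwise solution of `D' = marg (B + D)` by Picard iteration in the sup distance.
-/

namespace Vale.Agent.P143

open MeasureTheory Filter Topology
open scoped Nat

variable {V W : Type}

/-- Picard iterates -/
noncomputable def iter (E : Set (Sym2 V)) (B : ℝ → Sym2 V → ℝ) : ℕ → ℝ → Sym2 V → ℝ
  | 0 => fun _ _ => 0
  | j + 1 => fun t e => ∫ s in Set.Ioc (0 : ℝ) t, marg E e (fun f => B s f + iter E B j s f)

/-- the drift -/
noncomputable def drift (E : Set (Sym2 V)) (B : ℝ → Sym2 V → ℝ) (t : ℝ) (e : Sym2 V) : ℝ :=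
  limsup (fun j => iter E B j t e) atTop

lemma measurable_iter [Countable V] {α : Type} [MeasurableSpace α] {E : α → Set (Sym2 V)}
    {B : α → ℝ → Sym2 V → ℝ} (hE : ∀ f, MeasurableSet {a | f ∈ E a})
    (hB : Measurable fun p : ℝ × α => B p.2 p.1) :
    ∀ j, Measurable fun p : ℝ × α => iter (E p.2) (B p.2) j p.1 := by
  intro j
  induction j with
  | zero => exact measurable_const
  | succ j ih =>
    refine measurable_pi_iff.2 fun e => ?_
    have hint : ∀ p : ℝ × α, iter (E p.2) (B p.2) (j + 1) p.1 e =
        ∫ s, (Set.Ioc (0 : ℝ) p.1).indicator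
          (fun s => marg (E p.2) e (fun f => B p.2 s f + iter (E p.2) (B p.2) j s f)) s := fun p =>
      (integral_indicator measurableSet_Ioc).symm
    simp only [hint]
    have hF : Measurable fun q : (ℝ × α) × ℝ => (Set.Ioc (0 : ℝ) q.1.1).indicator
        (fun s => marg (E q.1.2) e (fun f => B q.1.2 s f + iter (E q.1.2) (B q.1.2) j s f)) q.2 := by
      have hm : Measurable fun q : (ℝ × α) × ℝ =>
          marg (E q.1.2) e (fun f => B q.1.2 q.2 f + iter (E q.1.2) (B q.1.2) j q.2 f) := by
        have hpair : Measurable fun q : (ℝ × α) × ℝ => (q.2, q.1.2) := by fun_prop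
        exact measurable_marg (E := fun q : (ℝ × α) × ℝ => E q.1.2)
          (fun f => (hE f).preimage (measurable_snd.comp measurable_fst))
          ((hB.comp hpair).add (ih.comp hpair)) e
      have hset : MeasurableSet {q : (ℝ × α) × ℝ | 0 < q.2 ∧ q.2 ≤ q.1.1} :=
        (measurableSet_lt measurable_const measurable_snd).inter
          (measurableSet_le measurable_snd (measurable_fst.comp measurable_fst))
      exact hm.indicator hset
    exact (hF.stronglyMeasurable.integral_prod_right
      (ν := (volume : Measure ℝ))).measurable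

lemma measurable_drift [Countable V] {α : Type} [MeasurableSpace α] {E : α → Set (Sym2 V)}
    {B : α → ℝ → Sym2 V → ℝ} (hE : ∀ f, MeasurableSet {a | f ∈ E a})
    (hB : Measurable fun p : ℝ × α => B p.2 p.1) :
    Measurable fun p : ℝ × α => drift (E p.2) (B p.2) p.1 :=
  measurable_pi_iff.2 fun e => Measurable.limsup fun j =>
    (measurable_pi_apply e).comp (measurable_iter hE hB j)

section path

variable [Countable V] {E : Set (Sym2 V)} {B : ℝ → Sym2 V → ℝ}

lemma measurable_iter_path (hB : Measurable B) (j : ℕ) : Measurable (iter E B j) :=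
  (measurable_iter (α := Unit) (E := fun _ => E) (B := fun _ => B) (fun f => by simp)
    (hB.comp measurable_fst) j).comp (measurable_id.prodMk (measurable_const (a := ())))

lemma measurable_marg_path {D : ℝ → Sym2 V → ℝ} (hB : Measurable B) (hD : Measurable D)
    (e : Sym2 V) : Measurable fun s => marg E e (fun f => B s f + D s f) :=
  (measurable_marg_fixed E e).comp (hB.add hD)

lemma integrableOn_marg_path {D : ℝ → Sym2 V → ℝ} (hE : Loopless E) (hB : Measurable B)
    (hD : Measurable D) (e : Sym2 V) (a b : ℝ) :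
    IntegrableOn (fun s => marg E e (fun f => B s f + D s f)) (Set.Ioc a b) := by
  refine IntegrableOn.of_bound measure_Ioc_lt_top (measurable_marg_path hB hD e).aestronglyMeasurable
    1 (ae_of_all _ fun s => ?_)
  rw [Real.norm_eq_abs, abs_of_nonneg (marg_nonneg _ _ _)]
  exact marg_le_one hE _ _

lemma iter_mono (hE : Loopless E) (hB : Measurable B) (j : ℕ) (e : Sym2 V) {t t' : ℝ}
    (ht : 0 ≤ t) (htt : t ≤ t') :
    0 ≤ iter E B j t' e - iter E B j t e ∧ iter E B j t' e - iter E B j t e ≤ t' - t := by
  cases j with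
  | zero => simp [iter, htt]
  | succ j =>
    have hI := integrableOn_marg_path hE hB (measurable_iter_path (E := E) hB j) e
    simp only [iter]
    rw [← Set.Ioc_union_Ioc_eq_Ioc ht htt,
      setIntegral_union (Set.Ioc_disjoint_Ioc_of_le le_rfl) measurableSet_Ioc (hI _ _) (hI _ _),
      add_sub_cancel_left]
    refine ⟨setIntegral_nonneg measurableSet_Ioc fun s _ => marg_nonneg _ _ _, ?_⟩
    calc ∫ s in Set.Ioc t t', marg E e (fun f => B s f + iter E B j s f)
        ≤ ∫ _ in Set.Ioc t t', (1 : ℝ) :=
          setIntegral_mono (hI _ _) (integrableOn_const measure_Ioc_lt_top.ne)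
            fun s => marg_le_one hE _ _
      _ = t' - t := by simp [htt]

omit [Countable V] in
lemma iter_zero_time (j : ℕ) (e : Sym2 V) : iter E B j 0 e = 0 := by
  cases j <;> simp [iter]

lemma iter_abs_le (hE : Loopless E) (hB : Measurable B) (j : ℕ) (e : Sym2 V) {t : ℝ}
    (ht : 0 ≤ t) : |iter E B j t e| ≤ t := by
  obtain ⟨h1, h2⟩ := iter_mono hE hB j e le_rfl ht
  rw [iter_zero_time, sub_zero] at h1 h2
  rw [abs_of_nonneg h1]
  linarith

lemma iter_diff (hE : Loopless E) (hB : Measurable B) :
    ∀ (j : ℕ) (e : Sym2 V) {t : ℝ}, 0 ≤ t →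
      |iter E B (j + 1) t e - iter E B j t e| ≤ 2 ^ j * t ^ (j + 1) / j ! := by
  intro j
  induction j with
  | zero =>
    intro e t ht
    simpa [iter_zero_time, iter] using iter_abs_le hE hB 1 e ht
  | succ j ih =>
    intro e t ht
    have hI := fun k => integrableOn_marg_path hE hB (measurable_iter_path (E := E) hB k) e 0 t
    show |(∫ s in Set.Ioc (0 : ℝ) t, marg E e (fun f => B s f + iter E B (j + 1) s f)) -
      ∫ s in Set.Ioc (0 : ℝ) t, marg E e (fun f => B s f + iter E B j s f)| ≤ _
    rw [← integral_sub (hI _) (hI _)]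
    calc |∫ s in Set.Ioc (0 : ℝ) t, (marg E e (fun f => B s f + iter E B (j + 1) s f) -
          marg E e (fun f => B s f + iter E B j s f))|
        ≤ ∫ s in Set.Ioc (0 : ℝ) t, 2 * (2 ^ j * s ^ (j + 1) / j !) := by
          refine le_trans (le_of_eq (Real.norm_eq_abs _).symm)
            (norm_integral_le_of_norm_le ?_ ?_)
          · exact (Continuous.integrableOn_Icc (by fun_prop)).mono_set Set.Ioc_subset_Icc_self
          · filter_upwards [ae_restrict_mem measurableSet_Ioc] with s hs
            rw [Real.norm_eq_abs]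
            refine marg_lipschitz hE e (by have := hs.1; positivity) fun f _ => ?_
            rw [add_sub_add_left_eq_sub]
            exact ih f hs.1.le
      _ = 2 ^ (j + 1) * (t ^ (j + 2) / (j + 2)) / j ! := by
          rw [integral_const_mul, integral_div, integral_const_mul,
            ← intervalIntegral.integral_of_le ht, integral_pow]
          push_cast
          ring
      _ ≤ 2 ^ (j + 1) * t ^ (j + 1 + 1) / (j + 1)! := by
          rw [Nat.factorial_succ, Nat.cast_mul, mul_div_assoc, mul_div_assoc, div_div]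
          refine mul_le_mul_of_nonneg_left (div_le_div_of_nonneg_left (by positivity)
            (by positivity) ?_) (by positivity)
          push_cast
          have hj : (0 : ℝ) ≤ (j ! : ℝ) := Nat.cast_nonneg _
          nlinarith

lemma summable_picard_bound (t : ℝ) : Summable fun j : ℕ => 2 ^ j * t ^ (j + 1) / (j ! : ℝ) := by
  refine ((Real.summable_pow_div_factorial (2 * t)).mul_left t).congr fun j => ?_
  rw [mul_pow, pow_succ]; ring

/-- tail of the Picard bound -/
noncomputable def tail (t : ℝ) (j : ℕ) : ℝ :=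
  ∑' i : ℕ, 2 ^ (i + j) * t ^ (i + j + 1) / ((i + j)! : ℝ)

lemma tail_tendsto (t : ℝ) : Tendsto (tail t) atTop (𝓝 0) :=
  tendsto_sum_nat_add fun j => 2 ^ j * t ^ (j + 1) / (j ! : ℝ)

lemma tail_mono {s t : ℝ} (hs : 0 ≤ s) (hst : s ≤ t) (j : ℕ) : tail s j ≤ tail t j := by
  refine Summable.tsum_le_tsum (fun i => by gcongr) ?_ ?_
  · exact (summable_nat_add_iff j).2 (summable_picard_bound s)
  · exact (summable_nat_add_iff j).2 (summable_picard_bound t)

lemma tendsto_iter (hE : Loopless E) (hB : Measurable B) (e : Sym2 V) {t : ℝ} (ht : 0 ≤ t) :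
    Tendsto (fun j => iter E B j t e) atTop (𝓝 (drift E B t e)) ∧
      ∀ j, |iter E B j t e - drift E B t e| ≤ tail t j := by
  have hd : ∀ j, dist (iter E B j t e) (iter E B (j + 1) t e) ≤ 2 ^ j * t ^ (j + 1) / j ! :=
    fun j => by rw [dist_comm, Real.dist_eq]; exact iter_diff hE hB j e ht
  obtain ⟨l, hl⟩ := cauchySeq_tendsto_of_complete
    (cauchySeq_of_dist_le_of_summable _ hd (summable_picard_bound t))
  rw [show drift E B t e = l from hl.limsup_eq]
  refine ⟨hl, fun j => ?_⟩
  have := dist_le_tsum_of_dist_le_of_tendsto _ hd (summable_picard_bound t) hl j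
  rw [Real.dist_eq] at this
  refine this.trans (le_of_eq ?_)
  unfold tail
  exact tsum_congr fun i => by rw [add_comm j i]

lemma drift_mono (hE : Loopless E) (hB : Measurable B) (e : Sym2 V) {t t' : ℝ}
    (ht : 0 ≤ t) (htt : t ≤ t') :
    0 ≤ drift E B t' e - drift E B t e ∧ drift E B t' e - drift E B t e ≤ t' - t := by
  have h := (tendsto_iter hE hB e (ht.trans htt)).1.sub (tendsto_iter hE hB e ht).1
  exact ⟨ge_of_tendsto h (Eventually.of_forall fun j => (iter_mono hE hB j e ht htt).1),
    le_of_tendsto h (Eventually.of_forall fun j => (iter_mono hE hB j e ht htt).2)⟩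

omit [Countable V] in
lemma drift_zero_time (e : Sym2 V) : drift E B 0 e = 0 := by
  simp [drift, iter_zero_time]

lemma measurable_drift_path (hB : Measurable B) : Measurable (drift E B) :=
  measurable_pi_iff.2 fun e => Measurable.limsup fun j =>
    (measurable_pi_apply e).comp (measurable_iter_path hB j)

lemma drift_eq (hE : Loopless E) (hB : Measurable B) (e : Sym2 V) {t : ℝ} (ht : 0 ≤ t) :
    drift E B t e = ∫ s in Set.Ioc (0 : ℝ) t, marg E e (fun f => B s f + drift E B s f) := by
  refine tendsto_nhds_unique ((tendsto_iter hE hB e ht).1.comp (tendsto_add_atTop_nat 1)) ?_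
  show Tendsto (fun j => ∫ s in Set.Ioc (0 : ℝ) t, marg E e (fun f => B s f + iter E B j s f))
    atTop _
  refine tendsto_integral_of_dominated_convergence (fun _ => 1)
    (fun j => (measurable_marg_path hB (measurable_iter_path hB j) e).aestronglyMeasurable)
    (integrableOn_const measure_Ioc_lt_top.ne)
    (fun j => ae_of_all _ fun s => by
      rw [Real.norm_eq_abs, abs_of_nonneg (marg_nonneg _ _ _)]; exact marg_le_one hE _ _) ?_
  filter_upwards [ae_restrict_mem measurableSet_Ioc] with s hs
  refine tendsto_iff_norm_sub_tendsto_zero.2 (squeeze_zero (fun j => norm_nonneg _) (fun j => ?_)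
    (by simpa using (tail_tendsto t).const_mul 2))
  rw [Real.norm_eq_abs]
  refine marg_lipschitz hE e ((abs_nonneg _).trans
      (((tendsto_iter hE hB e hs.1.le).2 j).trans (tail_mono hs.1.le hs.2 j))) fun f _ => ?_
  rw [add_sub_add_left_eq_sub]
  exact ((tendsto_iter hE hB f hs.1.le).2 j).trans (tail_mono hs.1.le hs.2 j)

end path

/-- Convergence of the drift along exhaustions. -/
lemma tendsto_drift [Countable V] {E : Set (Sym2 V)} {En : ℕ → Finset (Sym2 V)}
    (hEn : EdgeExhaustion E En) (hE : Loopless E)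
    (hfin : ∀ x : V, {f | f ∈ E ∧ x ∈ f}.Finite) {B : ℝ → Sym2 V → ℝ} (hB : Measurable B)
    (e : Sym2 V) {t : ℝ} (ht : 0 ≤ t) :
    Tendsto (fun n => drift (En n : Set (Sym2 V)) B t e) atTop (𝓝 (drift E B t e)) := by
  have hEn' : ∀ n, Loopless (En n : Set (Sym2 V)) := fun n f hf => hE f (hEn.subset n f hf)
  have hiter : ∀ (j : ℕ) (t : ℝ) (f : Sym2 V), 0 ≤ t →
      Tendsto (fun n => iter (En n : Set (Sym2 V)) B j t f) atTop (𝓝 (iter E B j t f)) := by
    intro j
    induction j with
    | zero => intro t f _; exact tendsto_const_nhds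
    | succ j ih =>
      intro t f ht
      refine tendsto_integral_of_dominated_convergence (fun _ => 1)
        (fun n => (measurable_marg_path hB (measurable_iter_path hB j) f).aestronglyMeasurable)
        (integrableOn_const measure_Ioc_lt_top.ne)
        (fun n => ae_of_all _ fun s => by
          rw [Real.norm_eq_abs, abs_of_nonneg (marg_nonneg _ _ _)]
          exact marg_le_one (hEn' n) _ _) ?_
      filter_upwards [ae_restrict_mem measurableSet_Ioc] with s hs
      refine tendsto_marg hEn hE hfin (fun g _ => (ih s g hs.1.le).const_add (B s g)) (M := 2 * t)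
        (fun n g _ => ?_) f
      have h1 := abs_le.1 (iter_abs_le (hEn' n) hB j g hs.1.le)
      have h2 := abs_le.1 (iter_abs_le hE hB j g hs.1.le)
      linarith [hs.2]
  rw [Metric.tendsto_atTop]
  intro ε hε
  obtain ⟨j, hj⟩ := ((tail_tendsto t).eventually_lt_const (show 0 < ε / 3 by linarith)).exists
  obtain ⟨N, hN⟩ := Metric.tendsto_atTop.1 (hiter j t e ht) (ε / 3) (by linarith)
  refine ⟨N, fun n hn => ?_⟩
  have h1 := abs_le.1 ((tendsto_iter (hEn' n) hB e ht).2 j)
  have h2 := abs_le.1 ((tendsto_iter hE hB e ht).2 j)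
  have h3 := abs_lt.1 (hN n hn)
  rw [Real.dist_eq, abs_lt]
  constructor <;> linarith

/-- equivariance of the drift -/
lemma drift_map (σ : V ≃ W) (E : Set (Sym2 V)) (B : ℝ → Sym2 W → ℝ) (t : ℝ) (e : Sym2 V) :
    drift (Sym2.map σ '' E) B t (e.map σ) =
      drift E (fun s f => B s (f.map σ)) t e := by
  have h : ∀ (j : ℕ) (t : ℝ) (e : Sym2 V), iter (Sym2.map σ '' E) B j t (e.map σ) =
      iter E (fun s f => B s (f.map σ)) j t e := by
    intro j
    induction j with
    | zero => intro t e; rfl
    | succ j ih =>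
      intro t e
      simp only [iter, marg_map, ih]
  simp only [drift, h]

end Vale.Agent.P143
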