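import Mathlib

/-!
Elementary transformations of countable products of probability measures.
-/

namespace Vale.Agent.P143

open MeasureTheory ProbabilityTheory Set
open scoped NNReal ENNReal

/-- the standard Gaussian measure on the line -/
noncomputable abbrev stdG : Measure ℝ := gaussianReal 0 1

section zip

variable {ι : Type} {α β : Type} [MeasurableSpace α] [MeasurableSpace β]
  (μ : ι → Measure α) (ν : ι → Measure β) [∀ i, IsProbabilityMeasure (μ i)]
  [∀ i, IsProbabilityMeasure (ν i)]

/-- zip two families -/
def zipPi (p : (ι → α) × (ι → β)) : ι → α × β := fun i => (p.1 i, p.2 i)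

lemma measurable_zipPi : Measurable (zipPi (ι := ι) (α := α) (β := β)) := by
  unfold zipPi; fun_prop

lemma map_zipPi :
    ((Measure.infinitePi μ).prod (Measure.infinitePi ν)).map zipPi =
      Measure.infinitePi fun i => (μ i).prod (ν i) := by
  refine (Measure.isProjectiveLimit_infinitePi (fun i => (μ i).prod (ν i))).unique ?_ |>.symm
  intro s
  rw [Measure.map_map (Finset.measurable_restrict s) measurable_zipPi]
  have h1 : (Finset.restrict s ∘ zipPi (ι := ι) (α := α) (β := β)) =
      (fun p : (s → α) × (s → β) => fun i => (p.1 i, p.2 i)) ∘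
        Prod.map (Finset.restrict s) (Finset.restrict s) := by
    funext p i; rfl
  rw [h1, ← Measure.map_map (by fun_prop) (by fun_prop),
    ← Measure.map_prod_map _ _ (Finset.measurable_restrict s) (Finset.measurable_restrict s),
    Measure.infinitePi_map_restrict, Measure.infinitePi_map_restrict]
  exact (measurePreserving_arrowProdEquivProdArrow α β s (fun i => μ i) (fun i => ν i)).symm.map_eq

lemma map_unzipPi :
    (Measure.infinitePi fun i => (μ i).prod (ν i)).map
        (fun z => ((fun i => (z i).1), fun i => (z i).2)) =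
      (Measure.infinitePi μ).prod (Measure.infinitePi ν) := by
  rw [← map_zipPi, Measure.map_map (by fun_prop) measurable_zipPi]
  exact Measure.map_id

end zip

section interleave

variable {α : Type} [MeasurableSpace α] (μ : Measure α) [IsProbabilityMeasure μ]

/-- interleave two sequences -/
def interleave (p : (ℕ → α) × (ℕ → α)) : ℕ → α :=
  fun n => if n % 2 = 0 then p.1 (n / 2) else p.2 (n / 2)

lemma measurable_interleave : Measurable (interleave (α := α)) := by
  refine measurable_pi_iff.2 fun n => ?_
  by_cases h : n % 2 = 0 <;> simp only [interleave, h, if_true, if_false] <;> fun_prop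

lemma map_interleave :
    ((Measure.infinitePi fun _ : ℕ => μ).prod (Measure.infinitePi fun _ : ℕ => μ)).map interleave =
      Measure.infinitePi fun _ : ℕ => μ := by
  refine Measure.eq_infinitePi _ fun s t ht => ?_
  rw [Measure.map_apply measurable_interleave (.pi s.countable_toSet fun i _ => ht i)]
  set sE := (s.filter (fun n => n % 2 = 0)).image (· / 2) with hE
  set sO := (s.filter (fun n => ¬ n % 2 = 0)).image (· / 2) with hO
  have : interleave ⁻¹' ((s : Set ℕ).pi t) =
      ((sE : Set ℕ).pi fun k => t (2 * k)) ×ˢ ((sO : Set ℕ).pi fun k => t (2 * k + 1)) := by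
    ext p
    simp only [mem_preimage, Set.mem_pi, Finset.mem_coe, mem_prod, hE, hO, Finset.mem_image,
      Finset.mem_filter, forall_exists_index, and_imp]
    constructor
    · intro h
      constructor
      · intro k n hn hn2 hk
        have := h n hn
        simp only [interleave, if_pos hn2, hk] at this
        rwa [show 2 * k = n by omega]
      · intro k n hn hn2 hk
        have := h n hn
        simp only [interleave, if_neg hn2, hk] at this
        rwa [show 2 * k + 1 = n by omega]
    · rintro ⟨h1, h2⟩ n hn
      by_cases hn2 : n % 2 = 0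
      · have := h1 (n / 2) n hn hn2 rfl
        simp only [interleave, if_pos hn2]
        rwa [show 2 * (n / 2) = n by omega] at this
      · have := h2 (n / 2) n hn hn2 rfl
        simp only [interleave, if_neg hn2]
        rwa [show 2 * (n / 2) + 1 = n by omega] at this
  rw [this, Measure.prod_prod, Measure.infinitePi_pi _ fun i _ => ht _,
    Measure.infinitePi_pi _ fun i _ => ht _, hE, hO, Finset.prod_image, Finset.prod_image,
    ← Finset.prod_filter_mul_prod_filter_not s (fun n => n % 2 = 0)]
  · congr 1 <;>
    · refine Finset.prod_congr rfl fun n hn => ?_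
      have := (Finset.mem_filter.1 hn).2
      congr 2
      omega
  · intro a ha b hb hab
    simp only [Finset.coe_filter, mem_ofPred_eq] at ha hb
    simp only at hab
    omega
  · intro a ha b hb hab
    simp only [Finset.coe_filter, mem_ofPred_eq] at ha hb
    simp only at hab
    omega

end interleave

section headTail

variable {α : Type} [MeasurableSpace α] (μ : Measure α) [IsProbabilityMeasure μ]

lemma map_head_tail :
    (Measure.infinitePi fun _ : ℕ => μ).map (fun z => (z 0, fun k => z (k + 1))) =
      μ.prod (Measure.infinitePi fun _ : ℕ => μ) := by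
  let cons : α × (ℕ → α) → ℕ → α := fun p n => Nat.casesOn n p.1 p.2
  have hc : Measurable cons := by
    refine measurable_pi_iff.2 fun n => ?_
    cases n <;> simp only [cons] <;> fun_prop
  have h : (μ.prod (Measure.infinitePi fun _ : ℕ => μ)).map cons =
      Measure.infinitePi fun _ : ℕ => μ := by
    refine Measure.eq_infinitePi _ fun s t ht => ?_
    rw [Measure.map_apply hc (.pi s.countable_toSet fun i _ => ht i)]
    set s' := (s.filter (fun n => n ≠ 0)).image (· - 1) with hs'
    have : cons ⁻¹' ((s : Set ℕ).pi t) =
        (if 0 ∈ s then t 0 else univ) ×ˢ ((s' : Set ℕ).pi fun k => t (k + 1)) := by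
      ext p
      simp only [mem_preimage, Set.mem_pi, Finset.mem_coe, mem_prod, hs', Finset.mem_image,
        Finset.mem_filter, forall_exists_index, and_imp]
      constructor
      · intro h
        constructor
        · split_ifs with h0
          · exact h 0 h0
          · exact mem_univ _
        · rintro k (_ | n) hn hn0 hk
          · exact absurd rfl hn0
          · obtain rfl : n = k := by omega
            exact h (n + 1) hn
      · rintro ⟨h1, h2⟩ (_ | n) hn
        · rw [if_pos hn] at h1; exact h1
        · exact h2 n (n + 1) hn (by simp) (by simp)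
    rw [this, Measure.prod_prod, Measure.infinitePi_pi _ fun i _ => ht _, hs', Finset.prod_image]
    · rw [← Finset.prod_filter_mul_prod_filter_not s (fun n => n ≠ 0), mul_comm]
      congr 1
      · refine Finset.prod_congr rfl fun n hn => ?_
        have := (Finset.mem_filter.1 hn).2
        congr 2
        omega
      · by_cases h0 : 0 ∈ s
        · rw [if_pos h0, show s.filter (fun n => ¬ n ≠ 0) = {0} by ext n; simp; aesop]
          simp
        · rw [if_neg h0, show s.filter (fun n => ¬ n ≠ 0) = ∅ by ext n; simp; aesop]
          simp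
    · intro a ha b hb hab
      simp only [Finset.coe_filter, mem_ofPred_eq] at ha hb
      simp only at hab
      omega
  conv_lhs => rw [← h]
  rw [Measure.map_map (by fun_prop) hc]
  exact Measure.map_id

end headTail

/-- `(a, b) ↦ ((a + b)/√2, (a - b)/√2)` preserves the standard Gaussian pair. -/
lemma map_haar_rotation :
    (stdG.prod stdG).map (fun p : ℝ × ℝ => ((p.1 + p.2) / √2, (p.1 - p.2) / √2)) =
      stdG.prod stdG := by
  have h0 : (stdG)[id] = 0 := by simp [integral_id_gaussianReal]
  have hrot := IsGaussian.map_rotation_eq_self h0 (Real.pi / 4)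
  have hneg : (stdG.prod stdG).map (Prod.map id fun x : ℝ => -x) = stdG.prod stdG := by
    rw [← Measure.map_prod_map _ _ measurable_id (by fun_prop), gaussianReal_map_neg, Measure.map_id,
      neg_zero]
  conv_rhs => rw [← hneg, ← hrot]
  rw [Measure.map_map (by fun_prop) (by fun_prop)]
  congr 1
  funext p
  simp only [Function.comp, ContinuousLinearMap.rotation_apply, Prod.map, id, smul_eq_mul,
    Real.cos_pi_div_four, Real.sin_pi_div_four]
  have h2 : (√2 : ℝ) * √2 = 2 := Real.mul_self_sqrt zero_le_two
  have h3 : (√2 : ℝ) ≠ 0 := by positivity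
  ext <;> field_simp <;> ring_nf <;> simp [h2, sq]

lemma map_gaussian_comb {ι : Type} [Fintype ι] {a b : ℝ≥0} :
    ((Measure.pi fun _ : ι => stdG).prod (Measure.pi fun _ : ι => stdG)).map
        (fun p => fun i => √(a : ℝ) * p.1 i + √(b : ℝ) * p.2 i) =
      (Measure.pi fun _ : ι => stdG).map (fun z => fun i => √((a : ℝ) + b) * z i) := by
  have hc : ∀ c : ℝ≥0, stdG.map (fun x => √(c : ℝ) * x) = gaussianReal 0 c := by
    intro c
    rw [gaussianReal_map_const_mul, mul_zero, mul_one]
    congr 1
    ext; simp [Real.sq_sqrt]
  have h1 : (stdG.prod stdG).map (fun p => √(a : ℝ) * p.1 + √(b : ℝ) * p.2) =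
      gaussianReal 0 (a + b) := by
    rw [show (fun p : ℝ × ℝ => √(a : ℝ) * p.1 + √(b : ℝ) * p.2) =
      (fun p => p.1 + p.2) ∘ Prod.map (fun x => √(a : ℝ) * x) (fun x => √(b : ℝ) * x) from rfl,
      ← Measure.map_map (by fun_prop) (by fun_prop),
      ← Measure.map_prod_map _ _ (by fun_prop) (by fun_prop), hc, hc]
    have := gaussianReal_conv_gaussianReal (m₁ := 0) (m₂ := 0) (v₁ := a) (v₂ := b)
    rwa [Measure.conv, add_zero] at this
  have h2 := hc (a + b)
  rw [NNReal.coe_add] at h2
  rw [show (fun p : (ι → ℝ) × (ι → ℝ) => fun i => √(a : ℝ) * p.1 i + √(b : ℝ) * p.2 i) =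
      (fun z : ι → ℝ × ℝ => fun i => √(a : ℝ) * (z i).1 + √(b : ℝ) * (z i).2) ∘
        (MeasurableEquiv.arrowProdEquivProdArrow ℝ ℝ ι).symm from rfl,
    ← Measure.map_map (by fun_prop) (by fun_prop),
    (measurePreserving_arrowProdEquivProdArrow ℝ ℝ ι (fun _ => stdG) fun _ => stdG).symm.map_eq]
  have h3 : (Measure.pi fun _ : ι => stdG.prod stdG).map
      (fun z i => √(a : ℝ) * (z i).1 + √(b : ℝ) * (z i).2) =
      Measure.pi fun _ : ι => (stdG.prod stdG).map fun q => √(a : ℝ) * q.1 + √(b : ℝ) * q.2 :=
    Measure.pi_map_pi (X := fun _ : ι => ℝ × ℝ) (Y := fun _ : ι => ℝ)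
      (f := fun _ q => √(a : ℝ) * q.1 + √(b : ℝ) * q.2) fun i => by fun_prop
  have h4 : (Measure.pi fun _ : ι => stdG).map (fun z i => √((a : ℝ) + b) * z i) =
      Measure.pi fun _ : ι => stdG.map fun q => √((a : ℝ) + b) * q :=
    Measure.pi_map_pi (X := fun _ : ι => ℝ) (Y := fun _ : ι => ℝ)
      (f := fun _ q => √((a : ℝ) + b) * q) fun i => by fun_prop
  rw [h3, h4]
  simp only [h1, h2]

end Vale.Agent.P143
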