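import Vale.Agent.P143.Energy

/-!
Weighted spanning trees of a finite graph: Kirchhoff's formula for the marginal of an edge,
proved by the classical correspondence between pairs (two-component forest, crossing edge)
and pairs (tree, edge of its path).
-/

namespace Vale.Agent.P143

open SimpleGraph

variable {V : Type}

/-- graph spanned by an edge finset -/
abbrev gr (T : Finset (Sym2 V)) : SimpleGraph V := fromEdgeSet (↑T : Set (Sym2 V))

/-- spanning tree of the graph with vertex set `R` and edge set `S` -/
def SpanTree (R : Set V) (S T : Finset (Sym2 V)) : Prop :=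
  T ⊆ S ∧ (gr T).IsAcyclic ∧ ∀ u ∈ R, ∀ v ∈ R, (gr T).Reachable u v

/-- spanning forest with two components, one containing `x`, the other containing `y` -/
def TwoForest (R : Set V) (S : Finset (Sym2 V)) (x y : V) (F : Finset (Sym2 V)) : Prop :=
  F ⊆ S ∧ (gr F).IsAcyclic ∧ ¬ (gr F).Reachable x y ∧
    ∀ v ∈ R, (gr F).Reachable x v ∨ (gr F).Reachable y v

/-- hypotheses on the finite graph -/
structure FiniteGraph (R : Set V) (S : Finset (Sym2 V)) : Prop where
  ends : ∀ f ∈ S, ∀ a ∈ f, a ∈ R
  loopless : ∀ f ∈ S, ¬ f.IsDiag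

lemma reach_deleteEdge {G : SimpleGraph V} {a b u v : V} (h : G.Reachable u v) :
    (G.deleteEdges {s(a, b)}).Reachable u v ∨
      (((G.deleteEdges {s(a, b)}).Reachable u a ∨ (G.deleteEdges {s(a, b)}).Reachable u b) ∧
      ((G.deleteEdges {s(a, b)}).Reachable v a ∨ (G.deleteEdges {s(a, b)}).Reachable v b)) := by
  obtain ⟨p⟩ := h
  induction p with
  | nil => exact Or.inl Reachable.rfl
  | @cons u w v hadj p ih =>
    by_cases hab : s(u, w) = s(a, b)
    · have hu : (G.deleteEdges {s(a, b)}).Reachable u a ∨
          (G.deleteEdges {s(a, b)}).Reachable u b := by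
        rcases Sym2.eq_iff.1 hab with ⟨rfl, rfl⟩ | ⟨rfl, rfl⟩
        · exact Or.inl Reachable.rfl
        · exact Or.inr Reachable.rfl
      have hw : (G.deleteEdges {s(a, b)}).Reachable w a ∨
          (G.deleteEdges {s(a, b)}).Reachable w b := by
        rcases Sym2.eq_iff.1 hab with ⟨rfl, rfl⟩ | ⟨rfl, rfl⟩
        · exact Or.inr Reachable.rfl
        · exact Or.inl Reachable.rfl
      refine Or.inr ⟨hu, ?_⟩
      rcases ih with h1 | ⟨_, h1⟩
      · exact hw.imp (fun h => h1.symm.trans h) (fun h => h1.symm.trans h)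
      · exact h1
    · have huw : (G.deleteEdges {s(a, b)}).Reachable u w :=
        (show (G.deleteEdges {s(a, b)}).Adj u w by simp [hadj, hab]).reachable
      rcases ih with h1 | ⟨h0, h1⟩
      · exact Or.inl (huw.trans h1)
      · exact Or.inr ⟨h0.imp huw.trans huw.trans, h1⟩

variable [DecidableEq V]

lemma gr_erase (T : Finset (Sym2 V)) (f : Sym2 V) : gr (T.erase f) = (gr T).deleteEdges {f} := by
  ext a b
  simp only [fromEdgeSet_adj, Finset.coe_erase, Set.mem_sdiff, Finset.mem_coe,
    Set.mem_singleton_iff, deleteEdges_adj]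
  tauto

lemma gr_mono {T T' : Finset (Sym2 V)} (h : T ⊆ T') : gr T ≤ gr T' :=
  fromEdgeSet_mono (by exact_mod_cast h)

lemma gr_adj_of_mem {T : Finset (Sym2 V)} {a b : V} (h : s(a, b) ∈ T) (hne : a ≠ b) :
    (gr T).Adj a b := by simp [h, hne]

lemma mem_of_mem_walk_edges {T : Finset (Sym2 V)} {u v : V} {p : (gr T).Walk u v} {f : Sym2 V}
    (hf : f ∈ p.edges) : f ∈ T := by
  have := p.edges_subset_edgeSet hf
  rw [edgeSet_fromEdgeSet] at this
  exact Finset.mem_coe.1 this.1

open Classical in
/-- indicator of the side of `x` -/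
noncomputable def side (F : Finset (Sym2 V)) (x : V) (v : V) : ℝ :=
  if (gr F).Reachable x v then 1 else 0

/-- product of two discrete gradients -/
def grad2 (φ ψ : V → ℝ) : Sym2 V → ℝ :=
  Sym2.lift ⟨fun a b => (φ a - φ b) * (ψ a - ψ b), fun a b => by ring⟩

@[simp] lemma grad2_mk (φ ψ : V → ℝ) (a b : V) :
    grad2 φ ψ s(a, b) = (φ a - φ b) * (ψ a - ψ b) := rfl

lemma grad2_self (φ : V → ℝ) (f : Sym2 V) : grad2 φ φ f = sqd φ f := by
  induction f using Sym2.ind with
  | _ a b => simp [sq]

lemma side_congr_left {F : Finset (Sym2 V)} {x x' : V} (h : (gr F).Reachable x x') (v : V) :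
    side F x v = side F x' v := by
  classical
  unfold side
  exact if_congr ⟨fun hv => h.symm.trans hv, fun hv => h.trans hv⟩ rfl rfl

lemma side_congr {F : Finset (Sym2 V)} (x : V) {a b : V} (h : (gr F).Reachable a b) :
    side F x a = side F x b := by
  classical
  unfold side
  exact if_congr ⟨fun hv => hv.trans h, fun hv => hv.trans h.symm⟩ rfl rfl

lemma side_of_reach {F : Finset (Sym2 V)} {x a : V} (h : (gr F).Reachable x a) :
    side F x a = 1 := by classical exact if_pos h

lemma side_of_not_reach {F : Finset (Sym2 V)} {x a : V} (h : ¬ (gr F).Reachable x a) :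
    side F x a = 0 := by classical exact if_neg h

/-- a tree path separates exactly along its edges; the gradient telescopes -/
lemma sum_path_edges {T : Finset (Sym2 V)} (hT : (gr T).IsAcyclic) (ψ : V → ℝ) {x y : V}
    (p : (gr T).Walk x y) (hp : p.IsPath) :
    ∑ f ∈ p.edges.toFinset, grad2 (side (T.erase f) x) ψ f = ψ x - ψ y := by
  induction p with
  | nil => simp
  | @cons u w z hadj p ih =>
    rw [Walk.cons_isPath_iff] at hp
    have hnot : s(u, w) ∉ p.edges.toFinset := by
      rw [List.mem_toFinset]
      intro hmem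
      exact hp.2 (p.fst_mem_support_of_mem_edges hmem)
    rw [Walk.edges_cons, List.toFinset_cons, Finset.sum_insert hnot]
    have hbr : ¬ (gr (T.erase s(u, w))).Reachable u w := by
      have := isAcyclic_iff_forall_adj_isBridge.1 hT hadj
      rw [gr_erase]
      exact this
    have h1 : grad2 (side (T.erase s(u, w)) u) ψ s(u, w) = ψ u - ψ w := by
      rw [grad2_mk, side_of_reach (Reachable.refl u), side_of_not_reach hbr, sub_zero, one_mul]
    have h2 : ∀ f ∈ p.edges.toFinset, grad2 (side (T.erase f) u) ψ f =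
        grad2 (side (T.erase f) w) ψ f := by
      intro f hf
      have hne : f ≠ s(u, w) := fun h => hnot (h ▸ hf)
      have hadj' : (gr (T.erase f)).Reachable u w := by
        rw [gr_erase]
        exact (show ((gr T).deleteEdges {f}).Adj u w from
          deleteEdges_adj.2 ⟨hadj, fun h => hne h.symm⟩).reachable
      have hside : side (T.erase f) u = side (T.erase f) w := by
        funext v
        exact side_congr_left hadj' v
      rw [hside]
    rw [h1, Finset.sum_congr rfl h2, ih hp.1]
    ring

lemma mem_path_iff {T : Finset (Sym2 V)} (hT : (gr T).IsAcyclic) {x y : V}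
    (p : (gr T).Walk x y) (hp : p.IsPath) (f : Sym2 V) :
    f ∈ p.edges.toFinset ↔ f ∈ T ∧ ¬ (gr (T.erase f)).Reachable x y := by
  rw [List.mem_toFinset]
  constructor
  · refine fun hf => ⟨mem_of_mem_walk_edges hf, fun hreach => ?_⟩
    obtain ⟨q, hq⟩ := hreach.exists_isPath
    have hle : gr (T.erase f) ≤ gr T := gr_mono (Finset.erase_subset _ _)
    have heq := congrArg Subtype.val
      (hT.path_unique ⟨p, hp⟩ ⟨q.mapLe hle, hq.mapLe hle⟩)
    simp only at heq
    rw [heq, Walk.edges_mapLe_eq_edges] at hf
    exact (Finset.notMem_erase f T) (mem_of_mem_walk_edges hf)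
  · rintro ⟨-, hn⟩
    by_contra hf
    apply hn
    rw [gr_erase]
    exact (p.toDeleteEdge f hf).reachable

variable {R : Set V} {S : Finset (Sym2 V)} {x y : V}

lemma twoForest_erase (_hG : FiniteGraph R S) (hx : x ∈ R) (hy : y ∈ R)
    {T : Finset (Sym2 V)} (hT : SpanTree R S T) {f : Sym2 V} (hf : f ∈ T)
    (hn : ¬ (gr (T.erase f)).Reachable x y) : TwoForest R S x y (T.erase f) := by
  refine ⟨(Finset.erase_subset _ _).trans hT.1,
    hT.2.1.anti (gr_mono (Finset.erase_subset _ _)), hn, fun v hv => ?_⟩
  induction f using Sym2.ind with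
  | _ a b =>
    rw [gr_erase] at hn ⊢
    have hxy := (reach_deleteEdge (a := a) (b := b) (hT.2.2 x hx y hy)).resolve_left hn
    rcases reach_deleteEdge (a := a) (b := b) (hT.2.2 x hx v hv) with h | ⟨-, hv'⟩
    · exact Or.inl h
    rcases hxy with ⟨hxa | hxb, hya | hyb⟩
    · exact absurd (hxa.trans hya.symm) hn
    · exact hv'.imp (fun h => hxa.trans h.symm) (fun h => hyb.trans h.symm)
    · exact hv'.symm.imp (fun h => hxb.trans h.symm) (fun h => hya.trans h.symm)
    · exact absurd (hxb.trans hyb.symm) hn

lemma spanTree_insert (hG : FiniteGraph R S) {F : Finset (Sym2 V)} (hF : TwoForest R S x y F)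
    {f : Sym2 V} (hf : f ∈ S) (hcross : sqd (side F x) f ≠ 0) :
    f ∉ F ∧ SpanTree R S (insert f F) := by
  induction f using Sym2.ind with
  | _ a b =>
    have hab : a ≠ b := by simpa using hG.loopless _ hf
    have ha := hF.2.2.2 a (hG.ends _ hf a (by simp))
    have hb := hF.2.2.2 b (hG.ends _ hf b (by simp))
    have hside : side F x a ≠ side F x b := fun h => hcross (by simp [h])
    have hnab : ¬ (gr F).Reachable a b := by
      intro h
      exact hside (side_congr x h)
    have hmem : s(a, b) ∉ F := fun h => hnab (gr_adj_of_mem h hab).reachable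
    have heq : gr (insert s(a, b) F) = gr F ⊔ fromEdgeSet {s(a, b)} := by
      rw [gr, gr, Finset.coe_insert, Set.insert_eq, Set.union_comm]
      exact SimpleGraph.fromEdgeSet_union _ _
    refine ⟨hmem, Finset.insert_subset hf hF.1, ?_, ?_⟩
    · rw [heq]
      exact (isAcyclic_sup_fromEdgeSet_iff).2 ⟨hF.2.1, fun h => absurd h hnab⟩
    · have hle : gr F ≤ gr (insert s(a, b) F) := gr_mono (Finset.subset_insert _ _)
      have hxy : (gr (insert s(a, b) F)).Reachable x y := by
        have hadj : (gr (insert s(a, b) F)).Reachable a b :=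
          (gr_adj_of_mem (Finset.mem_insert_self _ _) hab).reachable
        by_cases hxa : (gr F).Reachable x a
        · have hyb : (gr F).Reachable y b := hb.resolve_left fun hxb => hnab (hxa.symm.trans hxb)
          exact ((hxa.mono hle).trans hadj).trans (hyb.mono hle).symm
        · have hya := ha.resolve_left hxa
          have hxb : (gr F).Reachable x b := by
            by_contra hxb
            exact hside (by rw [side_of_not_reach hxa, side_of_not_reach hxb])
          exact ((hxb.mono hle).trans hadj.symm).trans (hya.mono hle).symm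
      intro u hu v hv
      have aux : ∀ w ∈ R, (gr (insert s(a, b) F)).Reachable x w := fun w hw =>
        (hF.2.2.2 w hw).elim (fun h => h.mono hle) (fun h => hxy.trans (h.mono hle))
      exact (aux u hu).symm.trans (aux v hv)

/-- weight of an edge set -/
noncomputable def wt (h : Sym2 V → ℝ) (T : Finset (Sym2 V)) : ℝ := Real.exp (∑ f ∈ T, h f)

open Classical in
/-- spanning trees as a finset -/
noncomputable def trees (R : Set V) (S : Finset (Sym2 V)) : Finset (Finset (Sym2 V)) :=
  S.powerset.filter (SpanTree R S)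

open Classical in
/-- two-component forests as a finset -/
noncomputable def forests (R : Set V) (S : Finset (Sym2 V)) (x y : V) :
    Finset (Finset (Sym2 V)) :=
  S.powerset.filter (TwoForest R S x y)

lemma mem_trees {T : Finset (Sym2 V)} : T ∈ trees R S ↔ SpanTree R S T := by
  simp only [trees, Finset.mem_filter, Finset.mem_powerset, and_iff_right_iff_imp]
  exact fun h => h.1

lemma mem_forests {T : Finset (Sym2 V)} : T ∈ forests R S x y ↔ TwoForest R S x y T := by
  simp only [forests, Finset.mem_filter, Finset.mem_powerset, and_iff_right_iff_imp]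
  exact fun h => h.1

/-- potential: total weight of forests putting `v` on the side of `x` -/
noncomputable def potential (R : Set V) (S : Finset (Sym2 V)) (h : Sym2 V → ℝ) (x y : V)
    (v : V) : ℝ :=
  ∑ F ∈ forests R S x y, wt h F * side F x v

lemma grad2_potential (h : Sym2 V → ℝ) (ψ : V → ℝ) (f : Sym2 V) :
    grad2 (potential R S h x y) ψ f = ∑ F ∈ forests R S x y, wt h F * grad2 (side F x) ψ f := by
  induction f using Sym2.ind with
  | _ a b =>
    simp only [grad2_mk, potential, ← Finset.sum_sub_distrib, Finset.sum_mul]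
    exact Finset.sum_congr rfl fun F _ => by ring

open Classical in
lemma flow_identity (hG : FiniteGraph R S) (hx : x ∈ R) (hy : y ∈ R) (h : Sym2 V → ℝ)
    (ψ : V → ℝ) :
    ∑ f ∈ S, Real.exp (h f) * grad2 (potential R S h x y) ψ f =
      (∑ T ∈ trees R S, wt h T) * (ψ x - ψ y) := by
  simp only [grad2_potential, Finset.mul_sum, Finset.sum_mul]
  rw [Finset.sum_comm, Finset.sum_sigma' (forests R S x y) (fun _ => S)
    (fun F f => Real.exp (h f) * (wt h F * grad2 (side F x) ψ f))]
  have hrhs : ∑ T ∈ trees R S, wt h T * (ψ x - ψ y) =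
      ∑ T ∈ trees R S, ∑ f ∈ T.filter (fun f => ¬ (gr (T.erase f)).Reachable x y),
        wt h T * grad2 (side (T.erase f) x) ψ f := by
    refine Finset.sum_congr rfl fun T hT => ?_
    rw [mem_trees] at hT
    obtain ⟨p, hp⟩ := (hT.2.2 x hx y hy).exists_isPath
    have hset : T.filter (fun f => ¬ (gr (T.erase f)).Reachable x y) = p.edges.toFinset := by
      ext f; simp only [Finset.mem_filter, mem_path_iff hT.2.1 p hp f]
    rw [hset, ← Finset.mul_sum, sum_path_edges hT.2.1 ψ p hp]
  rw [hrhs, Finset.sum_sigma']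
  refine Finset.sum_bij_ne_zero (fun a _ _ => ⟨insert a.2 a.1, a.2⟩) ?_ ?_ ?_ ?_
  · rintro ⟨F, f⟩ ha hne
    simp only [Finset.mem_sigma, mem_forests] at ha
    have hc : sqd (side F x) f ≠ 0 := by
      intro h0
      apply hne
      revert h0
      induction f using Sym2.ind with
      | _ a b => intro h0; simp only [sqd_mk, sq_eq_zero_iff] at h0; simp [h0]
    obtain ⟨hnot, hsp⟩ := spanTree_insert hG ha.1 ha.2 hc
    simp only [Finset.mem_sigma, mem_trees, Finset.mem_filter, Finset.mem_insert_self, true_and]
    refine ⟨hsp, ?_⟩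
    rw [Finset.erase_insert hnot]
    exact ha.1.2.2.1
  · rintro ⟨F, f⟩ ha hne ⟨F', f'⟩ ha' hne' heq
    simp only [Finset.mem_sigma, mem_forests] at ha ha'
    have hc : ∀ {F f}, Real.exp (h f) * (wt h F * grad2 (side F x) ψ f) ≠ 0 →
        sqd (side F x) f ≠ 0 := by
      intro F f hne h0
      apply hne
      revert h0
      induction f using Sym2.ind with
      | _ a b => intro h0; simp only [sqd_mk, sq_eq_zero_iff] at h0; simp [h0]
    obtain ⟨h1, -⟩ := spanTree_insert hG ha.1 ha.2 (hc hne)
    obtain ⟨h2, -⟩ := spanTree_insert hG ha'.1 ha'.2 (hc hne')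
    simp only [Sigma.mk.injEq, heq_eq_eq] at heq
    obtain ⟨he1, rfl⟩ := heq
    rw [Sigma.mk.injEq]
    refine ⟨?_, HEq.rfl⟩
    rw [← Finset.erase_insert h1, he1, Finset.erase_insert h2]
  · rintro ⟨T, f⟩ hT hne
    simp only [Finset.mem_sigma, mem_trees, Finset.mem_filter] at hT
    obtain ⟨hT, hfT, hn⟩ := hT
    have hF := twoForest_erase hG hx hy hT hfT hn
    refine ⟨⟨T.erase f, f⟩, ?_, ?_, ?_⟩
    · simp [mem_forests, hF, hT.1 hfT]
    · intro h0
      apply hne
      rcases mul_eq_zero.1 h0 with h1 | h1
      · exact absurd h1 (Real.exp_ne_zero _)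
      · rcases mul_eq_zero.1 h1 with h2 | h2
        · exact absurd h2 (Real.exp_ne_zero _)
        · simp [h2]
    · simp [Finset.insert_erase hfT]
  · rintro ⟨F, f⟩ ha hne
    simp only [Finset.mem_sigma, mem_forests] at ha
    have hc : sqd (side F x) f ≠ 0 := by
      intro h0
      apply hne
      revert h0
      induction f using Sym2.ind with
      | _ a b => intro h0; simp only [sqd_mk, sq_eq_zero_iff] at h0; simp [h0]
    obtain ⟨hnot, -⟩ := spanTree_insert hG ha.1 ha.2 hc
    simp only [Finset.erase_insert hnot]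
    rw [← mul_assoc, wt, wt, Finset.sum_insert hnot, Real.exp_add]

open Classical in
lemma sum_trees_mem (hG : FiniteGraph R S) (hx : x ∈ R) (hy : y ∈ R) (hxy : x ≠ y)
    (he : s(x, y) ∈ S) (h : Sym2 V → ℝ) :
    ∑ T ∈ (trees R S).filter (s(x, y) ∈ ·), wt h T =
      Real.exp (h s(x, y)) * ∑ F ∈ forests R S x y, wt h F := by
  have hins : ∀ F, TwoForest R S x y F → s(x, y) ∉ F ∧ SpanTree R S (insert s(x, y) F) :=
    fun F hF => spanTree_insert hG hF he (by
      simp [side_of_reach (Reachable.refl x), side_of_not_reach hF.2.2.1])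
  rw [Finset.mul_sum]
  refine Finset.sum_bij' (fun T _ => T.erase s(x, y)) (fun F _ => insert s(x, y) F) ?_ ?_ ?_ ?_ ?_
  · intro T hT
    rw [Finset.mem_filter, mem_trees] at hT
    rw [mem_forests]
    refine twoForest_erase hG hx hy hT.1 hT.2 ?_
    rw [gr_erase]
    exact isAcyclic_iff_forall_adj_isBridge.1 hT.1.2.1 (gr_adj_of_mem hT.2 hxy)
  · intro F hF
    rw [mem_forests] at hF
    simp [mem_trees, (hins F hF).2]
  · intro T hT
    exact Finset.insert_erase (Finset.mem_filter.1 hT).2
  · intro F hF
    exact Finset.erase_insert (hins F (mem_forests.1 hF)).1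
  · intro T hT
    rw [wt, wt, ← Real.exp_add, Finset.add_sum_erase _ _ (Finset.mem_filter.1 hT).2]

open Classical in
/-- **Kirchhoff**: the weighted probability of an edge is `marg`. -/
theorem marg_mul_sum (hG : FiniteGraph R S) (hne : (trees R S).Nonempty) {e : Sym2 V}
    (he : e ∈ S) (h : Sym2 V → ℝ) :
    marg (S : Set (Sym2 V)) e h * ∑ T ∈ trees R S, wt h T =
      ∑ T ∈ (trees R S).filter (e ∈ ·), wt h T := by
  induction e using Sym2.ind with
  | _ x y =>
    have hx : x ∈ R := hG.ends _ he x (by simp)
    have hy : y ∈ R := hG.ends _ he y (by simp)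
    have hd := hG.loopless _ he
    have hxy : x ≠ y := by simpa using hd
    set Z := ∑ T ∈ trees R S, wt h T with hZ
    set Z2 := ∑ F ∈ forests R S x y, wt h F with hZ2
    set φ := potential R S h x y with hφ
    have hZpos : 0 < Z := Finset.sum_pos (fun T _ => Real.exp_pos _) hne
    have hdrop : φ x - φ y = Z2 := by
      rw [hφ, hZ2, potential, potential, ← Finset.sum_sub_distrib]
      refine Finset.sum_congr rfl fun F hF => ?_
      rw [mem_forests] at hF
      rw [side_of_reach (Reachable.refl x), side_of_not_reach hF.2.2.1]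
      ring
    have hE : energy S h φ = Z * Z2 := by
      rw [← hdrop, ← flow_identity hG hx hy h φ]
      exact Finset.sum_congr rfl fun f _ => by rw [← grad2_self]
    -- Cauchy–Schwarz lower bound
    have hlow : ∀ ψ : V → ℝ, sqd ψ s(x, y) = 1 → Z ^ 2 ≤ Z * Z2 * energy S h ψ := by
      intro ψ hψ
      have h1 := flow_identity hG hx hy h ψ
      have hψ' : (ψ x - ψ y) ^ 2 = 1 := by simpa using hψ
      calc Z ^ 2 = (Z * (ψ x - ψ y)) ^ 2 := by rw [mul_pow, hψ', mul_one]
        _ = (∑ f ∈ S, Real.exp (h f) * grad2 φ ψ f) ^ 2 := by rw [h1]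
        _ ≤ (∑ f ∈ S, Real.exp (h f) * sqd φ f) * ∑ f ∈ S, Real.exp (h f) * sqd ψ f := by
            refine Finset.sum_sq_le_sum_mul_sum_of_sq_le_mul S
              (fun f _ => mul_nonneg (Real.exp_nonneg _) (sqd_nonneg _ _))
              (fun f _ => mul_nonneg (Real.exp_nonneg _) (sqd_nonneg _ _)) (fun f _ => le_of_eq ?_)
            induction f using Sym2.ind with
            | _ a b => simp only [grad2_mk, sqd_mk]; ring
        _ = Z * Z2 * energy S h ψ := by
            rw [show (∑ f ∈ S, Real.exp (h f) * sqd φ f) = Z * Z2 from hE]; rfl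
    have hZ2pos : 0 < Z2 := by
      rcases (show 0 ≤ Z2 from Finset.sum_nonneg fun F _ => (Real.exp_pos _).le).eq_or_lt with
        h0 | h0
      · obtain ⟨ψ, hψ⟩ := exists_drop hd
        have := hlow ψ hψ
        rw [← h0, mul_zero, zero_mul] at this
        nlinarith
      · exact h0
    have hcut : cutE S s(x, y) h = Z / Z2 := by
      refine le_antisymm ?_ (le_cutE S hd h fun ψ hψ => ?_)
      · refine (cutE_le S _ h (fun v => φ v / Z2) ?_).trans (le_of_eq ?_)
        · simp only [sqd_mk]
          rw [← sub_div, hdrop, div_self hZ2pos.ne', one_pow]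
        · calc energy S h (fun v => φ v / Z2) = energy S h φ / Z2 ^ 2 := by
                rw [energy, energy, Finset.sum_div]
                refine Finset.sum_congr rfl fun f _ => ?_
                induction f using Sym2.ind with
                | _ a b => simp only [sqd_mk]; field_simp
            _ = Z / Z2 := by rw [hE]; field_simp
      · rw [div_le_iff₀ hZ2pos]
        have := hlow ψ hψ
        nlinarith
    rw [marg_coe_finset S he, hcut, sum_trees_mem hG hx hy hxy he h, ← hZ2]
    field_simp

end Vale.Agent.P143
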